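import Mathlib

/-!
# Row 337, ENG (helper86): ordered births

A polymer `g` is born before time `s` with probability `w s g = c g * s ^ k g`, independently.
`D.m L H s` is the (unnormalised: `D.m L 1 s = ∏_L (1 - w s)`) mean of `H` of the CHRONOLOGICAL
list of the births in `(s, Y]` among `L`, on the event that nobody is born before `s`.
`D.MM P Lw H` averages over a random family `Lw ω`.
-/

set_option autoImplicit false
set_option linter.unusedSectionVars false

namespace Crest.Agent.N337.Bi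

open Finset

lemma le_of_deriv {u u' : ℝ → ℝ} {a b : ℝ} (hab : a ≤ b) (hc : ContinuousOn u (Set.Icc a b))
    (hd : ∀ x ∈ Set.Ioo a b, HasDerivAt u (u' x) x) (h : ∀ x ∈ Set.Ioo a b, u' x ≤ 0) :
    u b ≤ u a := by
  refine antitoneOn_of_deriv_nonpos (convex_Icc a b) hc ?_ ?_ (Set.left_mem_Icc.2 hab)
    (Set.right_mem_Icc.2 hab) hab
  · rw [interior_Icc]; exact fun x hx => (hd x hx).differentiableAt.differentiableWithinAt
  · rw [interior_Icc]; exact fun x hx => (hd x hx).deriv ▸ h x hx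

variable {Γ : Type} [DecidableEq Γ]

lemma erase_ind {P : Finset Γ → Prop} (h : ∀ L, (∀ g ∈ L, P (L.erase g)) → P L) (L : Finset Γ) :
    P L := Finset.strongInduction (fun L ih => h L fun _ hg => ih _ (erase_ssubset hg)) L

/-- birth data. -/
structure Dat (Γ : Type) where
  c : Γ → ℝ
  k : Γ → ℕ
  Y : ℝ

namespace Dat

variable (D : Dat Γ)

structure Ok : Prop where
  c0 : ∀ g, 0 ≤ D.c g
  c1 : ∀ g, D.c g ≤ 1
  Y0 : 0 ≤ D.Y
  Y1 : D.Y ≤ 1

/-- probability of a birth before `s`. -/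
def w (s : ℝ) (g : Γ) : ℝ := D.c g * s ^ D.k g
/-- birth rate. -/
def w' (s : ℝ) (g : Γ) : ℝ := D.c g * (D.k g * s ^ (D.k g - 1))

lemma w_deriv (s : ℝ) (g : Γ) : HasDerivAt (fun t => D.w t g) (D.w' s g) s :=
  (hasDerivAt_pow (D.k g) s).const_mul _

lemma w'_cont (g : Γ) : Continuous fun t => D.w' t g := by unfold w'; fun_prop

lemma w'_mul (s : ℝ) (g : Γ) : D.w' s g * s = D.k g * D.w s g := by
  unfold w' w
  rcases D.k g with _ | n
  · simp
  · simp only [Nat.add_sub_cancel, pow_succ]; ring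

variable {D} in
lemma Ok.w'_nn (h : D.Ok) {s : ℝ} (hs : 0 ≤ s) (g : Γ) : 0 ≤ D.w' s g :=
  mul_nonneg (h.c0 g) (by positivity)

variable {D} in
lemma Ok.w_nn (h : D.Ok) {s : ℝ} (hs : 0 ≤ s) (g : Γ) : 0 ≤ D.w s g :=
  mul_nonneg (h.c0 g) (by positivity)

variable {D} in
lemma Ok.w_le (h : D.Ok) {s : ℝ} (hs : 0 ≤ s) (hs1 : s ≤ D.Y) (g : Γ) : D.w s g ≤ 1 :=
  mul_le_one₀ (h.c1 g) (by positivity) (pow_le_one₀ hs (hs1.trans h.Y1))

noncomputable def mF : ℕ → Finset Γ → (List Γ → ℝ) → ℝ → ℝ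
  | 0, L, H, _ => (∏ g ∈ L, (1 - D.w D.Y g)) * H []
  | n + 1, L, H, s => (∏ g ∈ L, (1 - D.w D.Y g)) * H [] +
      ∫ t in s..D.Y, ∑ g ∈ L, D.w' t g * mF n (L.erase g) (fun l => H (g :: l)) t

/-- the mean of `H` of the chronological list of the births in `(s, Y]`. -/
noncomputable def m (L : Finset Γ) (H : List Γ → ℝ) (s : ℝ) : ℝ := D.mF L.card L H s

/-- first-birth recursion. -/
lemma m_eq (L : Finset Γ) (H : List Γ → ℝ) (s : ℝ) :
    D.m L H s = (∏ g ∈ L, (1 - D.w D.Y g)) * H [] +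
      ∫ t in s..D.Y, ∑ g ∈ L, D.w' t g * D.m (L.erase g) (fun l => H (g :: l)) t := by
  unfold m
  rcases h : L.card with _ | n
  · rw [card_eq_zero.1 h]; simp [mF]
  · rw [mF]
    congr 2
    funext t
    exact sum_congr rfl fun g hg => by rw [card_erase_of_mem hg, h]; rfl

lemma m_end (L : Finset Γ) (H : List Γ → ℝ) :
    D.m L H D.Y = (∏ g ∈ L, (1 - D.w D.Y g)) * H [] := by rw [m_eq]; simp

lemma deriv_of {f : ℝ → ℝ} (hf : Continuous f) (a b s : ℝ) :
    HasDerivAt (fun u => a + ∫ t in u..b, f t) (-f s) s := by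
  have := ((hf.integral_hasStrictDerivAt b s).hasDerivAt.neg).const_add a
  simpa only [← intervalIntegral.integral_symm, Pi.neg_apply] using this

lemma m_cont (L : Finset Γ) : ∀ H, Continuous (D.m L H) := by
  induction L using erase_ind with
  | h L ih =>
    intro H
    rw [show D.m L H = _ from funext (D.m_eq L H)]
    exact continuous_iff_continuousAt.2 fun s => (deriv_of (continuous_finsetSum _ fun g hg =>
      (D.w'_cont g).mul (ih g hg _)) _ _ s).continuousAt

lemma int_cont (L : Finset Γ) (H : List Γ → ℝ) :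
    Continuous fun t => ∑ g ∈ L, D.w' t g * D.m (L.erase g) (fun l => H (g :: l)) t :=
  continuous_finsetSum _ fun g _ => (D.w'_cont g).mul (D.m_cont _ _)

lemma m_deriv (L : Finset Γ) (H : List Γ → ℝ) (s : ℝ) : HasDerivAt (D.m L H)
    (-∑ g ∈ L, D.w' s g * D.m (L.erase g) (fun l => H (g :: l)) s) s := by
  rw [show D.m L H = _ from funext (D.m_eq L H)]
  exact deriv_of (D.int_cont L H) _ _ s

lemma m_add (L : Finset Γ) : ∀ (H H' : List Γ → ℝ) (s : ℝ),
    D.m L (fun l => H l + H' l) s = D.m L H s + D.m L H' s := by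
  induction L using erase_ind with
  | h L ih =>
    intro H H' s
    rw [m_eq, D.m_eq L H, D.m_eq L H', add_add_add_comm, ← intervalIntegral.integral_add
      ((D.int_cont L H).intervalIntegrable _ _) ((D.int_cont L H').intervalIntegrable _ _), mul_add]
    congr 2
    funext t
    rw [← sum_add_distrib]
    exact sum_congr rfl fun g hg => by rw [ih g hg, mul_add]

lemma m_mul (L : Finset Γ) : ∀ (a : ℝ) (H : List Γ → ℝ) (s : ℝ),
    D.m L (fun l => a * H l) s = a * D.m L H s := by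
  induction L using erase_ind with
  | h L ih =>
    intro a H s
    rw [m_eq, D.m_eq L H, mul_add, ← intervalIntegral.integral_const_mul, mul_left_comm]
    congr 2
    funext t
    rw [mul_sum]
    exact sum_congr rfl fun g hg => by rw [ih g hg, mul_left_comm]

lemma m_zero (L : Finset Γ) (s : ℝ) : D.m L (fun _ => 0) s = 0 := by
  simpa using D.m_mul L 0 (fun _ => 0) s

lemma m_sum {ι : Type*} (I : Finset ι) (L : Finset Γ) (H : ι → List Γ → ℝ) (s : ℝ) :
    D.m L (fun l => ∑ i ∈ I, H i l) s = ∑ i ∈ I, D.m L (H i) s := by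
  classical
  induction I using Finset.induction_on with
  | empty => simpa using D.m_zero L s
  | insert i I hi ih => simp only [sum_insert hi, m_add, ih]

/-- the lists that can occur. -/
def Adm (L : Finset Γ) (l : List Γ) : Prop := l.Nodup ∧ ∀ g ∈ l, g ∈ L ∧ D.c g ≠ 0

variable {D}

lemma Adm.cons {L : Finset Γ} {g : Γ} {l : List Γ} (h : D.Adm (L.erase g) l) (hg : g ∈ L)
    (hc : D.c g ≠ 0) : D.Adm L (g :: l) :=
  ⟨List.nodup_cons.2 ⟨fun k => notMem_erase g L (h.2 g k).1, h.1⟩, fun x hx => by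
    rcases List.mem_cons.1 hx with rfl | hx
    exacts [⟨hg, hc⟩, ⟨mem_of_mem_erase (h.2 x hx).1, (h.2 x hx).2⟩]⟩

lemma m_mono (h : D.Ok) (L : Finset Γ) : ∀ {H H' : List Γ → ℝ}, (∀ l, D.Adm L l → H l ≤ H' l) →
    ∀ {s : ℝ}, 0 ≤ s → s ≤ D.Y → D.m L H s ≤ D.m L H' s := by
  induction L using erase_ind with
  | h L ih =>
    intro H H' hH s hs hs1
    rw [m_eq, D.m_eq L H']
    refine add_le_add (mul_le_mul_of_nonneg_left (hH [] ⟨List.nodup_nil, by simp⟩)
      (prod_nonneg fun g _ => sub_nonneg.2 (h.w_le h.Y0 le_rfl g))) ?_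
    refine intervalIntegral.integral_mono_on hs1 ((D.int_cont L H).intervalIntegrable _ _)
      ((D.int_cont L H').intervalIntegrable _ _) fun t ht => sum_le_sum fun g hg => ?_
    by_cases hc : D.c g = 0
    · simp [w', hc]
    · exact mul_le_mul_of_nonneg_left (ih g hg (fun l hl => hH _ (hl.cons hg hc)) (hs.trans ht.1)
        ht.2) (h.w'_nn (hs.trans ht.1) g)

lemma m_nn (h : D.Ok) {L : Finset Γ} {H : List Γ → ℝ} (hH : ∀ l, D.Adm L l → 0 ≤ H l) {s : ℝ}
    (hs : 0 ≤ s) (hs1 : s ≤ D.Y) : 0 ≤ D.m L H s :=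
  (D.m_zero L s).symm.trans_le (m_mono h L hH hs hs1)

variable (D)

/-- functions of the set of births: the product law. -/
theorem m_set (L : Finset Γ) : ∀ (F : Finset Γ → ℝ) (s : ℝ), D.m L (fun l => F l.toFinset) s =
    ∑ C ∈ L.powerset, (∏ g ∈ C, (D.w D.Y g - D.w s g)) * (∏ g ∈ L \ C, (1 - D.w D.Y g)) * F C := by
  induction L using erase_ind with
  | h L ih =>
    intro F s
    set R : ℝ → ℝ := fun s => ∑ C ∈ L.powerset, (∏ g ∈ C, (D.w D.Y g - D.w s g)) *
      (∏ g ∈ L \ C, (1 - D.w D.Y g)) * F C with hR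
    have hd : ∀ t, HasDerivAt R (-∑ g ∈ L, D.w' t g *
        D.m (L.erase g) (fun l => F (g :: l).toFinset) t) t := by
      intro t
      have h1 := HasDerivAt.fun_sum (u := L.powerset) (x := t) fun C _ =>
        ((HasDerivAt.fun_finsetProd (u := C) (x := t) fun g _ =>
          (D.w_deriv t g).const_sub (D.w D.Y g)).mul_const (∏ g ∈ L \ C, (1 - D.w D.Y g))).mul_const
          (F C)
      refine h1.congr_deriv (Eq.symm ?_)
      simp only [List.toFinset_cons, smul_eq_mul, sum_mul]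
      rw [← sum_neg_distrib, sum_comm' (t' := L) (s' := fun g => L.powerset.filter (g ∈ ·))
        (by intro C g; simp only [mem_powerset, mem_filter]; tauto)]
      refine sum_congr rfl fun g hg => ?_
      rw [ih g hg (fun C => F (insert g C)), mul_sum, ← sum_neg_distrib]
      refine sum_nbij' (insert g) (fun C => C.erase g) ?_ ?_ ?_ ?_ ?_
      · intro C hC
        simp only [mem_powerset, mem_filter, mem_insert_self, and_true] at hC ⊢
        exact insert_subset hg (hC.trans (erase_subset _ _))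
      · intro C hC
        simp only [mem_powerset, mem_filter] at hC ⊢
        exact erase_subset_erase g hC.1
      · intro C hC
        exact erase_insert fun k => notMem_erase g L (mem_powerset.1 hC k)
      · intro C hC
        exact insert_erase (mem_filter.1 hC).2
      · intro C hC
        have hg' : g ∉ C := fun k => notMem_erase g L (mem_powerset.1 hC k)
        rw [erase_insert hg', sdiff_insert, erase_sdiff_comm]; ring
    have h2 := is_const_of_deriv_eq_zero (f := fun t => D.m L (fun l => F l.toFinset) t - R t)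
      (fun t => ((D.m_deriv L _ t).sub (hd t)).differentiableAt)
      (fun t => by simpa using ((D.m_deriv L (fun l => F l.toFinset) t).fun_sub (hd t)).deriv) s D.Y
    have h3 : R D.Y = (∏ g ∈ L, (1 - D.w D.Y g)) * F ∅ := by
      simp only [hR]
      rw [sum_eq_single ∅ (fun C _ hC => by
        obtain ⟨g, hg⟩ := nonempty_iff_ne_empty.2 hC
        rw [prod_eq_zero hg (sub_self _)]; ring) (by simp)]
      simp
    rw [m_end, h3] at h2
    simp only [List.toFinset_nil, sub_self] at h2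
    exact sub_eq_zero.1 h2

lemma m_one (L : Finset Γ) (s : ℝ) : D.m L (fun _ => 1) s = ∏ g ∈ L, (1 - D.w s g) := by
  rw [D.m_set L (fun _ => 1) s]
  simp only [mul_one]
  rw [← prod_add]
  exact prod_congr rfl fun g _ => by ring

/-- the law of the set of all births. -/
theorem m_set0 {L : Finset Γ} (hk : ∀ g ∈ L, D.k g ≠ 0) (F : Finset Γ → ℝ) :
    D.m L (fun l => F l.toFinset) 0 =
      ∑ C ∈ L.powerset, (∏ g ∈ C, D.w D.Y g) * (∏ g ∈ L \ C, (1 - D.w D.Y g)) * F C := by
  rw [m_set]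
  refine sum_congr rfl fun C hC => ?_
  rw [prod_congr rfl fun g hg => ?_]
  rw [w, w, zero_pow (hk g (mem_powerset.1 hC hg)), mul_zero, sub_zero]

/-! ### random families -/

variable {Ω : Type} [Fintype Ω] (P : Ω → ℝ) (Lw : Ω → Finset Γ)

/-- the mean over the family and the ordered births. -/
noncomputable def MM (H : Ω → List Γ → ℝ) : ℝ := ∑ ω, P ω * D.m (Lw ω) (H ω) 0

/-- `A` is present, nobody else is born before `s`. -/
noncomputable def Z (A : Finset Γ) (s : ℝ) : ℝ :=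
  ∑ ω, (P ω * if A ⊆ Lw ω then 1 else 0) * ∏ g ∈ Lw ω \ A, (1 - D.w s g)


lemma MM_mul (a : ℝ) (H : Ω → List Γ → ℝ) :
    D.MM P Lw (fun ω l => a * H ω l) = a * D.MM P Lw H := by
  simp only [MM, m_mul, mul_sum, mul_left_comm]

lemma MM_sum {ι : Type*} (I : Finset ι) (H : ι → Ω → List Γ → ℝ) :
    D.MM P Lw (fun ω l => ∑ i ∈ I, H i ω l) = ∑ i ∈ I, D.MM P Lw (H i) := by
  simp only [MM, m_sum, mul_sum]; exact sum_comm

variable {D P Lw}

lemma MM_mono (h : D.Ok) (hP : ∀ ω, 0 ≤ P ω) {H H' : Ω → List Γ → ℝ}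
    (hH : ∀ ω l, P ω ≠ 0 → D.Adm (Lw ω) l → H ω l ≤ H' ω l) : D.MM P Lw H ≤ D.MM P Lw H' :=
  sum_le_sum fun ω _ => by
    by_cases h0 : P ω = 0
    · simp [h0]
    · exact mul_le_mul_of_nonneg_left (m_mono h _ (fun l => hH ω l h0) le_rfl h.Y0) (hP ω)

/-- events of the family alone. -/
lemma MM_fam (h : D.Ok) (hP : ∀ ω, 0 ≤ P ω) {f : Ω → ℝ} (hf : ∀ ω, 0 ≤ f ω) :
    D.MM P Lw (fun ω _ => f ω) ≤ ∑ ω, P ω * f ω :=
  sum_le_sum fun ω _ => mul_le_mul_of_nonneg_left (by
    have := D.m_mul (Lw ω) (f ω) (fun _ => 1) 0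
    simp only [mul_one] at this
    rw [this, m_one]
    exact mul_le_of_le_one_right (hf ω) (prod_le_one
      (fun g _ => sub_nonneg.2 (h.w_le le_rfl h.Y0 g))
      fun g _ => sub_le_self _ (h.w_nn le_rfl g))) (hP ω)

open Classical in
/-- **union bound.** -/
theorem MM_union (h : D.Ok) (hP : ∀ ω, 0 ≤ P ω) {ι : Type*} (I : Finset ι)
    (E : Ω → List Γ → Prop) (F : ι → Ω → List Γ → Prop)
    (hE : ∀ ω l, P ω ≠ 0 → D.Adm (Lw ω) l → E ω l → ∃ i ∈ I, F i ω l) :
    D.MM P Lw (fun ω l => if E ω l then 1 else 0) ≤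
      ∑ i ∈ I, D.MM P Lw fun ω l => if F i ω l then 1 else 0 := by
  rw [← MM_sum]
  refine MM_mono h hP fun ω l h0 hl => ?_
  have hn : ∀ i ∈ I, (0 : ℝ) ≤ if F i ω l then 1 else 0 := fun i _ => by split_ifs <;> norm_num
  split_ifs with hE'
  · obtain ⟨i, hi, hF⟩ := hE ω l h0 hl hE'
    exact le_trans (by rw [if_pos hF]) (single_le_sum hn hi)
  · exact sum_nonneg hn

lemma Z_nn (h : D.Ok) (hP : ∀ ω, 0 ≤ P ω) (A : Finset Γ) {s : ℝ} (hs : 0 ≤ s) (hs1 : s ≤ D.Y) :
    0 ≤ D.Z P Lw A s :=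
  sum_nonneg fun ω _ => mul_nonneg (mul_nonneg (hP ω) (by split_ifs <;> norm_num))
    (prod_nonneg fun g _ => sub_nonneg.2 (h.w_le hs hs1 g))

lemma Z_empty_le (h : D.Ok) (hP : ∀ ω, 0 ≤ P ω) (h1 : ∑ ω, P ω ≤ 1) : D.Z P Lw ∅ 0 ≤ 1 := by
  refine le_trans (sum_le_sum fun ω _ => ?_) h1
  rw [if_pos (empty_subset _), mul_one]
  exact mul_le_of_le_one_right (hP ω) (prod_le_one
    (fun g _ => sub_nonneg.2 (h.w_le le_rfl h.Y0 g)) fun g _ => sub_le_self _ (h.w_nn le_rfl g))

end Dat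

end Crest.Agent.N337.Bi
private theorem rz_972d8f6165 : type_of% @_root_.Crest.Agent.N337.Bi.Dat.mF.eq_def := @_root_.Crest.Agent.N337.Bi.Dat.mF.eq_def -- L76
private theorem rz_5f17464f8a : type_of% @_root_.Crest.Agent.N337.Bi.Dat.mF.eq_1 := @_root_.Crest.Agent.N337.Bi.Dat.mF.eq_1 -- L76
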