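import Crest.Agent.N337.W.Env
import Crest.Agent.N337.Top.Kill
import Crest.Agent.N337.I.Env
import Crest.Agent.N337.R.Defs

-- ▼ part N337/E/Walk
section

/-!
# Row 337, ENG leaves (helper86): one strand is a Markov chain

During its first lap the arc from `u` reads every coin once, so it is the Markov chain with kernel
`Kb`.  `walk`: the probability of `k` prescribed visits is at most `Γ ^ k` when the Green function
from one target set to the next one has mass at most `Γ`.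
-/

set_option autoImplicit false
set_option linter.unusedSectionVars false

namespace Crest.Agent.N337.Wk

open Finset Equiv Matrix Crest.Agent.N337.Rep Crest.Agent.N337.LY0 Crest.Agent.N337.Arc WN

variable {Λ : Type} [Fintype Λ] [DecidableEq Λ] {T : ℕ} [NeZero T] (ex ey : Fin T → Λ)
  {p : Fin T → ℝ} {b : Fin T × Λ → ℝ}

/-- the coins of the first `i` steps after the time of `u`. -/
def Past (u : Fin T × Λ) (i : ℕ) : Finset (Fin T) :=
  univ.filter fun s => ∃ j < i, s.val = (u.1.val + j) % T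

lemma Past_mono (u : Fin T × Λ) {i j : ℕ} (h : i ≤ j) : Past u i ⊆ Past u j := fun s hs => by
  simp only [Past, mem_filter, mem_univ, true_and] at hs ⊢
  obtain ⟨l, h1, h2⟩ := hs
  exact ⟨l, h1.trans_le h, h2⟩

lemma arc_past {u : Fin T × Λ} {i : ℕ} {ξ ξ' : Fin T → Bool} (h : ∀ s ∈ Past u i, ξ' s = ξ s) :
    ∀ j ≤ i, arc ex ey u ξ' j = arc ex ey u ξ j := by
  intro j
  induction j with
  | zero => intro; rfl
  | succ j ih =>
    intro hj
    rw [arc_succ, arc_succ, ih (by omega)]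
    have := h (arc ex ey u ξ j).1 (mem_filter.2 ⟨mem_univ _, j, hj, arc_time ex ey u ξ j⟩)
    generalize arc ex ey u ξ j = v at this ⊢
    obtain ⟨s, x⟩ := v
    rw [Sg_apply, Sg_apply, this]

lemma not_past (u : Fin T × Λ) (ξ : Fin T → Bool) {i : ℕ} (hi : i < T) :
    (arc ex ey u ξ i).1 ∉ Past u i := by
  simp only [Past, mem_filter, mem_univ, true_and, arc_time, not_exists, not_and]
  intro j hj h
  have h1 : i ≡ j [MOD T] := Nat.ModEq.add_left_cancel' _ h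
  have := Nat.ModEq.eq_of_lt_of_lt h1 hi (hj.trans hi)
  omega

lemma ex_coin (p : Fin T → ℝ) (s : Fin T) (φ : Bool → ℝ) :
    PH.ex (pb p) (fun ξ => φ (ξ s)) = p s * φ true + (1 - p s) * φ false := by
  have h := Fintype.prod_sum fun (r : Fin T) (c : Bool) => wb (p r) c * if r = s then φ c else 1
  simp only [prod_mul_distrib, prod_ite_eq', mem_univ, if_true] at h
  refine h.symm.trans ?_
  rw [prod_eq_single s (fun r _ hr => by simp [wb, hr]) (by simp)]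
  simp [wb]

lemma ex_step (p : Fin T → ℝ) (h : Fin T × Λ → ℝ) (y : Fin T × Λ) :
    PH.ex (pb p) (fun ξ => h (Sg ex ey ξ y)) = ∑ v, h v * Kb ex ey p v y := by
  obtain ⟨s, x⟩ := y
  rw [Fintype.sum_prod_type, sum_eq_single (s + 1) (fun r _ hr => by simp [Kb_apply, hr]) (by simp)]
  have := ex_coin p s fun c => h (s + 1, sg (ex s) (ey s) c x)
  simp only [Sg_apply, this, Kb_apply, if_true, mul_add, sum_add_distrib, mul_ite, mul_one,
    mul_zero, sum_ite_eq', mem_univ]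
  simp [sg]; ring

/-- **Markov property** during the first lap. -/
lemma markov (hp : ∀ s, 0 ≤ p s ∧ p s ≤ 1) (u : Fin T × Λ) {i : ℕ} (hi : i < T)
    {F : (Fin T → Bool) → ℝ} (hF : PH.Meas (E := fun _ => Bool) (fun _ => Past u i) F)
    (h : Fin T × Λ → Fin T × Λ → ℝ) :
    PH.ex (pb p) (fun ξ => F ξ * h (arc ex ey u ξ i) (arc ex ey u ξ (i + 1))) =
      PH.ex (pb p) fun ξ => F ξ * ∑ v, h (arc ex ey u ξ i) v * Kb ex ey p v (arc ex ey u ξ i) := by
  have e : ∀ (G : (Fin T → Bool) → Fin T × Λ → ℝ) ξ, F ξ * G ξ (arc ex ey u ξ i) =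
      ∑ y, (F ξ * if arc ex ey u ξ i = y then 1 else 0) * G ξ y := fun G ξ => by simp
  simp only [arc_succ]
  rw [funext (e fun ξ y => h y (Sg ex ey ξ y)),
    funext (e fun _ y => ∑ v, h y v * Kb ex ey p v y), PH.ex_sum, PH.ex_sum]
  refine sum_congr rfl fun y _ => ?_
  by_cases hy : y.1 ∈ Past u i
  · have : ∀ ξ, arc ex ey u ξ i ≠ y := fun ξ k => not_past ex ey u ξ hi (k ▸ hy)
    simp [this]
  have hm : PH.Meas (E := fun _ => Bool) (fun _ => Past u i)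
      fun ξ => F ξ * if arc ex ey u ξ i = y then 1 else 0 := fun ξ ξ' k => by
    beta_reduce; rw [hF ξ ξ' k, arc_past ex ey k i le_rfl]
  rw [Top.Kill.indep (pr_pb hp) _ hm, Top.Kill.indep (pr_pb hp) _ hm fun _ _ _ => rfl, ex_step,
    (pr_pb hp).ex_const]
  intro ξ ξ' k
  obtain ⟨s, x⟩ := y
  rw [Sg_apply, Sg_apply, k s hy]

/-- superharmonic functions give supermartingales. -/
lemma super (hp : ∀ s, 0 ≤ p s ∧ p s ≤ 1) (hb : ∀ v, 0 ≤ b v) (u : Fin T × Λ) {φ : Fin T × Λ → ℝ}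
    (hφ : ∀ y, b y * ∑ v, φ v * Kb ex ey p v y ≤ φ y) {i0 : ℕ} {F : (Fin T → Bool) → ℝ}
    (hF : PH.Meas (E := fun _ => Bool) (fun _ => Past u i0) F) (h0 : ∀ ξ, 0 ≤ F ξ) {i : ℕ}
    (h1 : i0 ≤ i) (hi : i ≤ T) :
    PH.ex (pb p) (fun ξ => (F ξ * ∏ j ∈ Ico i0 i, b (arc ex ey u ξ j)) * φ (arc ex ey u ξ i)) ≤
      PH.ex (pb p) fun ξ => F ξ * φ (arc ex ey u ξ i0) := by
  induction i, h1 using Nat.le_induction with
  | base => simp
  | succ i h1 ih =>
    refine le_trans ?_ (ih (by omega))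
    rw [markov ex ey hp u hi _ fun _ => φ]
    · refine (pr_pb hp).ex_mono fun ξ => ?_
      rw [prod_Ico_succ_top h1, ← mul_assoc, mul_assoc _ (b _)]
      exact mul_le_mul_of_nonneg_left (hφ _) (mul_nonneg (h0 ξ) (prod_nonneg fun _ _ => hb _))
    · intro ξ ξ' k
      beta_reduce
      rw [hF ξ ξ' fun s hs => k s (Past_mono u h1 hs)]
      congr 1
      exact prod_congr rfl fun j hj => by
        rw [arc_past ex ey k j (Nat.lt_succ_iff.1 (mem_Ico.1 hj).2)]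

/-- multiplicative supermartingales. -/
lemma mart (hp : ∀ s, 0 ≤ p s ∧ p s ≤ 1) (u : Fin T × Λ) {a : Fin T × Λ → Fin T × Λ → ℝ}
    (h0 : ∀ y v, 0 ≤ a y v) (ha : ∀ y, ∑ v, a y v * Kb ex ey p v y ≤ 1) {i : ℕ} (hi : i ≤ T) :
    PH.ex (pb p) (fun ξ => ∏ j ∈ range i, a (arc ex ey u ξ j) (arc ex ey u ξ (j + 1))) ≤ 1 := by
  induction i with
  | zero => simpa using ((pr_pb hp).ex_const 1).le
  | succ i ih =>
    refine le_trans ?_ (ih (by omega))
    simp only [prod_range_succ]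
    rw [markov ex ey hp u hi _ a]
    · exact (pr_pb hp).ex_mono fun ξ =>
        mul_le_of_le_one_right (prod_nonneg fun _ _ => h0 _ _) (ha _)
    · exact fun ξ ξ' k => prod_congr rfl fun j hj => by
        rw [arc_past ex ey k j (mem_range.1 hj).le, arc_past ex ey k (j + 1) (mem_range.1 hj)]

/-- the coins off `A` are switched off. -/
def lc (A : Finset (Fin T)) (ξ : Fin T → Bool) : Fin T → Bool :=
  PH.pw (E := fun _ => Bool) Aᶜ (fun _ => false) ξ

/-- their law. -/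
def lq (p : Fin T → ℝ) (A : Finset (Fin T)) : Fin T → ℝ := pin p Aᶜ fun _ => false

lemma lc_mem {A : Finset (Fin T)} (ξ : Fin T → Bool) {s : Fin T} (h : s ∈ A) : lc A ξ s = ξ s :=
  PH.pw_not _ _ (by simpa using h)

lemma lc_true {A : Finset (Fin T)} {ξ : Fin T → Bool} {s : Fin T} :
    lc A ξ s = true ↔ s ∈ A ∧ ξ s = true := by
  by_cases h : s ∈ A
  · simp [lc_mem ξ h, h]
  · simp [lc, h]

lemma lq_eq (p : Fin T → ℝ) (A : Finset (Fin T)) (s : Fin T) :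
    lq p A s = if s ∈ A then p s else 0 := by
  by_cases h : s ∈ A <;> simp [lq, pin, h]

lemma lq_mem (hp : ∀ s, 0 ≤ p s ∧ p s ≤ 1) (A : Finset (Fin T)) (s : Fin T) :
    0 ≤ lq p A s ∧ lq p A s ≤ 1 := pin_mem hp _ _ s

lemma ex_lc (p : Fin T → ℝ) (A : Finset (Fin T)) (f : (Fin T → Bool) → ℝ) :
    PH.ex (pb p) (fun ξ => f (lc A ξ)) = PH.ex (pb (lq p A)) f := C_pin Aᶜ f _

lemma lc_congr {A B : Finset (Fin T)} (hA : A ⊆ B) {ξ ξ' : Fin T → Bool}
    (h : ∀ s ∈ B, ξ' s = ξ s) : lc A ξ' = lc A ξ := funext fun s => by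
  by_cases hs : s ∈ A
  · rw [lc_mem _ hs, lc_mem _ hs, h s (hA hs)]
  · simp [lc, hs]


open Classical in
/-- probability of an event of the coins. -/
noncomputable def Pe (p : Fin T → ℝ) (E : (Fin T → Bool) → Prop) : ℝ :=
  PH.ex (pb p) fun ξ => if E ξ then 1 else 0

lemma Pe_le (hp : ∀ s, 0 ≤ p s ∧ p s ≤ 1) {E : (Fin T → Bool) → Prop} {f : (Fin T → Bool) → ℝ}
    (h0 : ∀ ξ, 0 ≤ f ξ) (h1 : ∀ ξ, E ξ → 1 ≤ f ξ) : Pe p E ≤ PH.ex (pb p) f :=
  (pr_pb hp).ex_mono fun ξ => by split_ifs with h; exacts [h1 ξ h, h0 ξ]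

lemma Pe_nonneg (hp : ∀ s, 0 ≤ p s ∧ p s ≤ 1) (E : (Fin T → Bool) → Prop) : 0 ≤ Pe p E :=
  (pr_pb hp).ex_nn fun ξ => by split_ifs <;> norm_num

/-- union bound. -/
lemma Pe_union (hp : ∀ s, 0 ≤ p s ∧ p s ≤ 1) {ι : Type} (I : Finset ι)
    {E : (Fin T → Bool) → Prop} (E' : ι → (Fin T → Bool) → Prop) {ε : ℝ} {M : ℕ} (h0 : 0 ≤ ε)
    (h : ∀ ξ, E ξ → ∃ i ∈ I, E' i ξ) (h' : ∀ i ∈ I, Pe p (E' i) ≤ ε) (hM : I.card ≤ M) :
    Pe p E ≤ M * ε := by
  classical
  have k : ∀ (i : ι) ξ, (0 : ℝ) ≤ if E' i ξ then 1 else 0 := fun i ξ => by split_ifs <;> norm_num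
  refine (Pe_le hp (f := fun ξ => ∑ i ∈ I, if E' i ξ then 1 else 0)
    (fun ξ => sum_nonneg fun i _ => k i ξ) fun ξ hξ => ?_).trans ?_
  · obtain ⟨i, hi, h1⟩ := h ξ hξ
    simpa only [if_pos h1] using single_le_sum (fun i _ => k i ξ) hi
  · rw [PH.ex_sum]
    refine (sum_le_card_nsmul _ _ ε fun i hi => le_trans (le_of_eq ?_) (h' i hi)).trans ?_
    · unfold Pe; congr
    · rw [nsmul_eq_mul]; exact mul_le_mul_of_nonneg_right (Nat.cast_le.2 hM) h0

lemma Pe_or (hp : ∀ s, 0 ≤ p s ∧ p s ≤ 1) (E E' : (Fin T → Bool) → Prop) :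
    Pe p (fun ξ => E ξ ∨ E' ξ) ≤ Pe p E + Pe p E' := by
  classical
  rw [Pe, Pe, Pe, ← PH.ex_add]
  refine (pr_pb hp).ex_mono fun ξ => ?_
  by_cases h : E ξ <;> by_cases h' : E' ξ <;> simp [h, h']

lemma Pe_lc (p : Fin T → ℝ) (A : Finset (Fin T)) (E : (Fin T → Bool) → Prop) :
    Pe p (fun ξ => E (lc A ξ)) = Pe (lq p A) E := by
  classical
  exact ex_lc p A fun ξ => if E ξ then 1 else 0

lemma Gi_super (hp : ∀ s, 0 ≤ p s ∧ p s ≤ 1) (hb : Fld b) (S : Finset (Fin T × Λ)) (y : Fin T × Λ) :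
    (if y ∈ S then 1 else 0) + b y * ∑ v, (∑ z ∈ S, Gi ex ey p b z v) * Kb ex ey p v y =
      ∑ z ∈ S, Gi ex ey p b z y := by
  have h := fun z => congrFun (congrFun (Gi_mul ex ey (Zg_pos ex ey hp hb).ne') z) y
  simp only [mul_apply, diagonal_apply, mul_ite, mul_zero, sum_ite_eq', mem_univ, if_true,
    Matrix.sub_apply, one_apply] at h
  simp only [sum_mul, mul_sum]
  rw [sum_comm, ← sum_ite_eq' S y fun _ => (1 : ℝ), ← sum_add_distrib]
  refine sum_congr rfl fun z _ => ?_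
  rw [eq_comm, ← sub_eq_iff_eq_add', ← h z]
  exact sum_congr rfl fun v _ => by ring

open Classical in
/-- **prescribed visits.** -/
theorem walk (hp : ∀ s, 0 ≤ p s ∧ p s ≤ 1) (hb : Fld b) (u : Fin T × Λ) {t : ℕ → ℕ}
    (ht : Monotone t) (S : ℕ → Finset (Fin T × Λ)) {Γ : ℝ} (hΓ : 0 ≤ Γ) (k : ℕ) (hk : t k ≤ T)
    (hS : ∀ a < k, ∀ y ∈ S a, ∑ z ∈ S (a + 1), Gi ex ey p b z y ≤ Γ) :
    PH.ex (pb p) (fun ξ => (if ∀ a ≤ k, arc ex ey u ξ (t a) ∈ S a then 1 else 0) *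
      ∏ j ∈ Ico (t 0) (t k), b (arc ex ey u ξ j)) ≤ Γ ^ k := by
  have hb0 : ∀ v, 0 ≤ b v := fun v => (hb.mem v).1
  induction k with
  | zero =>
    refine ((pr_pb hp).ex_mono fun ξ => ?_).trans ((pr_pb hp).ex_const 1).le
    split_ifs <;> simp
  | succ k ih =>
    have h1 : t k ≤ t (k + 1) := ht k.le_succ
    have h2 : t 0 ≤ t k := ht k.zero_le
    set F : (Fin T → Bool) → ℝ := fun ξ => (if ∀ a ≤ k, arc ex ey u ξ (t a) ∈ S a then 1 else 0) *
      ∏ j ∈ Ico (t 0) (t k), b (arc ex ey u ξ j) with hFd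
    have h0 : ∀ ξ, 0 ≤ F ξ := fun ξ =>
      mul_nonneg (by split_ifs <;> norm_num) (prod_nonneg fun _ _ => hb0 _)
    have hG : ∀ y, 0 ≤ b y * ∑ v, (∑ z ∈ S (k + 1), Gi ex ey p b z v) * Kb ex ey p v y := fun y =>
      mul_nonneg (hb0 y) (sum_nonneg fun v _ => mul_nonneg
        (sum_nonneg fun z _ => Gi_nonneg ex ey hp hb z v) (Kb_nonneg ex ey hp v y))
    have hF : PH.Meas (E := fun _ => Bool) (fun _ => Past u (t k)) F := fun ξ ξ' h => by
      have e : (∀ a ≤ k, arc ex ey u ξ' (t a) ∈ S a) ↔ ∀ a ≤ k, arc ex ey u ξ (t a) ∈ S a :=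
        forall₂_congr fun a ha => by rw [arc_past ex ey h _ (ht ha)]
      simp only [hFd, e]
      congr 1
      exact prod_congr rfl fun j hj => by rw [arc_past ex ey h j (mem_Ico.1 hj).2.le]
    have h3 := super ex ey hp hb0 u (φ := fun y => ∑ z ∈ S (k + 1), Gi ex ey p b z y)
      (fun y => by
        rw [← Gi_super ex ey hp hb _ y]
        exact le_add_of_nonneg_left (by split_ifs <;> norm_num)) hF h0 h1 hk
    refine le_trans ((pr_pb hp).ex_mono fun ξ => ?_) (h3.trans ?_)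
    · rw [← prod_Ico_consecutive _ h2 h1, hFd, ← Gi_super ex ey hp hb]
      have h4 := hG (arc ex ey u ξ (t (k + 1)))
      have h5 : 0 ≤ (∏ j ∈ Ico (t 0) (t k), b (arc ex ey u ξ j)) *
          ∏ j ∈ Ico (t k) (t (k + 1)), b (arc ex ey u ξ j) :=
        mul_nonneg (prod_nonneg fun _ _ => hb0 _) (prod_nonneg fun _ _ => hb0 _)
      beta_reduce
      by_cases hc : ∀ a ≤ k + 1, arc ex ey u ξ (t a) ∈ S a
      · rw [if_pos hc, if_pos fun a ha => hc a (by omega), if_pos (hc _ le_rfl), one_mul, one_mul]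
        exact le_mul_of_one_le_right h5 (le_add_of_nonneg_right h4)
      · rw [if_neg hc, zero_mul]
        refine mul_nonneg (mul_nonneg (h0 ξ) (prod_nonneg fun _ _ => hb0 _)) (add_nonneg ?_ h4)
        split_ifs <;> norm_num
    · rw [pow_succ']
      refine le_trans ((pr_pb hp).ex_mono (g := fun ξ => Γ * F ξ) fun ξ => ?_) ?_
      · by_cases hc : ∀ a ≤ k, arc ex ey u ξ (t a) ∈ S a
        · rw [mul_comm Γ]
          exact mul_le_mul_of_nonneg_left (hS k k.lt_succ_self _ (hc k le_rfl)) (h0 ξ)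
        · simp [hFd, hc]
      · rw [PH.ex_mul]
        exact mul_le_mul_of_nonneg_left (ih (h1.trans hk) fun a ha => hS a (by omega)) hΓ

end Crest.Agent.N337.Wk
end

-- ▼ part N337/E/Fast

/-!
# Row 337, ENG leaves (helper86): fast strands

`FE` = in the local coins some strand makes more than `f` free jumps in one window.  It is rare for
every environment (`pr_FE`); off it the strands of an invariant set are slow (`mv_of`).
-/

set_option autoImplicit false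
set_option linter.unusedSectionVars false

namespace Crest.Agent.N337.Wk

open Finset Equiv Crest.Agent.N337.Rep Crest.Agent.N337.LY0 Crest.Agent.N337.Arc Free KV Geo I

variable {L n T : ℕ} [NeZero L] [NeZero T] (ex ey : Fin T → Tor 3 L × Fin n)

/-- bond rate seen by the site `z` at the step `s`. -/
def rs (p0 : Fin T → ℝ) (s : Fin T) (z : Tor 3 L) : ℝ :=
  if (ex s).1 ≠ (ey s).1 ∧ ((ex s).1 = z ∨ (ey s).1 = z) then p0 s else 0

/-- the strand changes its site in step `j`. -/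
def Jp (u : V L n T) (ξ : Fin T → Bool) (j : ℕ) : Prop :=
  (arc ex ey u ξ (j + 1)).2.1 ≠ (arc ex ey u ξ j).2.1

open Classical in
/-- number of jumps at steps of `Fr`. -/
noncomputable def Nf (Fr : Fin T → Prop) (u : V L n T) (ξ : Fin T → Bool) (N : ℕ) : ℕ :=
  ((range N).filter fun j => Fr (arc ex ey u ξ j).1 ∧ Jp ex ey u ξ j).card

/-- many free jumps at a small rate. -/
def Fs (p0 : Fin T → ℝ) (Fr : Fin T → Prop) (c : ℝ) (f N : ℕ) (u : V L n T) (ξ : Fin T → Bool) :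
    Prop :=
  f < Nf ex ey Fr u ξ N ∧ 7 * ∑ j ∈ range N,
    rs ex ey p0 (arc ex ey u ξ j).1 (arc ex ey u ξ j).2.1 ≤ c + Nf ex ey Fr u ξ N

/-- slots near `x`. -/
def sl (n : ℕ) (x : Tor 3 L) (r : ℕ) : Finset (Tor 3 L × Fin n) := bl x r ×ˢ univ

/-- the fast event. -/
def FE (p0 : Fin T → ℝ) (Fr : Fin T → Prop) (A : Finset (Fin T)) (B D ρ : ℕ) (c : ℝ) (f : ℕ)
    (x : Tor 3 L) (ξ : Fin T → Bool) : Prop :=
  ∃ i < B, ∃ y ∈ sl n x ρ, Fs ex ey p0 Fr c f D (tm T (i * D), y) (lc A ξ)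

/-- the local steps: both ends within `ρ` of `x` and not killed. -/
def loc (Z : Finset (Tor 3 L)) (x : Tor 3 L) (ρ : ℕ) : Finset (Fin T) := univ.filter fun s =>
  (tdist x (ex s).1 ≤ ρ ∧ (ex s).1 ∉ Z) ∧ tdist x (ey s).1 ≤ ρ ∧ (ey s).1 ∉ Z

/-- paths in one window that only use steps of `Al` move at most `v`. -/
def Slw (Al : Fin T → Prop) (D v : ℕ) : Prop :=
  ∀ (i a b : ℕ) (γ : ℕ → Tor 3 L × Fin n), i * D ≤ a → a ≤ b → b ≤ (i + 1) * D →
    (∀ k ∈ Ico a b, γ (k + 1) = γ k ∨ (Al (tm T k) ∧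
      γ (k + 1) = swap (ex (tm T k)) (ey (tm T k)) (γ k))) → tdist (γ a).1 (γ b).1 ≤ v

/-- the strands of `C` that come within `r` of `x` are slow. -/
def Mv (Fr : Fin T → Prop) (ξ : Fin T → Bool) (C : Finset (V L n T)) (D f W r : ℕ) (x : Tor 3 L) :
    Prop :=
  ∀ i y, (tm T (i * D), y) ∈ C → ∀ j ≤ D, tdist x (arc ex ey (tm T (i * D), y) ξ j).2.1 ≤ r →
    Nf ex ey Fr (tm T (i * D), y) ξ D ≤ f ∧ ∀ j' ≤ D,
      tdist (arc ex ey (tm T (i * D), y) ξ j).2.1 (arc ex ey (tm T (i * D), y) ξ j').2.1 ≤ W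

variable {ex ey} {p p0 : Fin T → ℝ} {Fr Ps : Fin T → Prop} {ξ : Fin T → Bool} {u v : V L n T}
  {x : Tor 3 L} {y : Tor 3 L × Fin n} {A : Finset (Fin T)} {Z : Finset (Tor 3 L)}
  {C : Finset (V L n T)} {E w B D f P W r ρ : ℕ} {θ c : ℝ}

lemma mem_sl : y ∈ sl n x r ↔ tdist x y.1 ≤ r := by simp [sl, mem_bl]

lemma card_sl (x : Tor 3 L) (r : ℕ) : (sl n x r).card ≤ n * (2 * r + 1) ^ 3 := by
  rw [sl, card_product, card_univ, Fintype.card_fin, mul_comm]
  exact Nat.mul_le_mul_left _ (card_ball_le x r)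

lemma rs_nonneg (h : ∀ s, 0 ≤ p0 s) (s : Fin T) (z : Tor 3 L) : 0 ≤ rs ex ey p0 s z := by
  unfold rs; split_ifs; exacts [h s, le_rfl]

lemma arc_tm (k : ℕ) (y : Tor 3 L × Fin n) (ξ : Fin T → Bool) (j : ℕ) :
    (arc ex ey (tm T k, y) ξ j).1 = tm T (k + j) := Fin.ext (by simp [arc_time, tm_val])

/-- one step: nothing happens or an active step is taken. -/
lemma step_cases (ξ : Fin T → Bool) (v : V L n T) : (Sg ex ey ξ v).2 = v.2 ∨ (ξ v.1 = true ∧
    ((v.2 = ex v.1 ∧ (Sg ex ey ξ v).2 = ey v.1) ∨ (v.2 = ey v.1 ∧ (Sg ex ey ξ v).2 = ex v.1))) := by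
  obtain ⟨s, y⟩ := v
  by_cases h : ξ s = true ∧ ex s ≠ ey s ∧ (y = ex s ∨ y = ey s)
  · obtain ⟨h1, -, rfl | rfl⟩ := h <;> simp [Sg_apply, sg, h1]
  · exact .inl (by rw [Sg_stay h])

lemma step_le (nn : ∀ s, tdist (ex s).1 (ey s).1 ≤ 1) (ξ : Fin T → Bool) (v : V L n T) :
    tdist v.2.1 (Sg ex ey ξ v).2.1 ≤ 1 := by
  rcases step_cases (ex := ex) (ey := ey) ξ v with h | ⟨-, ⟨h, h'⟩ | ⟨h, h'⟩⟩
  · rw [h, tdist_self]; omega
  · rw [h', h]; exact nn _
  · rw [h', h, tdist_comm]; exact nn _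

theorem pr_Fs (hp : ∀ s, 0 ≤ p s ∧ p s ≤ 1) (h0 : ∀ s, 0 ≤ p0 s) (hF : ∀ s, Fr s → p s ≤ p0 s)
    (hD : D ≤ T) (u : V L n T) : Pe p (Fs ex ey p0 Fr c f D u) ≤ Real.exp (c - f) := by
  classical
  have h := mart ex ey hp u (a := fun y v => Real.exp ((if Fr y.1 ∧ v.2.1 ≠ y.2.1 then 2 else 0) -
    7 * rs ex ey p0 y.1 y.2.1)) (fun _ _ => (Real.exp_pos _).le) (fun y => ?_) hD
  · refine (Pe_le hp (f := fun ξ => Real.exp (c - f) * ∏ j ∈ range D, Real.exp ((if Fr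
      (arc ex ey u ξ j).1 ∧ Jp ex ey u ξ j then 2 else 0) - 7 * rs ex ey p0 (arc ex ey u ξ j).1
      (arc ex ey u ξ j).2.1)) (fun _ => by positivity) fun ξ hξ => ?_).trans ?_
    · rw [← Real.exp_sum, ← Real.exp_add, sum_sub_distrib, ← mul_sum, ← sum_filter, sum_const]
      have h1 : (f : ℝ) ≤ Nf ex ey Fr u ξ D := Nat.cast_le.2 hξ.1.le
      have h2 := hξ.2
      simp only [Nf, nsmul_eq_mul] at h1 h2 ⊢
      exact Real.one_le_exp (by linarith)
    · rw [PH.ex_mul]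
      refine mul_le_of_le_one_right (Real.exp_pos _).le (le_trans (le_of_eq ?_) h)
      congr! 6
  rw [← ex_step]
  obtain ⟨s, z⟩ := y
  have e := ex_coin p s fun b => Real.exp ((if Fr s ∧ (sg (ex s) (ey s) b z).1 ≠ z.1 then 2 else 0) -
    7 * rs ex ey p0 s z.1)
  refine le_trans (le_of_eq (Eq.trans (by congr! 6) e)) ?_
  have h1 := rs_nonneg (ex := ex) (ey := ey) h0 s z.1
  have h2 : Real.exp (0 - 7 * rs ex ey p0 s z.1) ≤ 1 := Real.exp_le_one_iff.2 (by linarith)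
  have h3 := hp s
  rw [if_neg (c := Fr s ∧ (sg (ex s) (ey s) false z).1 ≠ z.1) (by simp [sg])]
  split_ifs with h4
  · have h5 : p s ≤ rs ex ey p0 s z.1 := by
      rcases step_cases (ex := ex) (ey := ey) (fun _ => true) (s, z) with k | ⟨-, k⟩
      · exact absurd (congrArg Prod.fst k) h4.2
      · rw [rs, if_pos]; · exact hF s h4.1
        have := h4.2
        rcases k with ⟨k, k'⟩ | ⟨k, k'⟩ <;> simp only [Sg_apply] at k k' <;> rw [k', k] at this <;>
          simp [k, this, this.symm]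
    have h6 : Real.exp 2 ≤ 8 := by
      rw [show (2 : ℝ) = 1 + 1 by norm_num, Real.exp_add]
      nlinarith [Real.exp_one_lt_d9, Real.exp_pos 1]
    have h7 := Real.add_one_le_exp (7 * rs ex ey p0 s z.1)
    rw [Real.exp_sub, Real.exp_sub, Real.exp_zero, mul_div_assoc', mul_div_assoc', ← add_div,
      div_le_one (Real.exp_pos _)]
    nlinarith
  · nlinarith

theorem pr_FE (hp : ∀ s, 0 ≤ p s ∧ p s ≤ 1) (h0 : ∀ s, 0 ≤ p0 s)
    (hF : ∀ s ∈ A, Fr s → p s ≤ p0 s) (hD : D ≤ T) :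
    Pe p (FE ex ey p0 Fr A B D ρ c f x) ≤ (B * (n * (2 * ρ + 1) ^ 3) : ℕ) * Real.exp (c - f) := by
  refine Pe_union hp (range B ×ˢ sl n x ρ)
    (fun z ξ => Fs ex ey p0 Fr c f D (tm T (z.1 * D), z.2) (lc A ξ)) (Real.exp_pos _).le
    (fun ξ ⟨i, hi, y, hy, h⟩ => ⟨(i, y), mem_product.2 ⟨mem_range.2 hi, hy⟩, h⟩) (fun z _ => ?_) ?_
  · rw [Pe_lc]
    refine pr_Fs (lq_mem hp A) h0 (fun s hs => ?_) hD _
    rw [lq_eq]; split_ifs with h; exacts [hF s h hs, h0 s]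
  · rw [card_product, card_range]; exact Nat.mul_le_mul_left _ (card_sl x ρ)

section seg
variable {γ : ℕ → Tor 3 L} {Bk : ℕ → Prop} [DecidablePred Bk] {N q : ℕ}
  (hv : ∀ a b, a ≤ b → b ≤ N → (∀ j ∈ Ico a b, ¬ Bk j) → tdist (γ a) (γ b) ≤ q)
include hv

lemma disp (h1 : ∀ j, tdist (γ j) (γ (j + 1)) ≤ 1) (k : ℕ) : ∀ a b, a ≤ b → b ≤ N →
    ((Ico a b).filter Bk).card ≤ k → tdist (γ a) (γ b) ≤ k * (q + 1) + q := by
  induction k with
  | zero =>
    intro a b hab hb h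
    simpa using hv a b hab hb (filter_eq_empty_iff.1 (card_eq_zero.1 (Nat.le_zero.1 h)))
  | succ k ih =>
    intro a b hab hb h
    rcases ((Ico a b).filter Bk).eq_empty_or_nonempty with h2 | h2
    · exact (hv a b hab hb (filter_eq_empty_iff.1 h2)).trans (Nat.le_add_left _ _)
    have h3 := min'_mem _ h2
    set j := min' _ h2
    have h4 := mem_Ico.1 (mem_filter.1 h3).1
    have h5 := hv a j h4.1 (by omega) fun l hl k => by
      have := mem_Ico.1 hl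
      have := min'_le _ l (mem_filter.2 ⟨mem_Ico.2 ⟨this.1, by omega⟩, k⟩ : l ∈ (Ico a b).filter Bk)
      omega
    have h6 := ih (j + 1) b h4.2 hb (Nat.lt_succ_iff.1 (lt_of_lt_of_le (card_lt_card
      ((ssubset_iff_of_subset (filter_subset_filter _ (Ico_subset_Ico (by omega) le_rfl))).2
        ⟨j, h3, by simp⟩)) h))
    have := tdist_triangle (γ a) (γ j) (γ b)
    have := tdist_triangle (γ j) (γ (j + 1)) (γ b)
    have := h1 j
    rw [add_mul]; omega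

lemma rate (hW : RR.Word ex ey p0 E w B θ) (hN : N = w * E) (i : ℕ) :
    ∑ j ∈ range N, rs ex ey p0 (tm T (i * N + j)) (γ j) ≤
      θ * (2 * q + 1) ^ 3 * (w + ((range N).filter Bk).card) := by
  have h0 := rs_nonneg (ex := ex) (ey := ey) fun s => (hW.hp s).1
  have hθ : 0 ≤ θ := le_trans (sum_nonneg fun a _ => h0 _ _) (hW.rate 0 0)
  have hE : 0 < E := Nat.pos_of_ne_zero fun h => NeZero.ne T (by rw [hW.hT, h, mul_zero])
  set σ : ℕ → ℕ := fun j => ((range j).filter Bk).card with hσ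
  have m1 : Monotone σ := fun a b h => card_le_card (filter_subset_filter _ (range_mono h))
  have a1 : ∀ j ∈ range N, j / E + σ j ∈ range (w + σ N) := fun j hj => by
    have := m1 (mem_range.1 hj).le
    have := (Nat.div_lt_iff_lt_mul hE).2 (hN ▸ mem_range.1 hj)
    exact mem_range.2 (by omega)
  rw [← sum_fiberwise_of_maps_to a1]
  refine (sum_le_card_nsmul _ _ (θ * (2 * q + 1) ^ 3) fun c _ => ?_).trans (le_of_eq ?_)
  swap; · rw [card_range, nsmul_eq_mul]; push_cast; ring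
  rcases ((range N).filter fun j => j / E + σ j = c).eq_empty_or_nonempty with h2 | h2
  · rw [h2, sum_empty]; positivity
  obtain ⟨a, h3, h4⟩ := exists_min_image _ id h2
  replace h3 := mem_filter.1 h3
  simp only [id] at h4
  have h5 : ∀ j ∈ (range N).filter fun j => j / E + σ j = c,
      j ∈ Ico (a / E * E) (a / E * E + E) ∧ γ j ∈ bl (γ a) q := fun j hj => by
    have b1 := m1 (h4 j hj)
    have b2 : a / E ≤ j / E := Nat.div_le_div_right (h4 j hj)
    have b3 := mem_filter.1 hj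
    have b4 : a / E = j / E := by omega
    refine ⟨b4 ▸ mem_Ico.2 ⟨Nat.div_mul_le_self j E, Nat.lt_div_mul_add hE⟩,
      mem_bl.2 (hv a j (h4 j hj) (mem_range.1 b3.1).le fun l hl k => ?_)⟩
    have := mem_Ico.1 hl
    have : σ a < σ j := card_lt_card ((ssubset_iff_of_subset (filter_subset_filter _
      (range_mono (h4 j hj)))).2 ⟨l, mem_filter.2 ⟨mem_range.2 this.2, k⟩, by simp [this.1]⟩)
    omega
  refine (sum_le_sum (g := fun j => ∑ z ∈ bl (γ a) q, rs ex ey p0 (tm T (i * N + j)) z)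
    fun j hj => single_le_sum (fun z _ => h0 _ z) (h5 j hj).2).trans ?_
  rw [sum_comm]
  refine (sum_le_card_nsmul _ _ θ fun z _ => ?_).trans ?_
  · refine (sum_le_sum_of_subset_of_nonneg (fun j hj => (h5 j hj).1) fun _ _ _ => h0 _ z).trans ?_
    rw [sum_Ico_eq_sum_range, Nat.add_sub_cancel_left]
    refine le_trans (le_of_eq (sum_congr rfl fun b _ => ?_)) (hW.rate (i * w + a / E) z)
    rw [hN, show i * (w * E) + (a / E * E + b) = (i * w + a / E) * E + b by ring]; rfl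
  · rw [nsmul_eq_mul, mul_comm]
    exact mul_le_mul_of_nonneg_left (by exact_mod_cast card_bl (γ a) q) hθ

end seg

lemma mem_loc {s : Fin T} : s ∈ loc ex ey Z x ρ ↔
    (tdist x (ex s).1 ≤ ρ ∧ (ex s).1 ∉ Z) ∧ tdist x (ey s).1 ≤ ρ ∧ (ey s).1 ∉ Z := by simp [loc]

lemma tm_modB (hT : T = B * D) (i k : ℕ) : tm T (i % B * D + k) = tm T (i * D + k) := by
  conv_rhs => rw [← Nat.mod_add_div i B]
  exact Fin.ext (by rw [tm_val, tm_val, show (i % B + B * (i / B)) * D + k =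
    i % B * D + k + T * (i / B) by rw [hT]; ring, Nat.add_mul_mod_self_left])

/-- off the fast event the local strands are slow. -/
theorem slow_loc [DecidablePred Ps] {q : ℕ} (hW : RR.Word ex ey p0 E w B θ) (hD : D = w * E)
    (hP : ∀ i, ((Ico (i * D) ((i + 1) * D)).filter fun k => Ps (tm T k)).card ≤ P)
    (hS : Slw ex ey (fun s => s ∈ A ∧ ((ex s).1 = (ey s).1 ∨ (ξ s = true ∧ ¬ Fr s ∧ ¬ Ps s))) D q)
    (hθ : 7 * (θ * (2 * q + 1) ^ 3) ≤ 1) (hc : 7 * (θ * (2 * q + 1) ^ 3) * (w + P) ≤ c)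
    (hF : ¬ FE ex ey p0 Fr A B D ρ c f x ξ) (i : ℕ) (hy : y ∈ sl n x ρ) :
    Nf ex ey Fr (tm T (i * D), y) (lc A ξ) D ≤ f ∧ ∀ a ≤ D, ∀ b ≤ D,
      tdist (arc ex ey (tm T (i * D), y) (lc A ξ) a).2.1
        (arc ex ey (tm T (i * D), y) (lc A ξ) b).2.1 ≤ (f + P) * (q + 1) + q := by
  classical
  have hT : T = B * D := by rw [hW.hT, hD, mul_assoc]
  set u := (tm T (i * D), y) with hu
  set Bk : ℕ → Prop := fun j => Jp ex ey u (lc A ξ) j ∧ (Fr (tm T (i * D + j)) ∨ Ps (tm T (i * D + j)))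
  have hv : ∀ a b, a ≤ b → b ≤ D → (∀ j ∈ Ico a b, ¬ Bk j) → tdist (arc ex ey u (lc A ξ) a).2.1
      (arc ex ey u (lc A ξ) b).2.1 ≤ q := fun a b h1 h2 h3 => by
    have := hS i (i * D + a) (i * D + b) (fun k => (arc ex ey u (lc A ξ) (k - i * D)).2)
      (by omega) (by omega) (by rw [add_mul]; omega) fun k hk => ?_
    · simpa using this
    obtain ⟨j, rfl⟩ : ∃ j, k = i * D + j := ⟨k - i * D, by have := mem_Ico.1 hk; omega⟩
    have h4 := h3 j (by rw [mem_Ico] at hk ⊢; omega)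
    simp only [Bk, Jp, add_assoc, Nat.add_sub_cancel_left, arc_succ] at h4 ⊢
    have e := arc_tm (ex := ex) (ey := ey) (i * D) y (lc A ξ) j
    rcases step_cases (ex := ex) (ey := ey) (lc A ξ) (arc ex ey u (lc A ξ) j) with k | ⟨k, k'⟩
    · exact .inl k
    rw [← hu] at e
    rw [e] at k k'
    refine .inr ⟨⟨(lc_true.1 k).1, ?_⟩, by rcases k' with ⟨a, b⟩ | ⟨a, b⟩ <;> simp [a, b]⟩
    by_cases h5 : (ex (tm T (i * D + j))).1 = (ey (tm T (i * D + j))).1
    · exact .inl h5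
    refine .inr ⟨(lc_true.1 k).2, not_or.1 fun h6 => h4 ⟨?_, h6⟩⟩
    rcases k' with ⟨a, b⟩ | ⟨a, b⟩ <;> rw [a, b]
    exacts [Ne.symm h5, h5]
  have hB : ((range D).filter Bk).card ≤ Nf ex ey Fr u (lc A ξ) D + P := by
    refine le_trans (card_le_card (t := _ ∪ (range D).filter fun j => Ps (tm T (i * D + j)))
      fun j hj => ?_) ((card_union_le _ _).trans (add_le_add le_rfl (le_trans ?_ (hP i))))
    · simp only [mem_union, mem_filter, hu, arc_tm] at hj ⊢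
      exact hj.2.2.imp (fun h => ⟨hj.1, h, hj.2.1⟩) fun h => ⟨hj.1, h⟩
    · refine card_le_card_of_injOn (i * D + ·) (fun j hj => ?_) fun _ _ _ _ h => Nat.add_left_cancel h
      have := mem_filter.1 hj
      exact mem_filter.2 ⟨mem_Ico.2 ⟨Nat.le_add_right _ _, by
        rw [add_mul, one_mul]; exact Nat.add_lt_add_left (mem_range.1 this.1) _⟩, this.2⟩
  have hN : Nf ex ey Fr u (lc A ξ) D ≤ f := by
    refine not_lt.1 fun h => hF ⟨i % B, Nat.mod_lt _ (B_pos hT), y, hy, ?_⟩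
    rw [show tm T (i % B * D) = tm T (i * D) from tm_modB hT i 0]
    refine ⟨h, ?_⟩
    have h1 := rate hv hW hD i
    have h2 : (((range D).filter Bk).card : ℝ) ≤ Nf ex ey Fr u (lc A ξ) D + P := by exact_mod_cast hB
    have h3 : 0 ≤ θ := le_trans (sum_nonneg fun a _ => rs_nonneg (ex := ex) (ey := ey)
      (fun s => (hW.hp s).1) _ _) (hW.rate 0 0)
    have h4 : 0 ≤ θ * (2 * q + 1) ^ 3 := by positivity
    have h5 : (0 : ℝ) ≤ Nf ex ey Fr u (lc A ξ) D := Nat.cast_nonneg _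
    simp only [hu, arc_tm] at h1 h2 h5 ⊢
    nlinarith
  have hd : ∀ a b, a ≤ b → b ≤ D → tdist (arc ex ey u (lc A ξ) a).2.1
      (arc ex ey u (lc A ξ) b).2.1 ≤ (f + P) * (q + 1) + q := fun a b h1 h2 =>
    disp hv (fun j => by rw [arc_succ]; exact step_le hW.nn _ _) _ a b h1 h2 ((card_le_card
      (filter_subset_filter _ fun j hj => mem_range.2 ((mem_Ico.1 hj).2.trans_le h2))).trans
        (hB.trans (by omega)))
  refine ⟨hN, fun a ha b hb => ?_⟩
  rcases le_total a b with h | h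
  exacts [hd a b h hb, tdist_comm _ _ ▸ hd b a h ha]

lemma glue (nn : ∀ s, tdist (ex s).1 (ey s).1 ≤ 1) (hC : ∀ v, Sg ex ey ξ v ∈ C ↔ v ∈ C)
    (hZ : ∀ v ∈ C, v.2.1 ∉ Z) (hv : tdist x v.2.1 + 1 ≤ ρ)
    (h : v ∈ C ∨ Sg ex ey (lc (loc ex ey Z x ρ) ξ) v ∈ C) :
    Sg ex ey ξ v = Sg ex ey (lc (loc ex ey Z x ρ) ξ) v := by
  obtain ⟨s, y⟩ := v
  by_cases hs : s ∈ loc ex ey Z x ρ
  · rw [Sg_apply, Sg_apply, lc_mem _ hs]
  have e : Sg ex ey (lc (loc ex ey Z x ρ) ξ) (s, y) = (s + 1, y) :=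
    Sg_stay fun k => hs (lc_true.1 k.1).1
  rw [e] at h ⊢
  refine Sg_stay fun ⟨h1, _, h2⟩ => hs ?_
  have a1 : Sg ex ey ξ (s, ex s) = (s + 1, ey s) := by simp [Sg_apply, sg, h1]
  have a2 : Sg ex ey ξ (s, ey s) = (s + 1, ex s) := by simp [Sg_apply, sg, h1]
  have a3 := hC (s, ex s)
  have a4 := hC (s, ey s)
  rw [a1] at a3; rw [a2] at a4
  have a5 := nn s
  have a6 := tdist_triangle x (ex s).1 (ey s).1
  have a7 := tdist_triangle x (ey s).1 (ex s).1
  rw [tdist_comm (ey s).1] at a7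
  rcases h2 with rfl | rfl <;> rcases h with h | h <;> simp only at hv
  · exact mem_loc.2 ⟨⟨by omega, hZ _ h⟩, by omega, hZ _ (a3.2 h)⟩
  · exact mem_loc.2 ⟨⟨by omega, hZ _ h⟩, by omega, hZ _ (a4.1 h)⟩
  · exact mem_loc.2 ⟨⟨by omega, hZ _ (a4.2 h)⟩, by omega, hZ _ h⟩
  · exact mem_loc.2 ⟨⟨by omega, hZ _ (a3.1 h)⟩, by omega, hZ _ h⟩

lemma arc_inj {u u' : V L n T} {j : ℕ} (h : arc ex ey u ξ j = arc ex ey u' ξ j) : u = u' :=
  (Sg ex ey ξ).injective.iterate j h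

lemma arc_surj (ξ : Fin T → Bool) (k j : ℕ) (y : Tor 3 L × Fin n) :
    ∃ y', arc ex ey (tm T k, y') ξ j = (tm T (k + j), y) := by
  induction j generalizing y with
  | zero => exact ⟨y, rfl⟩
  | succ j ih =>
    obtain ⟨y', h⟩ := ih (sg (ex (tm T (k + j))) (ey (tm T (k + j))) (ξ (tm T (k + j))) y)
    exact ⟨y', by rw [arc_succ, h, Sg_apply, sg_sg, ← add_assoc, tm_succ]⟩

lemma arc_mem (hC : ∀ v, Sg ex ey ξ v ∈ C ↔ v ∈ C) (u : V L n T) (j : ℕ) :
    arc ex ey u ξ j ∈ C ↔ u ∈ C := by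
  induction j with
  | zero => rfl
  | succ j ih => rw [arc_succ, hC, ih]

/-- **off the fast event the strands of an invariant set are slow.** -/
theorem mv_of (nn : ∀ s, tdist (ex s).1 (ey s).1 ≤ 1) (hC : ∀ v, Sg ex ey ξ v ∈ C ↔ v ∈ C)
    (hZ : ∀ v ∈ C, v.2.1 ∉ Z) (hr : r + W + 1 ≤ ρ)
    (H : ∀ i, ∀ y ∈ sl n x ρ, Nf ex ey Fr (tm T (i * D), y) (lc (loc ex ey Z x ρ) ξ) D ≤ f ∧
      ∀ a ≤ D, ∀ b ≤ D, tdist (arc ex ey (tm T (i * D), y) (lc (loc ex ey Z x ρ) ξ) a).2.1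
        (arc ex ey (tm T (i * D), y) (lc (loc ex ey Z x ρ) ξ) b).2.1 ≤ W) :
    Mv ex ey Fr ξ C D f W r x := by
  classical
  intro i y hy j hj hd
  set ξ' := lc (loc ex ey Z x ρ) ξ
  obtain ⟨y', h1⟩ := arc_surj (ex := ex) (ey := ey) ξ' (i * D) j (arc ex ey (tm T (i * D), y) ξ j).2
  rw [← arc_tm (ex := ex) (ey := ey) (i * D) y ξ j] at h1
  replace h1 : arc ex ey (tm T (i * D), y') ξ' j = arc ex ey (tm T (i * D), y) ξ j := h1
  have h2 : ∀ a, tdist x (arc ex ey (tm T (i * D), y') ξ' a).2.1 ≤ ρ → y' ∈ sl n x ρ := by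
    intro a
    induction a with
    | zero => exact mem_sl.2
    | succ a ih =>
      refine fun h => ih ?_
      rw [arc_succ] at h
      rcases step_cases (ex := ex) (ey := ey) ξ' (arc ex ey (tm T (i * D), y') ξ' a) with
        k | ⟨k, ⟨k', -⟩ | ⟨k', -⟩⟩
      · rwa [k] at h
      · rw [k']; exact (mem_loc.1 (lc_true.1 k).1).1.1
      · rw [k']; exact (mem_loc.1 (lc_true.1 k).1).2.1
  obtain ⟨h3, h4⟩ := H i y' (h2 j (by rw [h1]; omega))
  have h5 : ∀ a ≤ D, tdist x (arc ex ey (tm T (i * D), y') ξ' a).2.1 + 1 ≤ ρ := fun a ha => by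
    have := h4 j hj a ha
    have := tdist_triangle x (arc ex ey (tm T (i * D), y') ξ' j).2.1
      (arc ex ey (tm T (i * D), y') ξ' a).2.1
    rw [h1] at *
    omega
  have h6 : ∀ a ≤ D, arc ex ey (tm T (i * D), y') ξ' a ∈ C → (tm T (i * D), y') ∈ C := by
    intro a
    induction a with
    | zero => exact fun _ h => h
    | succ a ih =>
      intro ha h
      rw [arc_succ] at h
      exact ih (by omega) ((hC _).1 (glue nn hC hZ (h5 a (by omega)) (.inr h) ▸ h))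
  have h7 := h6 j hj (h1 ▸ (arc_mem hC _ j).2 hy)
  have h8 : ∀ a ≤ D, arc ex ey (tm T (i * D), y') ξ a = arc ex ey (tm T (i * D), y') ξ' a := by
    intro a
    induction a with
    | zero => exact fun _ => rfl
    | succ a ih =>
      intro ha
      rw [arc_succ, arc_succ, ih (by omega)]
      exact glue nn hC hZ (h5 a (by omega)) (.inl (ih (by omega) ▸ (arc_mem hC _ a).2 h7))
  rw [← arc_inj ((h8 j hj).trans h1)]
  refine ⟨le_trans (le_of_eq (congrArg card (filter_congr fun a ha => ?_))) h3, fun b hb => ?_⟩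
  · rw [Jp, Jp, h8 a (mem_range.1 ha).le, h8 (a + 1) (mem_range.1 ha)]
  · rw [h8 j hj, h8 b hb]; exact h4 j hj b hb

end Crest.Agent.N337.Wk
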