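import Crest.Agent.N337.E.SC_Mg
import Crest.Agent.N337.E.Det
import Crest.Agent.N337.E.Fast
import Crest.Agent.N337.I.Geom
import Crest.Agent.N337.R.Det
import Crest.Agent.N337.R.Pt

-- ▼ part N337/E/Main
section

/-!
# Row 337, ENG (helper14): the engine

`Inp.scb` short chains, `Inp.prb` coin events, `Inp.skel` one skeleton, `eng : EngStmt`.
-/

set_option autoImplicit false
set_option linter.unusedSectionVars false

namespace Crest.Agent.N337.En

open Finset Crest.MathPhysics.SpinModel Crest.Agent.N337.Rep Sd Rg Tr Free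
open Crest.Agent.N337.Gas (Lp pts wd ub lp obv)

variable {L n T : ℕ} [NeZero L] [NeZero T] {ex ey : Fin T → Tor 3 L × Fin n} {ξ : Fin T → Bool}
  {α κ : Type} [SemilatticeSup α] [Preorder κ] {S : Sys (Tor 3 L) α κ} {G : Eg} {P : Pz}
  {p : Fin T → ℝ} {b : Fin T × (Tor 3 L × Fin n) → ℝ} {Y : ℝ} {U : ℕ → Tor 3 L → Prop}
  {Lf : Finset (Lp T (Tor 3 L × Fin n)) → Tor 3 L → Prop} {Ev : (Fin T → Bool) → ℕ → V → Prop}
  {m : ℕ} {z : V} {𝒮 : Finset (Term T n)}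

/-- the points of a short chain. -/
def xsOf (t : Term T n) : List (Pv T n) :=
  match t.dt with
  | .sc xs => xs
  | _ => []

/-- the place of a coin event. -/
def zOf (t : Term T n) : V :=
  match t.dt with
  | .pr z => z
  | _ => 0

/-- price of short chains. -/
noncomputable def Pz.p2 (P : Pz) (t : Term T n) : ℝ :=
  match t.dt with
  | .sc _ => P.ws t.lv ^ 3
  | _ => 1

/-- price of coin events. -/
noncomputable def Pz.p3 (P : Pz) (t : Term T n) : ℝ :=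
  match t.dt with
  | .pr _ => P.wp t.lv ^ 3
  | _ => 1

lemma p123 (t : Term T n) : P.p1 t * P.p2 t * P.p3 t = P.w t ^ 3 := by
  obtain ⟨u, l, _ | _ | _ | _⟩ := t <;> simp [Pz.p1, Pz.p2, Pz.p3, Pz.w]

/-- two terms that are not both targets are far apart. -/
lemma far_ne (H : Shp G m 0 z 𝒮) (hL : 4 * G.rr m < L) {t t' : Term T n} (ht : t ∈ 𝒮)
    (ht' : t' ∈ 𝒮) {v v' : V} (h : t.At v) (h' : t'.At v') (hne : t ≠ t')
    (hx : ∀ x, t.dt ≠ .tg x) : G.σ t.lv < 4 * tdist (tcast L v) (tcast L v') :=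
  shp_far H hL ht ht' h h' le_rfl fun k =>
    let ⟨_, _, x, _, e, _⟩ := H.own t ht t' ht' (At.ne_fr h) (At.ne_fr h') hne k; hx x e

lemma sc_spec {l : List (Lp T (Tor 3 L × Fin n))} (hl : ∀ g ∈ l, g ∈ Gas.L ex ey ξ)
    (R : Real S G (cf P U Lf Ev ξ) (sq l) l.length G.mt 𝒮) {t : Term T n} (ht : t ∈ 𝒮) :
    ((xsOf t).map fun x => lp ex ey ξ (pj L x)).Sublist l ∧ ∀ x ∈ xsOf t,
      ∀ y ∈ (lp ex ey ξ (pj L x)).2, tdist (tcast L x.2.1) y.2.1 ≤ G.Rl (t.lv - 1) := by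
  obtain ⟨u, k, _ | _ | xs | _⟩ := t
  any_goals exact ⟨List.nil_sublist _, fun x hx => absurd hx List.not_mem_nil⟩
  obtain ⟨ι, h1, h2⟩ := R.sc u k xs ht
  have e : ∀ j : Fin xs.length, lp ex ey ξ (pj L xs[j]) = sq l (ι j) := fun j =>
    (Gas.eq_lp (hl _ (sq_eq (h2 j).1 ▸ List.getElem_mem _)) (h2 j).2.1).symm
  refine ⟨List.sublist_iff_exists_fin_orderEmbedding_get_eq.2 ⟨OrderEmbedding.ofStrictMono
    (fun j => ⟨ι (j.cast (List.length_map _)), (h2 _).1⟩) fun i j h => h1 h, fun j => ?_⟩,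
    fun x hx y hy => ?_⟩
  · exact (List.getElem_map _).trans ((e (j.cast (List.length_map _))).trans (sq_eq (h2 _).1))
  · obtain ⟨j, hj, rfl⟩ := List.getElem_of_mem hx
    exact not_lt.1 fun k => (h2 ⟨j, hj⟩).2.2 ⟨y, e ⟨j, hj⟩ ▸ hy, k⟩

lemma xs_At {t : Term T n} {x : Pv T n} (h : x ∈ xsOf t) :
    t.At x.2.1 ∧ ∃ xs, t.dt = .sc xs := by
  obtain ⟨u, k, _ | _ | xs | _⟩ := t
  any_goals exact absurd h List.not_mem_nil
  exact ⟨⟨x, h, rfl⟩, xs, rfl⟩

namespace Inp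
variable (I : Inp ex ey S G P p b Y U Lf Ev) (H : Shp G m 0 z 𝒮) (hm : m ≤ G.mt)
include I H hm

open Classical in
/-- **short chains.** -/
theorem scb : Bi.BM ex ey p b Y (fun ξ l =>
    if Real S G (cf P U Lf Ev ξ) (sq l) l.length G.mt 𝒮 then 1 else 0) ≤ ∏ t ∈ 𝒮, P.p2 t := by
  refine (Bi.Dat.MM_sc (ι := 𝒮) (Bi.LD_ok I.hb I.hY.1.le I.hY.2.le) (Pw_nonneg I.hp)
    (sum_Pw p).le _ (fun t => n * vol (G.Rl (t.1.lv - 1))) (fun t => (xsOf t.1).length)
    (fun ξ t => (xsOf t.1).map fun x => lp ex ey ξ (pj L x)) _ fun ξ l _ hl R => ?_).trans ?_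
  · have h := fun t : 𝒮 => sc_spec (fun g hg => (hl.2 g hg).1) R t.2
    refine ⟨⟨fun t => hl.1.sublist (h t).1, fun t t' g h1 h2 => ?_⟩,
      fun t => ⟨List.length_map _, (h t).1, fun g hg => ?_⟩⟩
    · obtain ⟨x, hx, rfl⟩ := List.mem_map.1 h1
      obtain ⟨x', hx', e⟩ := List.mem_map.1 h2
      by_contra hne
      obtain ⟨a1, xs, a2⟩ := xs_At hx
      have k1 := far_ne H (I.nm.hL m hm) t.2 t'.2 a1 (xs_At hx').1 (fun e => hne (Subtype.ext e))
        (by simp [a2])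
      have k2 := (h t).2 x hx (pj L x') (e ▸ Gas.self_mem_obv ξ _)
      have k3 := (H.len t.1.cd t.1.lv xs (a2 ▸ t.2)).1
      have k4 := (I.nm.dd (t.1.lv - 1)).2.2.2
      rw [Nat.sub_add_cancel k3] at k4
      change tdist _ (tcast L x'.2.1) ≤ _ at k2
      omega
    · obtain ⟨x, hx, rfl⟩ := List.mem_map.1 hg
      exact (card_le_card fun y hy => mem_filter.2 ⟨mem_univ _,
        (h t).2 x hx _ (mem_filter.1 hy).2⟩).trans (card_near _ _)
  · rw [← prod_coe_sort 𝒮]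
    refine prod_le_prod (fun t _ => div_nonneg (pow_nonneg (add_nonneg zero_le_one
      (Real.log_natCast_nonneg _)) _) (Nat.cast_nonneg _)) ?_
    rintro ⟨⟨u, k, _ | _ | xs | _⟩, ht⟩ -
    rotate_left 2
    · obtain ⟨h1, h2⟩ := H.len u k xs ht
      have := (I.nm.ws (k - 1)).2
      rw [Nat.sub_add_cancel h1, ← h2] at this
      exact (div_le_iff₀' (Nat.cast_pos.2 (Nat.factorial_pos _))).2 this
    all_goals exact le_of_eq (by simp [xsOf, Pz.p2])

omit H hm in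
open Classical in
lemma hp_use {A : Finset (ℕ × V)} (h1 : ∀ t ∈ A, t.1 ≤ G.mt ∧ Fre G U (t.1 - 1) t.2)
    (h2 : ∀ t ∈ A, ∀ t' ∈ A, t ≠ t' → G.σ t.1 < 4 * tdist (tcast L t.2) (tcast L t'.2))
    {E : (Fin T → Bool) → List (Lp T (Tor 3 L × Fin n)) → Prop}
    (hE : ∀ ξ l, E ξ l → ∀ t ∈ A, Ev ξ t.1 t.2) :
    Bi.BM ex ey p b Y (fun ξ l => if E ξ l then 1 else 0) ≤ ∏ t ∈ A, P.η t.1 := by
  have ok := Bi.LD_ok I.hb I.hY.1.le I.hY.2.le
  refine le_trans (Bi.Dat.MM_mono ok (Pw_nonneg I.hp) fun ξ l _ _ => ?_)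
    ((Bi.Dat.MM_fam ok (Pw_nonneg I.hp) fun _ => ?_).trans (I.pr A h1 h2))
  · beta_reduce
    split_ifs with k k'
    exacts [le_rfl, absurd (hE ξ l k) k', zero_le_one, le_rfl]
  · split_ifs <;> norm_num

omit H hm in
lemma η_nn {l : ℕ} {v : V} (h1 : l ≤ G.mt) (h2 : Fre G U (l - 1) v) : 0 ≤ P.η l := by
  have := I.pr {(l, v)} (by simpa using ⟨h1, h2⟩) (by simp)
  rw [prod_singleton] at this
  exact le_trans (sum_nonneg fun ξ _ => mul_nonneg (Pw_nonneg I.hp ξ)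
    (by split_ifs <;> norm_num)) this

open Classical in
/-- **coin events.** -/
theorem prb : Bi.BM ex ey p b Y (fun ξ l =>
    if Real S G (cf P U Lf Ev ξ) (sq l) l.length G.mt 𝒮 then 1 else 0) ≤ ∏ t ∈ 𝒮, P.p3 t := by
  have ok := Bi.LD_ok I.hb I.hY.1.le I.hY.2.le
  obtain ⟨A, hA⟩ : ∃ A, A = 𝒮.filter fun t => ∃ v, t.dt = .pr v := ⟨_, rfl⟩
  have hAt : ∀ t ∈ A, t ∈ 𝒮 ∧ t.At (zOf t) ∧ t.dt = .pr (zOf t) := by
    rintro ⟨u, k, d⟩ ht
    obtain ⟨h1, v, h2⟩ := mem_filter.1 (hA ▸ ht)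
    obtain rfl : d = .pr v := h2
    exact ⟨h1, rfl, rfl⟩
  have hR : ∀ ξ l, Real S G (cf P U Lf Ev ξ) (sq l) l.length G.mt 𝒮 → ∀ t ∈ A,
      Ev ξ t.lv (zOf t) ∧ Fre G U (t.lv - 1) (zOf t) := fun ξ l R t ht =>
    R.pr t.cd t.lv _ ((hAt t ht).2.2 ▸ (hAt t ht).1)
  have e : ∏ t ∈ 𝒮, P.p3 t = ∏ t ∈ A, P.wp t.lv ^ 3 := by
    rw [hA, prod_filter]
    refine prod_congr rfl ?_
    rintro ⟨u, k, _ | _ | _ | _⟩ - <;> simp [Pz.p3]
  rw [e]
  by_cases hF : ∀ t ∈ A, Fre G U (t.lv - 1) (zOf t)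
  swap
  · refine (Bi.Dat.MM_mono ok (Pw_nonneg I.hp) (H' := fun _ _ => 0) fun ξ l _ _ =>
      (if_neg fun R => hF fun t ht => (hR ξ l R t ht).2).le).trans ((Bi.Dat.MM_fam ok
        (Pw_nonneg I.hp) (f := fun _ => 0) fun _ => le_rfl).trans ?_)
    simpa using prod_nonneg fun t _ => pow_nonneg (I.nm.wp t.lv).1 3
  have hf : ∀ t ∈ A, ∀ t' ∈ A, t ≠ t' → G.σ t.lv < 4 * tdist (tcast L (zOf t)) (tcast L (zOf t')) :=
    fun t ht t' ht' hne => far_ne H (I.nm.hL m hm) (hAt t ht).1 (hAt t' ht').1 (hAt t ht).2.1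
      (hAt t' ht').2.1 hne (by simp [(hAt t ht).2.2])
  have hi : Set.InjOn (fun t : Term T n => (t.lv, zOf t)) A := fun t ht t' ht' e => by
    by_contra hne
    have := hf t ht t' ht' hne
    rw [show zOf t = zOf t' from congrArg Prod.snd e, tdist_self] at this
    omega
  have h1 : ∀ t ∈ A, t.lv ≤ G.mt := fun t ht => (H.cd t (hAt t ht).1).2.trans hm
  refine (I.hp_use (A := A.image fun t => (t.lv, zOf t)) (forall_mem_image.2
    fun t ht => ⟨h1 t ht, hF t ht⟩) (forall_mem_image.2 fun t ht => forall_mem_image.2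
      fun t' ht' hne => hf t ht t' ht' fun e => hne (by rw [e]))
    fun ξ l k => forall_mem_image.2 fun t ht => (hR ξ l k t ht).1).trans ?_
  rw [prod_image hi]
  exact prod_le_prod (fun t ht => I.η_nn (h1 t ht) (hF t ht)) fun t _ => (I.nm.wp t.lv).2

open Classical in
/-- **one skeleton.** -/
theorem skel : Bi.BM ex ey p b Y (fun ξ l =>
    if Real S G (cf P U Lf Ev ξ) (sq l) l.length G.mt 𝒮 then 1 else 0) ≤ Tr.Wt P.w 𝒮 := by
  have h1 := I.tpc H hm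
  have h2 := I.scb H hm
  have h3 := I.prb H hm
  generalize Bi.BM ex ey p b Y _ = q at h1 h2 h3 ⊢
  by_contra h
  have h0 := (I.nm.Wt_nn 𝒮).trans_lt (not_le.1 h)
  have h4 : q ^ 3 ≤ Tr.Wt P.w 𝒮 ^ 3 := by
    rw [Tr.Wt, ← prod_pow, ← prod_congr rfl fun t _ => p123 t, prod_mul_distrib, prod_mul_distrib,
      pow_succ, pow_two]
    exact mul_le_mul (mul_le_mul h1 h2 h0.le (h0.le.trans h1)) h3 h0.le
      (mul_nonneg (h0.le.trans h1) (h0.le.trans h2))
  exact h (le_of_pow_le_pow_left₀ (by norm_num) (I.nm.Wt_nn 𝒮) h4)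

end Inp

variable (ex ey S G P) in
/-- **ENG.** -/
theorem eng : EngStmt ex ey S G P := by
  classical
  intro p b Y U Lf Ev I m hm y hy
  rw [← tcast_lf 0 y] at hy ⊢
  generalize lf 0 y = x at hy
  refine (Bi.Dat.MM_union (Bi.LD_ok I.hb I.hY.1.le I.hY.2.le) (Pw_nonneg I.hp)
    ((Ico m G.mt).sigma fun l => (box x (G.kp l)).sigma fun y => Top S G T n l y) _
    (fun i ξ l => Real S G (cf P U Lf Ev ξ) (sq l) l.length G.mt i.2.2) fun ξ l h0 hl h => ?_).trans ?_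
  · obtain ⟨k, h1, h2, y, h3, 𝒮, h4, R⟩ := det S G (cf P U Lf Ev ξ) (sq l) l.length I.ok
      (I.dyn ξ l h0 hl.1 hl.2) (fun i hi j hj hne => disjoint_left.2 fun v a1 a2 => by
        rw [sq_eq hi] at a1
        rw [sq_eq hj] at a2
        exact hne (hl.1.getElem_inj_iff.1 (Gas.L_eq (hl.2 _ (List.getElem_mem hi)).1
          (hl.2 _ (List.getElem_mem hj)).1 a1 a2))) m hm x hy
      (by rw [St_sq l le_rfl, List.take_length]; exact h)
    exact ⟨⟨k, y, 𝒮⟩, mem_sigma.2 ⟨mem_Ico.2 ⟨h1, h2⟩, mem_sigma.2 ⟨h3, h4⟩⟩, R⟩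
  · rw [sum_sigma]
    refine sum_le_sum fun l hl => ?_
    have hl' := (mem_Ico.1 hl).2
    have hs := I.nm.sum_Top (T := T) I.ok (fun _ _ _ _ h => (shp_Fam I.ok h).cd) l hl'
    rw [sum_sigma]
    exact sum_le_card ((sum_nonneg fun _ _ => I.nm.Wt_nn _).trans (hs x)) (fun y _ =>
      (sum_le_sum fun 𝒮 h => I.skel (shp_Top I.ok h) hl').trans (hs y)) (by rw [En.card_box])

end Crest.Agent.N337.En
end

-- ▼ part N337/E/PR
section

/-!
# Row 337, ENG leaves (helper86): the return event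

`RE` = in the local coins some strand returns `k` times next to the red set enlarged by a few
other strands, and the Green function between the targets is small.  It is rare (`pr_RE`).
-/

set_option autoImplicit false
set_option linter.unusedSectionVars false

namespace Crest.Agent.N337.Wk

open Finset Equiv Crest.Agent.N337.Rep Crest.Agent.N337.LY0 Crest.Agent.N337.Arc Free KV Geo I WN

section gen
variable {Λ : Type} [Fintype Λ] [DecidableEq Λ] {T : ℕ} [NeZero T] (ex ey : Fin T → Λ)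

/-- the first `N` points of the strands from `X`. -/
def arcs (X : Finset (Fin T × Λ)) (N : ℕ) (ξ : Fin T → Bool) : Finset (Fin T × Λ) :=
  X.biUnion fun u => (range N).image (arc ex ey u ξ)

/-- prescribed visits with small Green functions. -/
structure Vs (p : Fin T → ℝ) (b : Fin T × Λ → ℝ) (u : Fin T × Λ) (t : ℕ → ℕ)
    (S : ℕ → Finset (Fin T × Λ)) (Γ : ℝ) (k : ℕ) (ξ : Fin T → Bool) : Prop where
  fld : Fld b
  mono : Monotone t
  le : t k ≤ T
  grn : ∀ a < k, ∀ y ∈ S a, ∑ z ∈ S (a + 1), Gi ex ey p b z y ≤ Γ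
  vis : ∀ a ≤ k, arc ex ey u ξ (t a) ∈ S a
  prod : 1 / 2 ≤ ∏ j ∈ Ico (t 0) (t k), b (arc ex ey u ξ j)

variable {ex ey} {p : Fin T → ℝ} {X : Finset (Fin T × Λ)} {N : ℕ} {ξ ξ' : Fin T → Bool}

lemma mem_arcs {v : Fin T × Λ} : v ∈ arcs ex ey X N ξ ↔ ∃ u ∈ X, ∃ j < N, arc ex ey u ξ j = v := by
  simp [arcs]

lemma arc_congr (h : ∀ s ∈ tch ex ey (arcs ex ey X N ξ), ξ' s = ξ s) {u : Fin T × Λ} (hu : u ∈ X) :
    ∀ j ≤ N, arc ex ey u ξ' j = arc ex ey u ξ j := by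
  intro j
  induction j with
  | zero => exact fun _ => rfl
  | succ j ih =>
    intro hj
    rw [arc_succ, arc_succ, ih (by omega)]
    exact Sg_congr ex ey h (mem_arcs.2 ⟨u, hu, j, hj, rfl⟩)

lemma arcs_congr (h : ∀ s ∈ tch ex ey (arcs ex ey X N ξ), ξ' s = ξ s) :
    arcs ex ey X N ξ' = arcs ex ey X N ξ :=
  biUnion_congr rfl fun _ hu => image_congr fun j hj => arc_congr h hu j (mem_range.1 hj).le

lemma ends_arcs : Arc.ends ex ey ξ (arcs ex ey X N ξ) ≤ X.card := by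
  classical
  refine le_trans (card_le_card fun v hv => ?_) (card_image_le (f := fun u => arc ex ey u ξ (N - 1)))
  obtain ⟨h1, h2⟩ := mem_filter.1 hv
  obtain ⟨u, hu, j, hj, rfl⟩ := mem_arcs.1 h1
  refine mem_image.2 ⟨u, hu, ?_⟩
  by_contra h3
  have : j + 1 ≠ N := fun e => h3 (by rw [← e, Nat.add_sub_cancel])
  exact h2 (mem_arcs.2 ⟨u, hu, j + 1, by omega, arc_succ ex ey u ξ j⟩)

/-- conditioning on some strands. -/
theorem pin_bound (hp : ∀ s, 0 ≤ p s ∧ p s ≤ 1) (X : Finset (Fin T × Λ)) (N : ℕ)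
    (Q : Finset (Fin T × Λ) → (Fin T → ℝ) → (Fin T → Bool) → Prop) {ε : ℝ}
    (h : ∀ O p', (∀ s, 0 ≤ p' s ∧ p' s ≤ 1) → Pe p' (Q O p') ≤ ε) :
    Pe p (fun ξ => Q (arcs ex ey X N ξ) (pin p (tch ex ey (arcs ex ey X N ξ)) ξ) ξ) ≤ ε := by
  have hR : PH.Stop (E := fun _ => Bool) fun ξ => tch ex ey (arcs ex ey X N ξ) :=
    fun ξ ξ' k => by simp only [arcs_congr k]
  rw [Pe, ← hR.ex_P (pr_pb hp), ← (pr_pb hp).ex_const ε]
  refine (pr_pb hp).ex_mono fun ξ => le_trans (le_of_eq ?_) (h (arcs ex ey X N ξ) _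
    (pin_mem hp (tch ex ey (arcs ex ey X N ξ)) ξ))
  rw [P_pin]
  refine sum_congr rfl fun ξ' _ => ?_
  rw [w_pb]
  by_cases h0 : Pw (pin p (tch ex ey (arcs ex ey X N ξ)) ξ) ξ' = 0
  · rw [h0, zero_mul, zero_mul]
  · rw [arcs_congr (Pw_pin_supp h0), pin_congr p (Pw_pin_supp h0)]

theorem pr_Vs (hp : ∀ s, 0 ≤ p s ∧ p s ≤ 1) (b : Fin T × Λ → ℝ) (u : Fin T × Λ) (t : ℕ → ℕ)
    (S : ℕ → Finset (Fin T × Λ)) {Γ : ℝ} (hΓ : 0 ≤ Γ) (k : ℕ) :
    Pe p (Vs ex ey p b u t S Γ k) ≤ 2 * Γ ^ k := by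
  classical
  by_cases h : ∃ ξ, Vs ex ey p b u t S Γ k ξ
  · obtain ⟨ξ0, H⟩ := h
    refine (Pe_le hp (f := fun ξ => 2 * ((if ∀ a ≤ k, arc ex ey u ξ (t a) ∈ S a then 1 else 0) *
      ∏ j ∈ Ico (t 0) (t k), b (arc ex ey u ξ j))) (fun ξ => ?_) fun ξ H => ?_).trans ?_
    · exact mul_nonneg zero_le_two (mul_nonneg (by split_ifs <;> norm_num)
        (prod_nonneg fun _ _ => (H.fld.mem _).1))
    · rw [if_pos H.vis]; linarith [H.prod]
    · rw [PH.ex_mul]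
      refine mul_le_mul_of_nonneg_left (le_trans (le_of_eq ?_)
        (walk ex ey hp H.fld u H.mono S hΓ k H.le H.grn)) zero_le_two
      congr! 4
  · refine (Pe_le hp (f := fun _ => 0) (fun _ => le_rfl) fun ξ H => absurd ⟨ξ, H⟩ h).trans ?_
    rw [(pr_pb hp).ex_const]; positivity

end gen

/-! ### families of windows -/

/-- rank in `Fw`. -/
def rk (Fw : Finset ℕ) (a : ℕ) : ℕ := (Fw.filter (· < a)).card

/-- sets of `k + 1` elements of `Fw` whose ranks are congruent mod `τ`. -/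
def fam (Fw : Finset ℕ) (τ k : ℕ) : Finset (Finset ℕ) :=
  (range τ).biUnion fun c => powersetCard (k + 1) (Fw.filter fun a => rk Fw a % τ = c)

section fam
variable {Fw H Ws : Finset ℕ} {τ k l a a' : ℕ}

lemma rk_add (h : a ≤ a') : rk Fw a + (Fw.filter fun b => a ≤ b ∧ b < a').card = rk Fw a' := by
  rw [rk, rk, ← card_union_of_disjoint (disjoint_filter.2 fun b _ h1 h2 => by omega), ← filter_or]
  exact congrArg card (filter_congr fun b _ => by omega)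

lemma rk_lt (ha : a ∈ Fw) (h : a < a') : rk Fw a < rk Fw a' := by
  have := rk_add (Fw := Fw) h.le
  have : 0 < (Fw.filter fun b => a ≤ b ∧ b < a').card := card_pos.2 ⟨a, by simp [ha, h]⟩
  omega

lemma card_fam (hl : Fw.card ≤ l) : (fam Fw τ k).card ≤ τ * 2 ^ (l / τ + 1) := by
  refine (card_biUnion_le_card_mul _ _ _ fun c _ => ?_).trans (by rw [card_range])
  rw [card_powersetCard]
  refine (Nat.choose_le_two_pow _ _).trans (Nat.pow_le_pow_right two_pos ?_)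
  rw [← card_range (l / τ + 1)]
  refine card_le_card_of_injOn (fun a => rk Fw a / τ) (fun a _ => mem_range.2 (Nat.lt_succ_of_le
    (Nat.div_le_div_right ((card_filter_le _ _).trans hl)))) fun a ha b hb e => ?_
  have h1 := mem_filter.1 ha
  have h2 := mem_filter.1 hb
  have h3 : rk Fw a = rk Fw b := by
    rw [← Nat.div_add_mod (rk Fw a) τ, ← Nat.div_add_mod (rk Fw b) τ, h1.2, h2.2]
    exact congrArg (τ * · + c) e
  rcases lt_trichotomy a b with h | h | h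
  exacts [absurd h3 (rk_lt h1.1 h).ne, h, absurd h3 (rk_lt h2.1 h).ne']

lemma exists_fam (hτ : 0 < τ) (hH : H ⊆ Fw) (h : τ * k < H.card) : ∃ Ws ∈ fam Fw τ k, Ws ⊆ H := by
  obtain ⟨c, hc, h1⟩ := exists_lt_card_fiber_of_mul_lt_card_of_maps_to (s := H) (t := range τ)
    (f := fun a => rk Fw a % τ) (fun a _ => mem_range.2 (Nat.mod_lt _ hτ)) (by rwa [card_range])
  obtain ⟨Ws, h2, h3⟩ := exists_subset_card_eq (Nat.succ_le_of_lt h1)
  exact ⟨Ws, mem_biUnion.2 ⟨c, hc, mem_powersetCard.2 ⟨h2.trans (filter_subset_filter _ hH), h3⟩⟩,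
    h2.trans (filter_subset _ _)⟩

lemma fam_card (h : Ws ∈ fam Fw τ k) : Ws.card = k + 1 := by
  obtain ⟨c, -, h⟩ := mem_biUnion.1 h
  exact (mem_powersetCard.1 h).2

lemma fam_gap (h : Ws ∈ fam Fw τ k) (ha : a ∈ Ws) (ha' : a' ∈ Ws) (hl : a < a') :
    τ ≤ (Fw.filter fun b => a ≤ b ∧ b < a').card := by
  obtain ⟨c, -, h⟩ := mem_biUnion.1 h
  have h1 := mem_filter.1 ((mem_powersetCard.1 h).1 ha)
  have h2 := mem_filter.1 ((mem_powersetCard.1 h).1 ha')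
  have h3 := rk_lt h1.1 hl
  have h4 := Nat.le_of_dvd (by omega) ((Nat.modEq_iff_dvd' h3.le).1 (h1.2.trans h2.2.symm))
  have := rk_add (Fw := Fw) hl.le
  omega

/-- enumeration. -/
noncomputable def en (Ws : Finset ℕ) (k a : ℕ) : ℕ := Nat.nth (· ∈ Ws) (min a k)

lemma en_mem (h : Ws.card = k + 1) (a : ℕ) : en Ws k a ∈ Ws :=
  Nat.nth_mem_of_lt_card Ws.finite_toSet (by simp [h])

lemma en_mono (h : Ws.card = k + 1) : Monotone (en Ws k) := fun a b hab =>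
  Nat.nth_le_nth_of_lt_card Ws.finite_toSet (by omega) (by simp [h])

lemma en_lt (h : Ws.card = k + 1) (ha : a < k) : en Ws k a < en Ws k (a + 1) :=
  Nat.nth_lt_nth_of_lt_card Ws.finite_toSet (by omega) (by simp [h])

end fam

/-! ### the event -/

variable {L n T : ℕ} [NeZero L] [NeZero T] (ex ey : Fin T → Tor 3 L × Fin n) (F : Lf)

/-- fugacity `1/2` at time `0`. -/
noncomputable def b2 (s : Fin T) : ℝ := if s = 0 then 1 / 2 else 1

/-- everything outside the ball is killed. -/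
def zd (Z : Finset (Tor 3 L)) (x : Tor 3 L) (d : ℕ) : Finset (Tor 3 L) := Z ∪ (bl x d)ᶜ

open Classical in
/-- cluster free windows of the unit. -/
noncomputable def fw (R : Finset (V L n T)) (x : Tor 3 L) (d i : ℕ) : Finset ℕ :=
  (range F.l).filter fun a => ¬ Cl F d R x (i + a)

open Classical in
/-- slots next to the shadow of `R` in window `i`. -/
noncomputable def tg (R : Finset (V L n T)) (x : Tor 3 L) (d h i : ℕ) : Finset (V L n T) :=
  {tm T (i * F.D)} ×ˢ (univ.filter fun y : Tor 3 L × Fin n => tdist x y.1 ≤ d ∧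
    ∃ k ∈ Ico (i * F.D) ((i + 2) * F.D), (tm T k, y) ∈ R).biUnion fun y => sl n y.1 h

/-- the strand from `y` returns, given the point set `O` and the coin law `p`. -/
def Rt (R : Finset (V L n T)) (Z : Finset (Tor 3 L)) (x : Tor 3 L) (τ k h : ℕ) (Γ : ℝ) (i d : ℕ)
    (y : Tor 3 L × Fin n) (O : Finset (V L n T)) (p : Fin T → ℝ) (ξ : Fin T → Bool) : Prop :=
  ∃ Ws ∈ fam (fw F (vis Z (R ∪ O)) x d i) τ k, Vs ex ey p (bE b2 (zd Z x d) (R ∪ O))
    (tm T (i * F.D), y) (fun a => en Ws k a * F.D)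
    (fun a => tg F (vis (zd Z x d) (R ∪ O)) x d h (i + en Ws k a)) Γ k ξ

/-- the steps near `x`. -/
def nr (x : Tor 3 L) (ρ : ℕ) : Finset (Fin T) := univ.filter fun s => tdist x (ex s).1 ≤ ρ

/-- the return event. -/
def RE (p : Fin T → ℝ) (R : Finset (V L n T)) (Z : Finset (Tor 3 L)) (B m r ρ τ k h : ℕ) (Γ : ℝ)
    (x : Tor 3 L) (ξ : Fin T → Bool) : Prop :=
  ∃ i < B, ∃ d ≤ F.r0, ∃ X ⊆ sl n x r, X.card < m ∧ ∃ y ∈ sl n x r, Rt ex ey F R Z x τ k h Γ i d y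
    (arcs ex ey ({tm T (i * F.D)} ×ˢ X) (F.l * F.D) (lc (nr ex x ρ) ξ))
    (pin (lq p (nr ex x ρ)) (tch ex ey (arcs ex ey ({tm T (i * F.D)} ×ˢ X) (F.l * F.D)
      (lc (nr ex x ρ) ξ))) (lc (nr ex x ρ) ξ)) (lc (nr ex x ρ) ξ)

variable {ex ey F}

theorem pr_RE {p : Fin T → ℝ} (hp : ∀ s, 0 ≤ p s ∧ p s ≤ 1) (R : Finset (V L n T))
    (Z : Finset (Tor 3 L)) (B m r ρ τ k h : ℕ) {Γ : ℝ} (hΓ : 0 ≤ Γ) (x : Tor 3 L) :
    Pe p (RE ex ey F p R Z B m r ρ τ k h Γ x) ≤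
      (B * ((F.r0 + 1) * (m * (n * (2 * r + 1) ^ 3 + 1) ^ m * (n * (2 * r + 1) ^ 3))) : ℕ) *
        ((τ * 2 ^ (F.l / τ + 1) : ℕ) * (2 * Γ ^ k)) := by
  classical
  refine Pe_union hp (range B ×ˢ range (F.r0 + 1) ×ˢ ((range m).biUnion
    fun c => powersetCard c (sl n x r)) ×ˢ sl n x r) (fun z ξ => Rt ex ey F R Z x τ k h Γ z.1 z.2.1
      z.2.2.2 (arcs ex ey ({tm T (z.1 * F.D)} ×ˢ z.2.2.1) (F.l * F.D) (lc (nr ex x ρ) ξ))
      (pin (lq p (nr ex x ρ)) (tch ex ey (arcs ex ey ({tm T (z.1 * F.D)} ×ˢ z.2.2.1) (F.l * F.D)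
        (lc (nr ex x ρ) ξ))) (lc (nr ex x ρ) ξ)) (lc (nr ex x ρ) ξ)) (by positivity)
    (fun ξ ⟨i, hi, d, hd, X, h1, h2, y, hy, H⟩ => ⟨(i, d, X, y), ?_, H⟩) (fun z _ => ?_) ?_
  · simp only [mem_product, mem_range, mem_biUnion, mem_powersetCard]
    exact ⟨hi, by omega, ⟨_, h2, h1, rfl⟩, hy⟩
  · refine le_trans (Pe_lc p _ fun ξ => Rt ex ey F R Z x τ k h Γ z.1 z.2.1 z.2.2.2 (arcs ex ey _ _ ξ)
      (pin _ (tch ex ey (arcs ex ey _ _ ξ)) ξ) ξ).le (pin_bound (lq_mem hp _) _ _ _ fun O p' h' => ?_)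
    exact Pe_union h' _ _ (by positivity) (fun _ H => H) (fun Ws _ => pr_Vs h' _ _ _ _ hΓ k)
      (card_fam ((card_filter_le _ _).trans (card_range _).le))
  · simp only [card_product, card_range]
    have h1 := card_sl (n := n) x r
    gcongr
    refine (card_biUnion_le_card_mul _ _ _ fun c hc => ?_).trans (by rw [card_range])
    rw [card_powersetCard]
    exact (Nat.choose_le_pow _ _).trans ((Nat.pow_le_pow_left (by omega) _).trans
      (Nat.pow_le_pow_right (Nat.succ_pos _) (mem_range.1 hc).le))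

end Crest.Agent.N337.Wk
end

-- ▼ part N337/E/Leaf
section

/-!
# Row 337, ENG leaves (helper86): the leaves J1, J2 and the slow strands
-/

set_option autoImplicit false
set_option linter.unusedSectionVars false

namespace Crest.Agent.N337.Wk

open Finset Equiv Crest.Agent.N337.Rep Crest.Agent.N337.Arc Free KV Geo I

variable {L n T : ℕ} [NeZero L] [NeZero T] (ex ey : Fin T → Tor 3 L × Fin n)

/-- the on-site steps form the last block of the word. -/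
def Blk (p0 : Fin T → ℝ) : Prop := ∃ t0 : ℕ, ∀ s,
  ((ex s).1 = (ey s).1 → p0 s ≠ 0 → t0 ≤ s.val) ∧ (t0 ≤ s.val → (ex s).1 = (ey s).1)

/-- the pinned model of the environment `E` (`X0` = changes at open ends). -/
structure Md (F : Lf) (p p0 : Fin T → ℝ) (E : Ev L n T) (X0 : Finset (V L n T)) (Es w B x0 : ℕ)
    (θ : ℝ) : Prop where
  word : RR.Word ex ey p0 Es w B θ
  blk : Blk ex ey p0
  hD : F.D = w * Es
  hl : 1 ≤ F.l ∧ F.l < B
  hp : ∀ s, 0 ≤ p s ∧ p s ≤ 1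
  fr : ∀ s, ¬ Gas.tch ex ey E.1 s → p s = p0 s
  rp : Rp ex ey p E.1 (E.2 ∪ X0)
  x0 : X0.card ≤ x0

/-- an alive invariant point set. -/
structure Al (p : Fin T → ℝ) (E : Ev L n T) (Z : Finset (Tor 3 L)) (ξ : Fin T → Bool)
    (C : Finset (V L n T)) : Prop where
  pw : Pw p ξ ≠ 0
  inv : ∀ v, Sg ex ey ξ v ∈ C ↔ v ∈ C
  hE : ∀ v ∈ C, v ∉ E.1
  hZ : ∀ v ∈ C, v.2.1 ∉ Z

/-- free steps. -/
def Fr (E : Ev L n T) (s : Fin T) : Prop := ¬ Gas.tch ex ey E.1 s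

/-- paths along recorded changes are slow near `x`. -/
def SL (E : Ev L n T) (Z : Finset (Tor 3 L)) (D : ℕ) (x : Tor 3 L) (ρ v : ℕ) : Prop :=
  ∀ i, A.Slow ex ey (fun x y => tdist x.1 y.1) (fun r => ((ex r).1 = (ey r).1 ∨
    ((r, ex r) ∈ E.2 ∧ (r, ey r) ∈ E.2)) ∧ r.val ∈ Ico (i * D) ((i + 1) * D))
    (fun u => u.2.1 ∉ Z ∧ tdist x u.2.1 ≤ ρ) v

variable {ex ey} {F : Lf} {p p0 : Fin T → ℝ} {E : Ev L n T} {X0 C : Finset (V L n T)}
  {Es w B x0 t f W r ρ D i k m : ℕ} {θ c : ℝ} {Z : Finset (Tor 3 L)} {ξ : Fin T → Bool}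
  {x : Tor 3 L} {y : Tor 3 L × Fin n} {Q : Fin T → Prop}

lemma Md.hT (M : Md ex ey F p p0 E X0 Es w B x0 θ) : T = B * F.D := by
  rw [M.word.hT, M.hD, mul_assoc]

lemma Md.DT (M : Md ex ey F p p0 E X0 Es w B x0 θ) : F.l * F.D < T ∧ F.D ≤ T :=
  ⟨M.hT ▸ Nat.mul_lt_mul_of_pos_right M.hl.2 (D_pos M.hT),
    M.hT ▸ Nat.le_mul_of_pos_left _ (B_pos M.hT)⟩

lemma ne_of_true (h : Pw p ξ ≠ 0) {s : Fin T} (hs : ξ s = true) : p s ≠ 0 := by
  simpa [wb, hs] using prod_ne_zero_iff.1 h s (mem_univ s)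

/-- slow strands at the base level. -/
theorem mv0 (M : Md ex ey F p p0 E X0 Es w B x0 θ) (H : Al ex ey p E Z ξ C)
    (hG : ∀ y, tdist x y ≤ 2 * F.r0 + 1 → G0 F t E Z y) (hρ : ρ ≤ 3 * F.r0 + 1)
    (hW : f + 27 * (2 * t * F.j1 + x0) ≤ W) (hr : r + W + 1 ≤ ρ) (hθ : 7 * θ ≤ 1)
    (hc : 7 * θ * (w + (27 * (2 * t * F.j1 + x0) : ℕ)) ≤ c)
    (hF : ¬ FE ex ey p0 (Fr ex ey E) (loc ex ey Z x ρ) B F.D ρ c f x ξ) :
    Mv ex ey (Fr ex ey E) ξ C F.D f W r x := by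
  classical
  refine mv_of M.word.nn H.inv H.hZ hr fun i y hy => (slow_loc (q := 0) (P := 27 * (2 * t * F.j1 + x0)) (Ps := fun s =>
    s ∈ loc ex ey Z x ρ ∧ p s ≠ 0 ∧ Gas.tch ex ey E.1 s ∧ ex s ≠ ey s) M.word M.hD (fun i => ?_)
    (fun i a b γ _ h2 _ h => ?_) (by simpa using hθ) (by simpa using hc) hF i hy).imp_right
      fun h a ha b hb => (h a ha b hb).trans (by omega)
  · obtain ⟨P, h1, h2, h3⟩ := cover x 1 F.r0
    refine le_trans ?_ ((sum_le_card_nsmul P _ _ fun z hz => (hG z (by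
      simpa using h2 z hz)).chg_le' M.hT M.hl.1 Subset.rfl M.x0 i).trans (Nat.mul_le_mul_right _ h1))
    simp only [chg]
    rw [sum_comm, card_filter]
    refine sum_le_sum fun k _ => ?_
    split_ifs with h
    · have h4 := (mem_loc.1 h.1).1
      obtain ⟨z, hz, h5⟩ := h3 _ (h4.1.trans (by omega))
      refine le_trans (card_pos.2 ⟨ex (tm T k), mem_filter.2 ⟨mem_univ _, mem_vis.2
        ⟨M.rp.c2 _ _ (.inl rfl) h.2.2.2 h.2.1 h.2.2.1, fun a => h4.2 a.mem⟩, h5⟩⟩)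
        (single_le_sum (f := fun z => cnt (vis Z (E.2 ∪ X0)) k z F.r0) (fun _ _ => Nat.zero_le _) hz)
    · exact Nat.zero_le _
  · rw [Nat.le_zero, tdist_eq_zero]
    induction b, h2 using Nat.le_induction with
    | base => rfl
    | succ b h2 ih =>
      rw [ih (by omega) fun k hk => h k (Ico_subset_Ico_right b.le_succ hk)]
      rcases h b (mem_Ico.2 ⟨h2, b.lt_succ_self⟩) with e | ⟨⟨a1, a2⟩, e⟩ <;> rw [e]
      have a3 : (ex (tm T b)).1 = (ey (tm T b)).1 := a2.elim id fun a => by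
        by_contra a4
        exact a.2.2 ⟨a1, ne_of_true H.pw a.1, not_not.1 a.2.1, fun a5 => a4 (by rw [a5])⟩
      rw [swap_apply_def]; split_ifs with a4 a5
      exacts [a4 ▸ a3, a5 ▸ a3.symm, rfl]

/-- slow strands at a higher level. -/
theorem mvm {v : ℕ} (M : Md ex ey F p p0 E X0 Es w B x0 θ) (H : Al ex ey p E Z ξ C)
    (hS : SL ex ey E Z F.D x ρ v) (hW : (f + x0) * (v + 1) + v ≤ W) (hr : r + W + 1 ≤ ρ)
    (hθ : 7 * (θ * (2 * v + 1) ^ 3) ≤ 1) (hc : 7 * (θ * (2 * v + 1) ^ 3) * (w + x0) ≤ c)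
    (hF : ¬ FE ex ey p0 (Fr ex ey E) (loc ex ey Z x ρ) B F.D ρ c f x ξ) :
    Mv ex ey (Fr ex ey E) ξ C F.D f W r x := by
  classical
  have hT := M.hT
  refine mv_of M.word.nn H.inv H.hZ hr fun i y hy => (slow_loc (q := v)
    (Ps := fun s => s ∈ X0.image Prod.fst) M.word M.hD (fun i => ?_) (fun i a b γ h1 h2 h3 h => ?_)
    hθ hc hF i hy).imp_right fun h a ha b hb => (h a ha b hb).trans hW
  · rw [add_mul, one_mul]
    exact (RR.Dt.card_win M.DT.2 _ _).trans (card_image_le.trans M.x0)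
  have st : ∀ k, a ≤ k → k ≤ b → γ k = γ a ∨
      (((γ a).1 ∉ Z ∧ tdist x (γ a).1 ≤ ρ) ∧ (γ k).1 ∉ Z ∧ tdist x (γ k).1 ≤ ρ) := by
    intro k hk
    induction k, hk using Nat.le_induction with
    | base => exact fun _ => .inl rfl
    | succ k hk ih =>
      intro hb
      have := ih (by omega)
      rcases h k (mem_Ico.2 ⟨hk, hb⟩) with e | ⟨⟨a1, -⟩, e⟩ <;> rw [e]
      · exact this
      obtain ⟨a2, a3⟩ := mem_loc.1 a1
      rw [swap_apply_def]; split_ifs with a4 a5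
      · exact .inr ⟨this.elim (fun e => e ▸ a4 ▸ a2.symm) And.left, a3.symm⟩
      · exact .inr ⟨this.elim (fun e => e ▸ a5 ▸ a3.symm) And.left, a2.symm⟩
      · exact this
  rcases st b h2 le_rfl with e | ⟨e, -⟩
  · rw [e, tdist_self]; exact Nat.zero_le _
  have e1 : i * F.D = i % B * F.D + i / B * T := RR.Dt.split_mod hT i
  have e2 : (i % B + 1) * F.D ≤ T := hT ▸ Nat.mul_le_mul_right _ (Nat.mod_lt _ (B_pos hT))
  rw [add_mul, one_mul] at h3 e2
  have := hS (i % B) (a - i / B * T) (b - i / B * T) (fun k => γ (k + i / B * T)) (by omega)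
    (by omega) fun s a1 a2 => ?_
  · rwa [Nat.sub_add_cancel (by omega), Nat.sub_add_cancel (by omega)] at this
  have a3 := h (s.val + i / B * T) (mem_Ico.2 ⟨by omega, by omega⟩)
  rw [RR.Dt.tm_add_mul, tm_fin, add_right_comm] at a3
  refine ⟨(st _ (by omega) (by omega)).elim (fun k => by simpa only [k] using e) And.right,
    a3.imp_right fun a => ⟨⟨?_, mem_Ico.2 ⟨by omega, by rw [add_mul]; omega⟩⟩, a.2⟩⟩
  by_cases a4 : (ex s).1 = (ey s).1
  · exact .inl a4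
  obtain ⟨a5, a6, a7⟩ := a.1.2.resolve_left a4
  have a8 := fun y hy => (mem_union.1 (M.rp.c2 s y hy (fun e => a4 (by rw [e])) (ne_of_true H.pw a5)
    (not_not.1 a6))).resolve_right fun k => a7 (mem_image_of_mem _ k)
  exact .inr ⟨a8 _ (.inl rfl), a8 _ (.inr rfl)⟩

lemma arc_eq (k : ℕ) (y : Tor 3 L × Fin n) (ξ : Fin T → Bool) (j : ℕ) :
    arc ex ey (tm T k, y) ξ j = (tm T (k + j), (arc ex ey (tm T k, y) ξ j).2) :=
  Prod.ext (arc_tm k y ξ j) rfl

section mv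
variable (hC : ∀ v, Sg ex ey ξ v ∈ C ↔ v ∈ C) (hM : Mv ex ey Q ξ C D f W r x)
include hC hM

/-- back to the start of the window. -/
lemma back1 (h1 : i * D ≤ k) (h2 : k ≤ (i + 1) * D) (hy : (tm T k, y) ∈ C) (hd : tdist x y.1 ≤ r) :
    ∃ y', (tm T (i * D), y') ∈ C ∧ arc ex ey (tm T (i * D), y') ξ (k - i * D) = (tm T k, y) ∧
      tdist y.1 y'.1 ≤ W ∧ Nf ex ey Q (tm T (i * D), y') ξ D ≤ f := by
  obtain ⟨y', h⟩ := arc_surj (ex := ex) (ey := ey) ξ (i * D) (k - i * D) y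
  rw [Nat.add_sub_cancel' h1] at h
  have h3 := (arc_mem hC _ _).1 (h ▸ hy)
  have h4 := hM i y' h3 (k - i * D) (by rw [add_mul] at h2; omega) (by rw [h]; exact hd)
  exact ⟨y', h3, h, by simpa only [h, arc_zero] using h4.2 0 (Nat.zero_le _), h4.1⟩

lemma cnt_back (hD : 0 < D) {r' : ℕ} (hr : r' ≤ r) (k : ℕ) :
    cnt C k x r' ≤ cnt C (k / D * D) x (r' + W) := by
  classical
  refine le_trans (card_le_card fun y hy => ?_) (card_image_le (f := fun y' =>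
    (arc ex ey (tm T (k / D * D), y') ξ (k - k / D * D)).2))
  obtain ⟨h1, h2⟩ := (mem_filter.1 hy).2
  obtain ⟨y', h3, h4, h5, -⟩ := back1 hC hM (Nat.div_mul_le_self k D)
    (by rw [add_mul, one_mul]; exact (Nat.lt_div_mul_add hD).le) h1 (h2.trans hr)
  exact mem_image.2 ⟨y', mem_filter.2 ⟨mem_univ _, h3, (tdist_triangle _ y.1 _).trans
    (add_le_add h2 h5)⟩, by rw [h4]⟩

/-- displacement in `a` windows. -/
lemma span (hy : (tm T (i * D), y) ∈ C) (a : ℕ) : ∀ j ≤ a * D, ∀ j' ≤ a * D,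
    tdist x (arc ex ey (tm T (i * D), y) ξ j).2.1 + a * W ≤ r →
    tdist (arc ex ey (tm T (i * D), y) ξ j).2.1 (arc ex ey (tm T (i * D), y) ξ j').2.1 ≤ a * W := by
  induction a with
  | zero =>
    intro j hj j' hj' _
    rw [show j = j' by omega, tdist_self]; exact Nat.zero_le _
  | succ a ih =>
    intro j hj j' hj' hd
    rw [add_mul, one_mul] at hj hj' hd ⊢
    have e := arc_eq (ex := ex) (ey := ey) (i * D) y ξ (a * D)
    rw [← add_mul] at e
    have key : ∀ b b', a * D ≤ b → b ≤ a * D + D → a * D ≤ b' → b' ≤ a * D + D →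
        tdist x (arc ex ey (tm T (i * D), y) ξ b).2.1 ≤ r → tdist (arc ex ey (tm T (i * D), y) ξ b).2.1
          (arc ex ey (tm T (i * D), y) ξ b').2.1 ≤ W := fun b b' h1 h2 h3 h4 h5 => by
      obtain ⟨b, rfl⟩ := Nat.exists_eq_add_of_le h1
      obtain ⟨b', rfl⟩ := Nat.exists_eq_add_of_le h3
      rw [arc_add, e] at h5 ⊢
      rw [arc_add, e]
      exact (hM (i + a) _ (e ▸ (arc_mem hC _ _).2 hy) b (by omega) h5).2 b' (by omega)
    have t1 := tdist_triangle x (arc ex ey (tm T (i * D), y) ξ j).2.1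
      (arc ex ey (tm T (i * D), y) ξ (a * D)).2.1
    have t2 := tdist_triangle (arc ex ey (tm T (i * D), y) ξ j).2.1
      (arc ex ey (tm T (i * D), y) ξ (a * D)).2.1 (arc ex ey (tm T (i * D), y) ξ j').2.1
    rcases le_total j (a * D) with h | h <;> rcases le_total j' (a * D) with h' | h'
    · exact (ih j h j' h' (by omega)).trans (by omega)
    · have := ih j h _ le_rfl (by omega)
      have := key _ j' le_rfl (by omega) h' hj' (by omega)
      omega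
    · have := key j _ h hj le_rfl (by omega) (by omega)
      have := ih _ le_rfl j' h' (by omega)
      omega
    · exact (key j j' h hj h' hj' (by omega)).trans (by omega)

end mv

lemma blk_back {t0 : ℕ} (hC : ∀ v, Sg ex ey ξ v ∈ C ↔ v ∈ C)
    (h : ∀ s : Fin T, t0 ≤ s.val → (ex s).1 = (ey s).1) (h1 : t0 ≤ k) (h2 : k < T)
    (hy : (tm T k, y) ∈ C) : ∃ y', (tm T t0, y') ∈ C ∧ y'.1 = y.1 := by
  induction k, h1 using Nat.le_induction generalizing y with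
  | base => exact ⟨y, hy, rfl⟩
  | succ k h1 ih =>
    obtain ⟨y', a1, a2⟩ := ih (y := sg (ex (tm T k)) (ey (tm T k)) (ξ (tm T k)) y) (by omega)
      ((hC _).1 (by rwa [Sg_apply, sg_sg, ← tm_succ]))
    refine ⟨y', a1, a2.trans ?_⟩
    have a3 := h (tm T k) (by rwa [tm_val_of_lt (by omega)])
    unfold sg; split_ifs
    · rw [swap_apply_def]; split_ifs with a4 a5
      exacts [a4 ▸ a3.symm, a5 ▸ a3, rfl]
    · rfl

/-- **J2**: few slow strands have few new change points. -/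
theorem chg_new (M : Md ex ey F p p0 E X0 Es w B x0 θ) (H : Al ex ey p E Z ξ C)
    (hM : Mv ex ey (Fr ex ey E) ξ C F.D f W r x) (hr : F.r0 + 1 ≤ r)
    (hm : ∀ i, cnt C (i * F.D) x (F.r0 + 1 + W) ≤ m) (i : ℕ) :
    chg F.D (vis Z (acp ex ey ξ C \ E.2)) i x F.r0 ≤ x0 + 2 * (m * f + m * n ^ 2) := by
  classical
  obtain ⟨t0, hb⟩ := M.blk
  have nn := M.word.nn
  set K1 := ((univ.filter fun y => (tm T (i * F.D), y) ∈ C ∧ tdist x y.1 ≤ F.r0 + 1 + W).filter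
    fun y => Nf ex ey (Fr ex ey E) (tm T (i * F.D), y) ξ F.D ≤ f).biUnion fun y =>
      ((range F.D).filter fun j => Fr ex ey E (arc ex ey (tm T (i * F.D), y) ξ j).1 ∧
        Jp ex ey (tm T (i * F.D), y) ξ j).image (i * F.D + ·) with hK1
  set K2 := (univ.filter fun y => (tm T t0, y) ∈ C ∧ tdist x y.1 ≤ F.r0).biUnion fun y =>
    (Ico (i * F.D) (i * F.D + F.D)).filter fun k => tm T k ∈
      univ.filter fun s => (ex s).1 = y.1 ∧ (ey s).1 = y.1 ∧ p0 s ≠ 0 with hK2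
  have c1 : K1.card ≤ m * f := (card_biUnion_le_card_mul _ _ f fun y hy => card_image_le.trans
    (le_trans (le_of_eq (by rw [Nf])) (mem_filter.1 hy).2)).trans
      (Nat.mul_le_mul_right _ ((card_filter_le _ _).trans (hm i)))
  have c2 : K2.card ≤ m * n ^ 2 := (card_biUnion_le_card_mul _ _ (n ^ 2) fun y _ =>
    (RR.Dt.card_win M.DT.2 _ _).trans (M.word.few y.1)).trans (Nat.mul_le_mul_right _
      ((cnt_back H.inv hM (D_pos M.hT) (by omega) t0).trans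
        ((cnt_le fun _ a b => ⟨a, by omega⟩).trans (hm _))))
  have c3 : ∀ k ∈ Ico (i * F.D) ((i + 1) * F.D), cnt (vis Z (acp ex ey ξ C \ E.2)) k x F.r0 ≤
      cnt X0 k x F.r0 + if k ∈ K1 ∪ K2 then 2 else 0 := fun k hk => by
    have hk' := mem_Ico.1 hk
    rw [add_mul, one_mul] at hk'
    refine le_trans (card_le_card (t := _ ∪ if k ∈ K1 ∪ K2 then {ex (tm T k), ey (tm T k)} else ∅)
      fun y hy => ?_) ((card_union_le _ _).trans (add_le_add le_rfl ?_))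
    swap; · split_ifs; exacts [card_le_two, le_rfl]
    obtain ⟨a1, a2⟩ := (mem_filter.1 hy).2
    obtain ⟨a3, a4⟩ := mem_sdiff.1 (vis_sub a1)
    obtain ⟨a5, a6, a7, a8⟩ := mem_acp.1 a3
    by_cases a9 : Fr ex ey E (tm T k)
    swap
    · exact mem_union_left _ (mem_filter.2 ⟨mem_univ _, (mem_union.1 (M.rp.c2 _ y a8 a6
        (ne_of_true H.pw a5) (not_not.1 a9))).resolve_left a4, a2⟩)
    refine mem_union_right _ ?_
    rw [if_pos]; · simpa using a8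
    obtain ⟨v, b1, b2⟩ : ∃ v, (v = ex (tm T k) ∨ v = ey (tm T k)) ∧ (tm T k, v) ∈ C :=
      a7.elim (fun h => ⟨_, .inl rfl, h⟩) fun h => ⟨_, .inr rfl, h⟩
    by_cases b3 : (ex (tm T k)).1 = (ey (tm T k)).1
    · have b4 := M.fr _ a9 ▸ ne_of_true H.pw a5
      obtain ⟨y', b5, b6⟩ := blk_back H.inv (fun s => (hb s).2) ((hb _).1 b3 b4) (tm T k).2
        (by rwa [tm_fin])
      have b7 : (ex (tm T k)).1 = y'.1 ∧ y.1 = y'.1 := by
        rcases a8 with rfl | rfl <;> rcases b1 with rfl | rfl <;> simp [b6, b3]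
      exact mem_union_right _ (mem_biUnion.2 ⟨y', mem_filter.2 ⟨mem_univ _, b5, b7.2 ▸ a2⟩,
        mem_filter.2 ⟨mem_Ico.2 hk', mem_filter.2 ⟨mem_univ _, b7.1, b3 ▸ b7.1, b4⟩⟩⟩)
    · have b4 : tdist x v.1 ≤ F.r0 + 1 := by
        have := nn (tm T k)
        have := tdist_triangle x y.1 v.1
        rcases a8 with rfl | rfl <;> rcases b1 with rfl | rfl <;> first | omega | skip
        rw [tdist_comm (ey _).1] at this; omega
      obtain ⟨y', b5, b6, b7, b8⟩ := back1 H.inv hM hk'.1 (mem_Ico.1 hk).2.le b2 (b4.trans hr)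
      refine mem_union_left _ (mem_biUnion.2 ⟨y', mem_filter.2 ⟨mem_filter.2 ⟨mem_univ _, b5,
        (tdist_triangle _ v.1 _).trans (add_le_add b4 b7)⟩, b8⟩, mem_image.2 ⟨k - i * F.D,
          mem_filter.2 ⟨mem_range.2 (by omega), by rwa [b6], ?_⟩, Nat.add_sub_cancel' hk'.1⟩⟩)
      rw [Jp, arc_succ, b6, Sg_apply, sg, if_pos a5]
      rcases b1 with rfl | rfl
      · simpa using Ne.symm b3
      · simpa using b3
  refine (sum_le_sum c3).trans ?_
  rw [sum_add_distrib, ← sum_filter, sum_const, smul_eq_mul, mul_comm _ 2]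
  refine add_le_add ((chg_le_card M.DT.2).trans M.x0) (Nat.mul_le_mul_left _ ?_)
  exact (card_le_card fun k hk => (mem_filter.1 hk).2).trans
    ((card_union_le _ _).trans (add_le_add c1 c2))

end Crest.Agent.N337.Wk
end

-- ▼ part N337/E/J3

/-!
# Row 337, ENG leaves (helper86): the cluster leaf J3 and the reduction of the base leaf
-/

set_option autoImplicit false
set_option linter.unusedSectionVars false

namespace Crest.Agent.N337.Wk

open Finset Equiv Crest.Agent.N337.Rep Crest.Agent.N337.Arc Free KV Geo I WN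

variable {L n T : ℕ} [NeZero L] [NeZero T] (ex ey : Fin T → Tor 3 L × Fin n)

/-- numbers of the base leaf: `m` strands, `f` free jumps, speed `W`, `k` returns at gaps `τ`. -/
structure Lq where
  t : ℕ
  m : ℕ
  f : ℕ
  W : ℕ
  τ : ℕ
  k : ℕ
  c : ℝ
  Γ : ℝ

/-- range of the grid points, local radius. -/
def Lq.R (N : Lq) (F : Lf) : ℕ := F.r0 + F.l * N.W + 1
def Lq.ρ (N : Lq) (F : Lf) : ℕ := F.r0 + (2 * F.l + 1) * N.W + 2

/-- **side conditions of the base leaf.** -/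
structure Nm0 (N : Lq) (F : Lf) (p0 : Fin T → ℝ) (Es w B x0 : ℕ) (θ : ℝ) : Prop where
  m : N.m ≤ F.n1 + 1
  W : N.f + 27 * (2 * N.t * F.j1 + x0) ≤ N.W
  ρ : (2 * F.l + 1) * N.W + 1 ≤ 2 * F.r0
  hθ : 7 * θ ≤ 1
  c : 7 * θ * (w + (27 * (2 * N.t * F.j1 + x0) : ℕ)) ≤ N.c
  j1 : x0 + 2 * (N.m * N.f + N.m * n ^ 2) ≤ F.j1
  dl : N.m * (F.A + F.l * N.W + 1) ≤ F.dl
  l1 : 0 < N.τ ∧ N.m * (N.τ * N.k) ≤ F.l1
  g1 : ∃ (P : G1.Scales) (q κ : ℝ) (Bd : Finset ℕ) (j K : ℕ), P.Ok L ∧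
    G1.Clock ex ey p0 b2 Es w B q κ Bd ∧ (11 * P.ρ 0 + 6 ≤ F.A ∧ F.A ≤ P.η 0) ∧
    2 * (N.t + 1) * F.n1 ≤ P.a 0 ∧ P.a 0 + 2 * (2 * (N.t + 1) * F.j1 + (x0 + 2 * N.m)) ≤ j ∧
    2 * (Bd.card + L ^ 3 * j + 1) ≤ w ∧ 2 * (2 ^ K - 1) < L ∧ P.η 0 ≤ 2 ^ K - 1 ∧
    4 * (2 * F.r0 + 1) ^ 3 ≤ (2 * (2 ^ K - 1) + 1) ^ 3 ∧
    (j * (n * (2 * (2 * F.A + N.W) + 1) ^ 3) : ℕ) *
      (G1.Cg κ * (G1.Cc P F.A 1 1 / N.τ + G1.err q (1 / 2) L n B)) ≤ N.Γ

/-- **the coin event of the base leaf.** -/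
def Ev0 (N : Lq) (F : Lf) (p p0 : Fin T → ℝ) (E : Ev L n T) (Z : Finset (Tor 3 L)) (B : ℕ)
    (x : Tor 3 L) (ξ : Fin T → Bool) : Prop :=
  FE ex ey p0 (Fr ex ey E) (loc ex ey Z x (N.ρ F)) B F.D (N.ρ F) N.c N.f x ξ ∨
    RE ex ey F p E.1 Z B N.m (N.R F) (N.ρ F) N.τ N.k (2 * F.A + N.W) N.Γ x ξ

variable {ex ey} {F : Lf} {N : Lq} {p p0 : Fin T → ℝ} {E : Ev L n T} {X0 C O R : Finset (V L n T)}
  {Es w B x0 t d i : ℕ} {θ : ℝ} {Z : Finset (Tor 3 L)} {ξ ξ' : Fin T → Bool}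
  {x : Tor 3 L} {y : Tor 3 L × Fin n} {v : V L n T}

lemma Cl_rad {r r' : ℕ} (h : Cl F r R x i) (hr : r ≤ r') : Cl F r' R x i :=
  let ⟨k, a, z, b, c⟩ := h; ⟨k, a, z, b.trans hr, c⟩

open Classical in
/-- one strand is charged with many windows. -/
lemma pigeon {ι : Type} [DecidableEq ι] (Q : Finset ι → ℕ → ℕ → Prop) (l δ g : ℕ) (X : Finset ι) :
    ∀ r, X.card * g < ((range l).filter fun a => Q X r a ∧ ¬ Q ∅ (r + X.card * δ) a).card →
      ∃ X' u r', insert u X' ⊆ X ∧ u ∉ X' ∧ r' + δ ≤ r + X.card * δ ∧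
        g < ((range l).filter fun a => Q (insert u X') r' a ∧ ¬ Q X' (r' + δ) a).card := by
  induction X using Finset.induction_on with
  | empty => intro r h; simp at h
  | insert u X hu ih =>
    intro r h
    rw [card_insert_of_notMem hu, add_mul, one_mul] at h ⊢
    by_cases h1 : g < ((range l).filter fun a => Q (insert u X) r a ∧ ¬ Q X (r + δ) a).card
    · exact ⟨X, u, r, Subset.rfl, hu, by omega, h1⟩
    obtain ⟨X', u', r', a1, a2, a3, a4⟩ := ih (r + δ) (by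
      refine lt_of_add_lt_add_right (h.trans_le ((card_le_card (t := _ ∪ _) fun a ha => ?_).trans
        ((card_union_le _ _).trans (add_le_add le_rfl (not_lt.1 h1)))))
      rw [add_mul, one_mul, show r + (X.card * δ + δ) = r + δ + X.card * δ by ring] at ha
      simp only [mem_union, mem_filter] at ha ⊢
      tauto)
    exact ⟨X', u', r', a1.trans (subset_insert _ _), a2, by omega, a4⟩

lemma vis_zd (h : v ∈ vis (zd Z x d) R) : v ∈ vis Z R ∧ tdist x v.2.1 ≤ d + 1 := by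
  refine ⟨vis_mono Subset.rfl subset_union_left h, not_lt.1 fun k => (mem_vis.1 h).2 fun z hz =>
    mem_union_right _ (mem_compl.2 fun a => ?_)⟩
  have := mem_bl.1 a
  have := tdist_triangle x z v.2.1
  rw [tdist_comm] at hz
  omega

lemma mem_tg {h k : ℕ} {y' : Tor 3 L × Fin n} (h1 : tdist x y.1 ≤ d)
    (h2 : k ∈ Ico (i * F.D) ((i + 2) * F.D)) (h3 : (tm T k, y) ∈ R) (h4 : tdist y.1 y'.1 ≤ h) :
    (tm T (i * F.D), y') ∈ tg F R x d h i := by
  simp only [tg, mem_product, mem_singleton, mem_biUnion, mem_filter, mem_univ, true_and, mem_sl]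
  exact ⟨y, ⟨h1, k, h2, h3⟩, h4⟩

lemma b2_mem (s : Fin T) : 0 ≤ b2 s ∧ b2 s ≤ 1 := by unfold b2; split_ifs <;> norm_num

lemma fld_bE (Z : Finset (Tor 3 L)) (R : Finset (V L n T)) : Fld (bE b2 Z R) :=
  ⟨fun v => ⟨(bE_mem (fun s => (b2_mem s).1) v).1,
    (bE_mem (fun s => (b2_mem s).1) v).2.trans (b2_mem _).2⟩,
    fun _ => (bE_mem (fun s => (b2_mem s).1) _).2.trans_lt (by norm_num [b2])⟩

lemma prod_b2 (c a : ℕ) {b : ℕ} (hb : b ≤ T) : 1 / 2 ≤ ∏ j ∈ Ico a b, b2 (tm T (c + j)) := by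
  unfold b2
  by_cases h : ∃ j ∈ Ico a b, tm T (c + j) = 0
  · obtain ⟨j, hj, h⟩ := h
    rw [prod_eq_single_of_mem j hj fun l hl e => if_neg fun k => e ((tm_add_inj c
      ((mem_Ico.1 hl).2.trans_le hb) ((mem_Ico.1 hj).2.trans_le hb)).1 (Eq.trans k h.symm)), if_pos h]
  · rw [prod_eq_one fun j hj => if_neg fun k => h ⟨j, hj, k⟩]; norm_num

/-- **the Green function of the local model.** -/
theorem green (M : Md ex ey F p p0 E X0 Es w B x0 θ) (hN : Nm0 ex ey N F p0 Es w B x0 θ)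
    (hG : G0 F N.t E Z x) (h1 : ¬ J1 F (evp ex ey ξ C) Z x) (h2 : ¬ J2 F (evp ex ey ξ C) E Z x)
    (hO : O ⊆ C) (hξ : ∀ s, ξ' s = true → ξ s = true) (he : Arc.ends ex ey ξ' O ≤ N.m)
    (hd : d + 1 ≤ F.r0) {a a' : ℕ} (ha : a < a') (ha' : a' < F.l)
    (hτ : N.τ ≤ ((fw F (vis Z (E.1 ∪ O)) x d i).filter fun b => a ≤ b ∧ b < a').card)
    (hv : v.1 = tm T ((i + a) * F.D)) :
    ∑ z ∈ tg F (vis (zd Z x d) (E.1 ∪ O)) x d (2 * F.A + N.W) (i + a'), Gi ex ey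
      (pin (lq p (nr ex x (N.ρ F))) (tch ex ey O) ξ') (bE b2 (zd Z x d) (E.1 ∪ O)) z v ≤ N.Γ := by
  classical
  obtain ⟨P, q, κ, Bd, j, K, g1, g2, g3, g4, g5, g6, g7, g8, g9, g10⟩ := hN.g1
  have nn := M.word.nn
  have hT := M.hT
  have hp := pin_mem (lq_mem M.hp (nr ex x (N.ρ F))) (tch ex ey O) ξ'
  set p' := pin (lq p (nr ex x (N.ρ F))) (tch ex ey O) ξ' with hp'
  have rp : Rp ex ey p' (E.1 ∪ O) (E.2 ∪ X0 ∪ acp ex ey ξ' O ∪ opn ex ey ξ' O) :=
    Rp.child ⟨M.rp.c1, fun s y a b c => M.rp.c2 s y a b fun k => c (by simp [lq_eq, k])⟩ O ξ'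
  let F' : Lf := ⟨F.D, F.l, F.n1, F.j1, F.l, F.A, F.A + F.r0 + L + 4 * P.η 0, 0, 1, 0, by omega,
    by omega⟩
  simp only [J1, J2, not_exists, not_lt] at h1 h2
  have G' : G0 F' (N.t + 1) (E.1 ∪ O, E.2 ∪ acp ex ey ξ C) (zd Z x d) x := fun i => by
    refine ⟨fun k _ => le_trans (cnt_le (R := vis Z E.1 ∪ vis Z C) (r := F.r0) fun y a _ => ⟨?_,
      (vis_zd a).2.trans hd⟩) (cnt_union.trans ((add_le_add (hG.cnt_le hT M.hl.1 k) (h1 k)).trans
      (by simp only [F']; nlinarith))), fun i' _ => le_trans (sum_le_sum fun k _ => cnt_le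
      (R := vis Z E.2 ∪ vis Z (acp ex ey ξ C \ E.2)) (r := F.r0) fun y a _ => ⟨?_,
      (vis_zd a).2.trans hd⟩) (chg_union.trans ((add_le_add (hG.chg_le M.hl.1 i') (h2 i')).trans
      (by simp only [F']; nlinarith))), (card_filter_le _ _).trans (by simp [F']; nlinarith)⟩
    · rw [← vis_union]; exact vis_mono (union_subset_union_right hO) Subset.rfl (vis_zd a).1
    · rw [← vis_union, union_sdiff_self_eq_union]; exact (vis_zd a).1
  have lf : ∀ x' r, r ≤ F.r0 + 4 * P.η 0 → G1.Leaf ex ey p' (vis (zd Z x d) (E.1 ∪ O)) F.D (P.a 0) j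
      r x' := fun x' r hr => G'.leaf (X0 := X0 ∪ opn ex ey ξ' O) (x0 := x0 + 2 * N.m) hT M.hl.1 rp
    Subset.rfl (fun ⟨s, y⟩ h => by
      simp only [mem_union, mem_acp] at h ⊢
      rcases h with ((h | h) | h) | h
      exacts [.inl (.inl h), .inr (.inl h), .inl (.inr ⟨hξ s h.1, h.2.1,
        h.2.2.1.imp (hO ·) (hO ·), h.2.2.2⟩), .inr (.inr h)])
    ((card_union_le _ _).trans (add_le_add M.x0 (card_opn.trans (by omega)))) g4 g5
    (by have := tdist_le_half x x'; simp only [F']; omega)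
  have e0 := env_vis nn (p := p0) (R := E.1 ∪ O) (fun _ _ => rfl) b2 (zd Z x d)
  have env : G1.Env ex ey p' p0 (bE b2 (zd Z x d) (E.1 ∪ O)) b2 (vis (zd Z x d) (E.1 ∪ O))
      (zd Z x d) := by
    refine ⟨fun s _ => nn s, e0.bR, e0.bZ, e0.bf, fun s a1 a2 => ?_⟩
    by_cases h : Gas.tch ex ey (E.1 ∪ O) s
    · refine .inr (h.elim (fun k => ?_) fun k => ?_)
      · have : dead _ (ex s).1 := of_not_not fun a => a1 (mem_vis.2 ⟨k, a⟩)
        exact ⟨this.mem, this _ (nn s)⟩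
      · have : dead _ (ey s).1 := of_not_not fun a => a2 (mem_vis.2 ⟨k, a⟩)
        exact ⟨this _ (tdist_comm _ _ ▸ nn s), this.mem⟩
    rw [tch_union', not_or] at h
    rw [hp', pin, if_neg fun k => h.2 ((mem_tch ex ey).1 k), lq_eq]
    split_ifs with k
    · exact .inl (M.fr s h.1)
    have a3 := nn s
    have a4 := tdist_triangle x (ey s).1 (ex s).1
    rw [tdist_comm (ey s).1] at a4
    simp only [nr, mem_filter, mem_univ, true_and, Lq.ρ] at k
    simp only [zd, mem_union, mem_compl, mem_bl]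
    exact .inr ⟨.inr (by omega), .inr (by omega)⟩
  have hz : ∀ v : V L n T, d < tdist x v.2.1 → bE b2 (zd Z x d) (E.1 ∪ O) v = 0 := fun v h =>
    env.bZ v (by simp [zd, mem_bl, h])
  have hD := D_pos hT
  have hB := Nat.mod_lt (i + a) (B_pos hT)
  have hl := M.DT.1
  have hm : (a' - a) * F.D < T := lt_of_le_of_lt (Nat.mul_le_mul_right _ (by omega)) hl
  have e1 : (i + a') * F.D = (i + a) * F.D + (a' - a) * F.D := by rw [← add_mul]; congr 1; omega
  have h0 : 0 < (a' - a) * F.D := Nat.mul_pos (by omega) hD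
  have hc := G1.Cg_nonneg g2.hκ
  have key : ∀ z : V L n T, z.1 = tm T ((i + a') * F.D) → Gi ex ey p' (bE b2 (zd Z x d) (E.1 ∪ O)) z v ≤
      G1.Cg κ * (G1.Cc P F.A 1 1 / N.τ + G1.err q (1 / 2) L n B) := fun z hz' => by
    have e2 : v.1.val = (i + a) % B * F.D := by
      rw [hv, RR.Dt.tm_mod hT, tm_val_of_lt (hT ▸ Nat.mul_lt_mul_of_pos_right hB hD)]
    have e3 : G1.lag v.1 z.1 = (a' - a) * F.D := by rw [hv, hz', e1, RR.PtP.lag_tm _ h0 hm.le]
    have e4 : z ≠ v := fun k => h0.ne' ((tm_add_inj ((i + a) * F.D) hm (NeZero.pos T)).1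
      (by rw [← e1, ← hz', k, hv]; rfl))
    set S := (fw F (vis Z (E.1 ∪ O)) x d i).filter fun b => a ≤ b ∧ b < a'
    have e5 : (S.image fun b => (i + a) % B + (b - a)).card = S.card :=
      card_image_of_injOn fun b hb b' hb' e => by
        have := (mem_filter.1 hb).2
        have := (mem_filter.1 hb').2
        omega
    have := G1.G1u_clean (v := z) (grn ex ey hp (fld_bE _ _) (Y := 1 / 2) (by norm_num) (fun y =>
      (bE_mem (fun s => (b2_mem s).1) _).2.trans (by norm_num [b2])) v) (U := fun _ => ∅)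
      ⟨env, g2, ⟨g1, fun _ _ _ _ h => by simp at h, fun _ _ x' _ => M.hD ▸ lf x' _ (by omega), g3⟩,
        g6⟩ rfl (fun _ _ _ _ h => by simp at h) g7 g8 le_rfl (G1.top_supp hz (le_trans (by
        gcongr; omega) g9)) hz (S.image fun b => (i + a) % B + (b - a))
      (card_pos.1 (by have := hN.l1.1; omega)) fun b hb => ?_
    · rw [if_neg e4, sub_zero, zero_add, e5] at this
      refine this.trans (mul_le_mul_of_nonneg_left (add_le_add (div_le_div_of_nonneg_left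
        G1.Cc_nonneg (Nat.cast_pos.2 hN.l1.1) (Nat.cast_le.2 hτ)) le_rfl) hc)
    obtain ⟨b, h3, rfl⟩ := mem_image.1 hb
    obtain ⟨h4, h5⟩ := mem_filter.1 h3
    rw [← M.hD, e2, e3, ← add_mul]
    refine ⟨noCl (c := x) (r := d) (R := vis Z (E.1 ∪ O)) (fun k => (mem_filter.1 h4).2 ?_)
      (fun _ h => (vis_zd h).1) (by rw [tdist_self]; omega), Nat.mul_le_mul_right _ (by omega),
      Nat.mul_le_mul_right _ (by omega)⟩
    have := Nat.mod_add_div' (i + a) B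
    rwa [show i + b = (i + a) % B + (b - a) + (i + a) / B * B by omega, cl_add hT]
  refine (sum_le_card_nsmul _ _ _ fun z hz => key z (mem_singleton.1 (mem_product.1 hz).1)).trans ?_
  rw [nsmul_eq_mul]
  refine le_trans (mul_le_mul_of_nonneg_right (Nat.cast_le.2 ?_) (le_trans (Gi_nonneg ex ey hp
    (fld_bE _ _) _ v) (key (_, v.2) rfl))) g10
  rw [card_product, card_singleton, one_mul]
  refine (card_biUnion_le_card_mul _ _ _ fun y _ => card_sl y.1 _).trans (Nat.mul_le_mul_right _ ?_)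
  convert (lf x d (by omega)).shd (i + a')

/-- in a charged window the strand is next to a point of the older set. -/
lemma charged {u : Tor 3 L × Fin n} {X : Finset (Tor 3 L × Fin n)} {r a : ℕ} (hl : F.l * F.D ≤ T)
    (ha : a < F.l) (hr : r ≤ d) (h1 : Cl F r (vis Z (R ∪ arcs ex ey ({tm T (i * F.D)} ×ˢ insert u X)
      (F.l * F.D) ξ)) x (i + a)) (h2 : ¬ Cl F d (vis Z (R ∪ arcs ex ey ({tm T (i * F.D)} ×ˢ X)
      (F.l * F.D) ξ)) x (i + a)) : ∃ j ∈ Ico (a * F.D) ((a + 1) * F.D), ∃ y z,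
      (tm T (i * F.D + j), y) ∈ vis Z (R ∪ arcs ex ey ({tm T (i * F.D)} ×ˢ X) (F.l * F.D) ξ) ∧
      tdist x z ≤ r ∧ tdist z y.1 ≤ F.A ∧ tdist z (arc ex ey (tm T (i * F.D), u) ξ j).2.1 ≤ F.A := by
  classical
  obtain ⟨k, hk, z, h3, h4⟩ := h1
  have h5 : cnt _ k z F.A < 6 := not_le.1 fun h => h2 ⟨k, hk, z, h3.trans hr, h⟩
  rw [mem_Ico, add_assoc, add_mul, add_mul i] at hk
  obtain ⟨j, rfl⟩ : ∃ j, k = i * F.D + j := ⟨k - i * F.D, by omega⟩
  have h6 : (a + 1) * F.D ≤ F.l * F.D := Nat.mul_le_mul_right _ ha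
  have key : ∀ y, (tm T (i * F.D + j), y) ∈ vis Z (R ∪ arcs ex ey ({tm T (i * F.D)} ×ˢ insert u X)
      (F.l * F.D) ξ) → y = (arc ex ey (tm T (i * F.D), u) ξ j).2 ∨ (tm T (i * F.D + j), y) ∈
      vis Z (R ∪ arcs ex ey ({tm T (i * F.D)} ×ˢ X) (F.l * F.D) ξ) := fun y hy => by
    simp only [mem_vis, mem_union, mem_arcs, mem_product, mem_singleton, mem_insert] at hy ⊢
    obtain ⟨h | ⟨⟨s, u'⟩, ⟨rfl, rfl | b⟩, j', c, e⟩, h'⟩ := hy
    · exact .inr ⟨.inl h, h'⟩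
    · have := congrArg Prod.fst e
      rw [arc_tm, tm_add_inj _ (by omega) (by omega)] at this
      exact .inl (by rw [← this, e])
    · exact .inr ⟨.inr ⟨_, ⟨rfl, b⟩, j', c, e⟩, h'⟩
  by_cases h7 : tdist z (arc ex ey (tm T (i * F.D), u) ξ j).2.1 ≤ F.A
  · obtain ⟨y, hy, h8⟩ := exists_mem_ne (lt_of_lt_of_le (by norm_num) h4)
      (arc ex ey (tm T (i * F.D), u) ξ j).2
    exact ⟨j, mem_Ico.2 ⟨by omega, by omega⟩, y, z, (key y (mem_filter.1 hy).2.1).resolve_left h8, h3,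
      (mem_filter.1 hy).2.2, h7⟩
  · exact absurd (h4.trans (cnt_le fun y b c => ⟨(key y b).resolve_left fun e => h7 (e ▸ c), c⟩))
      (not_le.2 h5)

/-- **J3**: a cluster leaf of few slow strands is a return event. -/
theorem j3 (M : Md ex ey F p p0 E X0 Es w B x0 θ) (hN : Nm0 ex ey N F p0 Es w B x0 θ)
    (H : Al ex ey p E Z ξ C) (hG : G0 F N.t E Z x)
    (hM : Mv ex ey (Fr ex ey E) ξ C F.D N.f N.W (N.R F + F.l * N.W) x)
    (hm : ∀ i, cnt C (i * F.D) x (N.R F) < N.m) (h1 : ¬ J1 F (evp ex ey ξ C) Z x)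
    (h2 : ¬ J2 F (evp ex ey ξ C) E Z x) (h3 : J3 F (evp ex ey ξ C) E Z x) :
    RE ex ey F p E.1 Z B N.m (N.R F) (N.ρ F) N.τ N.k (2 * F.A + N.W) N.Γ x ξ := by
  classical
  obtain ⟨s, hs, i, hi, h3⟩ := h3.fin M.hT
  have hl := M.DT.1
  have hA : 1 ≤ F.A := by obtain ⟨_, _, _, _, _, _, _, _, h, _⟩ := hN.g1; omega
  have hR : N.R F = F.r0 + F.l * N.W + 1 := rfl
  have hρ : N.ρ F = N.R F + F.l * N.W + N.W + 1 := by simp only [Lq.ρ, Lq.R]; ring
  set Y := univ.filter fun y => (tm T (i * F.D), y) ∈ C ∧ tdist x y.1 ≤ N.R F with hY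
  have hYm : Y.card < N.m := hm i
  have r1 := F.rr_le s
  have r2 := F.rr_succ hs
  have r3 : Y.card * (F.A + F.l * N.W + 1) ≤ F.dl := (Nat.mul_le_mul_right _ hYm.le).trans hN.dl
  obtain ⟨X, u, r, a1, a2, a3, a4⟩ := pigeon (fun X r a => Cl F r (vis Z (E.1 ∪ arcs ex ey
    ({tm T (i * F.D)} ×ˢ X) (F.l * F.D) ξ)) x (i + a)) F.l (F.A + F.l * N.W + 1) (N.τ * N.k) Y
    (F.rr (s + 1)) (by
      refine (((Nat.mul_le_mul_right _ hYm.le).trans hN.l1.2).trans_lt h3).trans_le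
        (card_le_card_of_injOn (· - i) (fun b hb => ?_) fun b hb b' hb' e => ?_)
      swap
      · have := mem_Ico.1 (mem_filter.1 hb).1
        have := mem_Ico.1 (mem_filter.1 hb').1
        simp only at e
        omega
      obtain ⟨b1, ⟨k, b2, z, b3, b4⟩, b5⟩ := mem_filter.1 hb
      have b6 := win_sub b1 b2
      rw [mem_Ico] at b1 b6
      refine mem_filter.2 ⟨mem_range.2 (by simp only; omega), ?_⟩
      simp only [Nat.add_sub_cancel' b1.1]
      refine ⟨⟨k, b2, z, b3, b4.trans (cnt_le fun y c1 c2 => ⟨mem_vis.2 ⟨?_, (mem_vis.1 c1).2⟩, c2⟩)⟩,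
        fun c => b5 (Cl_rad (by simpa [arcs] using c) (by omega))⟩
      refine mem_union.2 ((mem_union.1 (vis_sub c1)).imp_right fun c3 => ?_)
      obtain ⟨j, rfl⟩ := Nat.exists_eq_add_of_le b6.1
      obtain ⟨y', c4⟩ := arc_surj (ex := ex) (ey := ey) ξ (i * F.D) j y
      have c5 := (arc_mem H.inv _ _).1 (c4 ▸ c3)
      rw [add_mul] at b6
      have c6 := tdist_triangle x z y.1
      have c7 := span H.inv hM c5 F.l j (by omega) 0 (Nat.zero_le _) (by rw [c4]; simp only; omega)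
      rw [c4, arc_zero] at c7
      exact mem_arcs.2 ⟨_, mem_product.2 ⟨mem_singleton_self _, mem_filter.2 ⟨mem_univ _, c5,
        (tdist_triangle x y.1 y'.1).trans (by simp only at c7; omega)⟩⟩, j, by omega, c4⟩)
  set d := r + (F.A + F.l * N.W + 1) with hd
  have sp : ∀ y ∈ insert u X, ∀ j ≤ F.l * F.D, arc ex ey (tm T (i * F.D), y) ξ j ∈ C ∧
      tdist x (arc ex ey (tm T (i * F.D), y) ξ j).2.1 ≤ N.R F + F.l * N.W := fun y hy j hj => by
    obtain ⟨b1, b2⟩ := (mem_filter.1 (a1 hy)).2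
    have := span H.inv hM b1 F.l 0 (Nat.zero_le _) j hj (Nat.add_le_add_right b2 _)
    exact ⟨(arc_mem H.inv _ _).2 b1, (tdist_triangle x y.1 _).trans (add_le_add b2 this)⟩
  have ag : ∀ s ∈ tch ex ey (arcs ex ey ({tm T (i * F.D)} ×ˢ insert u X) (F.l * F.D) ξ),
      lc (nr ex x (N.ρ F)) ξ s = ξ s := fun s hs => by
    have b1 : ∀ v ∈ arcs ex ey ({tm T (i * F.D)} ×ˢ insert u X) (F.l * F.D) ξ,
        tdist x v.2.1 + 1 ≤ N.ρ F := fun v hv => by
      obtain ⟨⟨_, y⟩, b, j, hj, rfl⟩ := mem_arcs.1 hv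
      obtain ⟨rfl, b⟩ := (mem_product.1 b).imp_left mem_singleton.1
      have := (sp y b j hj.le).2
      omega
    refine lc_mem _ (mem_filter.2 ⟨mem_univ _, ((mem_tch ex ey).1 hs).elim
      (fun k => (Nat.le_succ _).trans (b1 _ k)) fun k => (tdist_triangle x (ey s).1 _).trans
        ((Nat.add_le_add_left (tdist_comm _ _ ▸ M.word.nn s) _).trans (b1 _ k))⟩)
  have sub : arcs ex ey ({tm T (i * F.D)} ×ˢ X) (F.l * F.D) ξ ⊆
      arcs ex ey ({tm T (i * F.D)} ×ˢ insert u X) (F.l * F.D) ξ :=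
    biUnion_subset_biUnion_of_subset_left _ (product_subset_product_right (subset_insert _ _))
  have e1 := arcs_congr fun s hs => ag s (tch_mono ex ey sub hs)
  have e2 := arc_congr ag (mem_product.2 ⟨mem_singleton_self _, mem_insert_self u X⟩ :
    (tm T (i * F.D), u) ∈ _)
  have hX : X.card < N.m := (card_le_card ((subset_insert _ _).trans a1)).trans_lt hYm
  have he := (ends_arcs (ex := ex) (ey := ey) (X := {tm T (i * F.D)} ×ˢ X) (N := F.l * F.D)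
    (ξ := lc (nr ex x (N.ρ F)) ξ)).trans (by simpa using hX.le)
  refine ⟨i, hi, d, by omega, X, fun y hy => mem_sl.2 (mem_filter.1 (a1 (mem_insert_of_mem hy))).2.2,
    hX, u, mem_sl.2 (mem_filter.1 (a1 (mem_insert_self _ _))).2.2, ?_⟩
  rw [e1] at he ⊢
  set O := arcs ex ey ({tm T (i * F.D)} ×ˢ X) (F.l * F.D) ξ with hO
  have oc : O ⊆ C := fun v hv => by
    obtain ⟨⟨_, y⟩, b, j, hj, rfl⟩ := mem_arcs.1 hv
    obtain ⟨rfl, b⟩ := (mem_product.1 b).imp_left mem_singleton.1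
    exact (sp y (mem_insert_of_mem b) j hj.le).1
  obtain ⟨Ws, w1, w2⟩ := exists_fam (Fw := fw F (vis Z (E.1 ∪ O)) x d i) hN.l1.1
    (fun a ha => mem_filter.2 ⟨(mem_filter.1 ha).1, (mem_filter.1 ha).2.2⟩) a4
  have w3 := fam_card w1
  have w4 : ∀ a, en Ws N.k a < F.l := fun a => mem_range.1 (mem_filter.1 (w2 (en_mem w3 a))).1
  have w5 : ∀ a, (en Ws N.k a + 1) * F.D ≤ F.l * F.D := fun a => Nat.mul_le_mul_right _ (w4 a)
  have w6 := fun a => charged hl.le (w4 a) (by omega : r ≤ d) (mem_filter.1 (w2 (en_mem w3 a))).2.1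
    (mem_filter.1 (w2 (en_mem w3 a))).2.2
  have uC := (sp u (mem_insert_self _ _) 0 (Nat.zero_le _)).1
  simp only [add_mul, one_mul] at w5 w6
  refine ⟨Ws, w1, fld_bE _ _, fun a b h => Nat.mul_le_mul_right _ (en_mono w3 h),
    by have := w5 N.k; omega, fun a ha v hv => green M hN hG h1 h2 oc (fun s h => (lc_true.1 h).2)
      he (by omega) (en_lt w3 ha) (w4 _) (fam_gap w1 (en_mem w3 _) (en_mem w3 _) (en_lt w3 ha))
      (mem_singleton.1 (mem_product.1 hv).1), fun a _ => ?_, ?_⟩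
  · obtain ⟨j, b1, y, z, b2, b3, b4, b5⟩ := w6 a
    have b6 := w5 a
    obtain ⟨j, rfl⟩ := Nat.exists_eq_add_of_le (mem_Ico.1 b1).1
    have b7 := (mem_Ico.1 b1).2
    have e := arc_eq (ex := ex) (ey := ey) (i * F.D) u ξ (en Ws N.k a * F.D)
    rw [← add_mul] at e
    have b8 := tdist_triangle x z y.1
    have b9 := (sp u (mem_insert_self _ _) _ (by omega : en Ws N.k a * F.D + j ≤ _)).2
    rw [arc_add, e] at b5 b9
    have c1 := (hM _ _ (e ▸ (arc_mem H.inv _ _).2 uC) j (by omega) b9).2 0 (Nat.zero_le _)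
    rw [e2 _ (by omega), e]
    refine mem_tg (y := y) (by omega) (mem_Ico.2 ⟨?_, ?_⟩)
      (mem_vis.2 ⟨vis_sub b2, fun c2 => (mem_vis.1 b2).2 fun z' c3 => ?_⟩) ?_
    · rw [add_mul]; omega
    · simp only [add_mul]; omega
    · refine (mem_union.1 (c2 z' c3)).resolve_right fun c4 => mem_compl.1 c4 (mem_bl.2 ?_)
      have := tdist_triangle x y.1 z'
      simp only at c3
      omega
    · rw [tdist_comm] at b4
      exact (tdist_triangle _ z _).trans ((add_le_add b4 ((tdist_triangle _ _ _).trans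
        (add_le_add b5 c1))).trans (by omega))
  · refine (prod_b2 (T := T) (i * F.D) _ (by have := w5 N.k; omega)).trans
      (le_of_eq (prod_congr rfl fun j hj => ?_))
    have b0 : j < F.l * F.D := by have := w5 N.k; have := (mem_Ico.1 hj).2; omega
    have b1 := (sp u (mem_insert_self _ _) j b0.le).1
    obtain ⟨j0, c1, -, z, -, c3, -, c5⟩ := w6 0
    have c6 := tdist_triangle x z (arc ex ey (tm T (i * F.D), u) ξ j0).2.1
    have c7 := span H.inv hM uC F.l j0 (by have := w5 0; have := (mem_Ico.1 c1).2; omega) j b0.le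
      (by omega)
    have c8 := tdist_triangle x (arc ex ey (tm T (i * F.D), u) ξ j0).2.1
      (arc ex ey (tm T (i * F.D), u) ξ j).2.1
    rw [e2 j b0.le, bE, if_neg, arc_tm]
    rintro (k | k)
    · refine (mem_union.1 (vis_sub k)).elim (H.hE _ b1) fun k => ?_
      obtain ⟨⟨_, y⟩, b, j', hj', e⟩ := mem_arcs.1 k
      obtain ⟨rfl, b⟩ := (mem_product.1 b).imp_left mem_singleton.1
      have := congrArg Prod.fst e
      rw [arc_tm, arc_tm, tm_add_inj _ (by omega) (by omega)] at this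
      exact a2 ((Prod.mk.inj (arc_inj (this ▸ e))).2 ▸ b)
    · exact (mem_union.1 k).elim (H.hZ _ b1) fun k => mem_compl.1 k (mem_bl.2 (by omega))

/-- **reduction of the base leaf**: a coin event or many points on a grid slice. -/
theorem leaf0 (M : Md ex ey F p p0 E X0 Es w B x0 θ) (hN : Nm0 ex ey N F p0 Es w B x0 θ)
    (H : Al ex ey p E Z ξ C) (hG : ∀ y, tdist x y ≤ 2 * F.r0 + 1 → G0 F N.t E Z y)
    (h : W0 F (evp ex ey ξ C) E Z x) :
    Ev0 ex ey N F p p0 E Z B x ξ ∨ ∃ i, N.m ≤ cnt C (i * F.D) x (N.R F) := by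
  by_contra hc
  simp only [Ev0, not_or, not_exists, not_le] at hc
  have h0 := hN.ρ
  have hl := Nat.mul_le_mul_right N.W M.hl.1
  have hM := mv0 (r := N.R F + F.l * N.W) M H hG (by simp only [Lq.ρ]; omega) hN.W
    (by simp only [Lq.ρ, Lq.R]; exact le_of_eq (by ring)) hN.hθ hN.c hc.1.1
  have h1 : ¬ J1 F (evp ex ey ξ C) Z x := fun ⟨k, h⟩ => by
    have := (cnt_mono (vis_sub (Z := Z))).trans ((cnt_back H.inv hM (D_pos M.hT) (r' := F.r0)
      (by simp only [Lq.R]; omega) k).trans (cnt_le (r := N.R F) (z := x) fun _ a b =>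
        ⟨a, by simp only [Lq.R]; omega⟩))
    have := hc.2 (k / F.D)
    have := hN.m
    simp only [evp] at h
    omega
  have h2 : ¬ J2 F (evp ex ey ξ C) E Z x := fun ⟨i, h⟩ => h.not_ge ((chg_new M H hM
    (by simp only [Lq.R]; omega) (fun i => le_trans (cnt_le fun _ a b =>
      ⟨a, by simp only [Lq.R]; omega⟩) (hc.2 i).le) i).trans hN.j1)
  exact hc.1.2 (j3 M hN H (hG x (by rw [tdist_self]; omega)) hM hc.2 h1 h2
    ((h.resolve_left h1).resolve_left h2))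

end Crest.Agent.N337.Wk
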