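import Crest.Agent.N337.E.Birth
import Crest.Agent.N337.W.TP
import Crest.Agent.N337.Gas.Bridge
import Crest.Agent.N337.Pc.Defs

-- ▼ part N337/E/SM
section

/-!
# Row 337, ENG (helper86): the supermartingale lemma for ordered births

`Ph φ a l` is the product of the multipliers `φ (past) g` along the list `l` started with past `a`.
`sm0` : general compensator; `sm` : dyadic winding classes (this contains the time integration).
-/

set_option autoImplicit false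
set_option linter.unusedSectionVars false

namespace Crest.Agent.N337.Bi

open Finset

variable {Γ : Type} [DecidableEq Γ]

/-- product of the multipliers. -/
def Ph (φ : List Γ → Γ → ℝ) : List Γ → List Γ → ℝ
  | _, [] => 1
  | a, g :: l => φ a g * Ph φ (a ++ [g]) l

lemma Ph_nn {φ : List Γ → Γ → ℝ} (h : ∀ a g, 0 ≤ φ a g) (a l : List Γ) : 0 ≤ Ph φ a l := by
  induction l generalizing a with
  | nil => exact zero_le_one
  | cons g l ih => exact mul_nonneg (h _ _) (ih _)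

lemma Ph_append (φ : List Γ → Γ → ℝ) (a l l' : List Γ) :
    Ph φ a (l ++ l') = Ph φ a l * Ph φ (a ++ l) l' := by
  induction l generalizing a with
  | nil => simp [Ph]
  | cons g l ih => simp [Ph, ih, mul_assoc]

lemma Ph_snoc (φ : List Γ → Γ → ℝ) (a l : List Γ) (g : Γ) :
    Ph φ a (l ++ [g]) = Ph φ a l * φ (a ++ l) g := by simp [Ph_append, Ph]



namespace Dat

variable {D : Dat Γ} {Ω : Type} [Fintype Ω] [Fintype Γ] {P : Ω → ℝ} {Lw : Ω → Finset Γ}

lemma sum_ins (P : Ω → ℝ) (Lw : Ω → Finset Γ) (A : Finset Γ) (r : Γ → ℝ)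
    (f : Ω → Γ → Finset Γ → ℝ) :
    ∑ ω, (P ω * if A ⊆ Lw ω then 1 else 0) *
        ∑ g ∈ Lw ω \ A, r g * f ω g ((Lw ω \ A).erase g) =
      ∑ g ∈ Aᶜ, r g * ∑ ω, (P ω * if insert g A ⊆ Lw ω then 1 else 0) *
        f ω g (Lw ω \ insert g A) := by
  simp only [mul_sum]
  rw [sum_comm (s := Aᶜ)]
  refine sum_congr rfl fun ω _ => ?_
  rw [← sum_subset (show Lw ω \ A ⊆ Aᶜ from fun g hg => mem_compl.2 (mem_sdiff.1 hg).2)]
  · refine sum_congr rfl fun g hg => ?_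
    simp only [insert_subset_iff, (mem_sdiff.1 hg).1, true_and, sdiff_insert]; ring
  · intro g hg hg'
    rw [if_neg fun k => hg' (mem_sdiff.2 ⟨k (mem_insert_self _ _), mem_compl.1 hg⟩)]; ring

lemma Z_deriv (A : Finset Γ) (s : ℝ) : HasDerivAt (D.Z P Lw A)
    (-∑ g ∈ Aᶜ, D.w' s g * D.Z P Lw (insert g A) s) s := by
  have h1 := HasDerivAt.fun_sum (u := (univ : Finset Ω)) (x := s) fun ω _ =>
    (HasDerivAt.fun_finsetProd (u := Lw ω \ A) (x := s) fun g _ =>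
      (D.w_deriv s g).const_sub 1).const_mul (P ω * if A ⊆ Lw ω then 1 else 0)
  refine h1.congr_deriv ?_
  unfold Z
  rw [← sum_ins P Lw A _ fun _ _ B => ∏ g ∈ B, (1 - D.w s g), ← sum_neg_distrib]
  refine sum_congr rfl fun ω _ => ?_
  rw [← mul_neg, ← sum_neg_distrib]
  exact congrArg _ (sum_congr rfl fun g _ => by rw [smul_eq_mul]; ring)

/-- **supermartingale lemma**, general compensator. -/
theorem sm0 (h : D.Ok) {φ : List Γ → Γ → ℝ} (hφ : ∀ a g, 0 ≤ φ a g)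
    {A a : ℝ → ℝ} (hA : ContinuousOn A (Set.Icc 0 D.Y))
    (hd : ∀ s ∈ Set.Ioo 0 D.Y, HasDerivAt A (a s) s)
    (hr : ∀ l : List Γ, l.Nodup → Ph φ [] l ≠ 0 → ∀ s ∈ Set.Ioo 0 D.Y,
      ∑ g ∈ l.toFinsetᶜ, D.w' s g * ((φ l g - 1) * D.Z P Lw (insert g l.toFinset) s) ≤
        a s * D.Z P Lw l.toFinset s) :
    D.MM P Lw (fun _ => Ph φ []) ≤ D.Z P Lw ∅ 0 * Real.exp (A D.Y - A 0) := by
  have key : ∀ (n : ℕ) (l : List Γ), l.toFinsetᶜ.card = n → l.Nodup → Ph φ [] l ≠ 0 →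
      ∀ s, 0 ≤ s → s ≤ D.Y → ∑ ω, (P ω * if l.toFinset ⊆ Lw ω then 1 else 0) *
        D.m (Lw ω \ l.toFinset) (Ph φ l) s ≤ D.Z P Lw l.toFinset s * Real.exp (A D.Y - A s) := by
    intro n
    induction n using Nat.strong_induction_on with
    | h n ih =>
      intro l hn hl h0 s hs hs1
      have hV := fun t => HasDerivAt.fun_sum (u := (univ : Finset Ω)) (x := t) fun ω _ =>
        (D.m_deriv (Lw ω \ l.toFinset) (Ph φ l) t).const_mul
          (P ω * if l.toFinset ⊆ Lw ω then 1 else 0)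
      have hZ := fun t => Z_deriv (D := D) (P := P) (Lw := Lw) l.toFinset t
      have := le_of_deriv hs1 (u := fun t => D.Z P Lw l.toFinset t * Real.exp (A D.Y - A t) -
        ∑ ω, (P ω * if l.toFinset ⊆ Lw ω then 1 else 0) * D.m (Lw ω \ l.toFinset) (Ph φ l) t)
        (((continuous_iff_continuousAt.2 fun t => (hZ t).continuousAt).continuousOn.mul
          (continuousOn_const.sub (hA.mono (Set.Icc_subset_Icc_left hs))).rexp).sub
          (continuous_iff_continuousAt.2 fun t => (hV t).continuousAt).continuousOn)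
        (fun t ht => ((hZ t).fun_mul ((hd t ⟨hs.trans_lt ht.1, ht.2⟩).const_sub (A D.Y)).exp).fun_sub
          (hV t)) fun t ht => ?_
      · simp only [sub_self, Real.exp_zero, mul_one, m_end, Ph, Z] at this
        exact sub_nonneg.1 this
      have ht0 : 0 < t := hs.trans_lt ht.1
      have h1 := mul_le_mul_of_nonneg_right (hr l hl h0 t ⟨ht0, ht.2⟩)
        (Real.exp_pos (A D.Y - A t)).le
      have h2 : ∑ ω, (P ω * if l.toFinset ⊆ Lw ω then 1 else 0) * ∑ g ∈ Lw ω \ l.toFinset,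
          D.w' t g * D.m ((Lw ω \ l.toFinset).erase g) (fun l' => Ph φ l (g :: l')) t ≤
          ∑ g ∈ l.toFinsetᶜ, D.w' t g * (φ l g * (D.Z P Lw (insert g l.toFinset) t *
            Real.exp (A D.Y - A t))) := by
        rw [sum_ins P Lw l.toFinset _ fun _ g B => D.m B (fun l' => Ph φ l (g :: l')) t]
        refine sum_le_sum fun g hg => mul_le_mul_of_nonneg_left ?_ (h.w'_nn ht0.le g)
        simp only [Ph, m_mul, mul_left_comm _ (φ l g), ← mul_sum]
        by_cases hg0 : φ l g = 0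
        · simp [hg0]
        refine mul_le_mul_of_nonneg_left ?_ (hφ l g)
        have hg' : g ∉ l := fun k => mem_compl.1 hg (List.mem_toFinset.2 k)
        have e : (l ++ [g]).toFinset = insert g l.toFinset := by ext; simp
        rw [← e]
        refine ih _ ?_ _ rfl (List.nodup_append.2 ⟨hl, List.nodup_singleton g, fun x hx y hy => ?_⟩)
          (by rw [Ph_snoc]; exact mul_ne_zero h0 hg0) t ht0.le ht.2.le
        · rw [e, compl_insert, ← hn]; exact card_erase_lt_of_mem hg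
        · rw [List.mem_singleton.1 hy]; rintro rfl; exact hg' hx
      have h3 : ∑ g ∈ l.toFinsetᶜ, D.w' t g * (φ l g * (D.Z P Lw (insert g l.toFinset) t *
          Real.exp (A D.Y - A t))) = (∑ g ∈ l.toFinsetᶜ, D.w' t g * ((φ l g - 1) *
            D.Z P Lw (insert g l.toFinset) t)) * Real.exp (A D.Y - A t) +
          (∑ g ∈ l.toFinsetᶜ, D.w' t g * D.Z P Lw (insert g l.toFinset) t) *
            Real.exp (A D.Y - A t) := by
        rw [sum_mul, sum_mul, ← sum_add_distrib]; exact sum_congr rfl fun g _ => by ring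
      simp only [mul_neg, sum_neg_distrib]
      linarith
  simpa [MM] using key _ [] rfl List.nodup_nil (by simp [Ph]) 0 le_rfl h.Y0

/-- **supermartingale lemma**, dyadic winding classes `2 ^ j ≤ k < 2 ^ (j + 1)`, `j < J`. -/
theorem sm (h : D.Ok) (hP : ∀ ω, 0 ≤ P ω) (h1 : ∑ ω, P ω ≤ 1) {φ ψ : List Γ → Γ → ℝ}
    (hφ : ∀ a g, 0 ≤ φ a g) (hψ : ∀ a g, 0 ≤ ψ a g) (hφψ : ∀ a g, φ a g ≤ 1 + ψ a g) {J : ℕ}
    (hJ : ∀ a g, ψ a g ≠ 0 → D.c g ≠ 0 → D.k g < 2 ^ J) {C : ℕ → ℝ} (hC : ∀ j, 0 ≤ C j) {α : ℝ}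
    (hα : 0 < α)
    (hr : ∀ l : List Γ, l.Nodup → Ph φ [] l ≠ 0 → ∀ s ∈ Set.Ioo 0 D.Y, ∀ j < J,
      ∑ g ∈ l.toFinsetᶜ with 2 ^ j ≤ D.k g ∧ D.k g < 2 ^ (j + 1),
        D.w s g * (ψ l g * D.Z P Lw (insert g l.toFinset) s) ≤
        C j * s ^ (α * 2 ^ j) * D.Z P Lw l.toFinset s) :
    D.MM P Lw (fun _ => Ph φ []) ≤ Real.exp (2 * (∑ j ∈ range J, C j) / α) := by
  have hp : ∀ j : ℕ, 0 < α * 2 ^ j := fun j => by positivity
  refine (sm0 h hφ (A := fun s => ∑ j ∈ range J, 2 * C j / α * s ^ (α * 2 ^ j))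
    (a := fun s => ∑ j ∈ range J, 2 * C j / α * (α * 2 ^ j * s ^ (α * 2 ^ j - 1)))
    (continuousOn_finsetSum _ fun j _ => continuousOn_const.mul
      (Real.continuous_rpow_const (hp j).le).continuousOn)
    (fun s hs => HasDerivAt.fun_sum fun j _ =>
      (Real.hasDerivAt_rpow_const (Or.inl hs.1.ne')).const_mul _) fun l hl h0 s hs => ?_).trans ?_
  · have hZ := fun A => Z_nn (Lw := Lw) h hP A hs.1.le hs.2.le
    refine le_of_mul_le_mul_right ?_ hs.1
    calc _ ≤ ∑ g ∈ l.toFinsetᶜ, ∑ j ∈ range J, if 2 ^ j ≤ D.k g ∧ D.k g < 2 ^ (j + 1) then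
          2 ^ (j + 1) * (D.w s g * (ψ l g * D.Z P Lw (insert g l.toFinset) s)) else 0 := by
          rw [sum_mul]
          refine sum_le_sum fun g _ => ?_
          have hx := mul_nonneg (h.w_nn hs.1.le g) (mul_nonneg (hψ l g) (hZ (insert g l.toFinset)))
          have hn : ∀ j ∈ range J, (0 : ℝ) ≤ if 2 ^ j ≤ D.k g ∧ D.k g < 2 ^ (j + 1) then
              2 ^ (j + 1) * (D.w s g * (ψ l g * D.Z P Lw (insert g l.toFinset) s)) else 0 :=
            fun j _ => by split_ifs; exacts [by positivity, le_rfl]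
          rw [mul_right_comm, w'_mul]
          refine (mul_le_mul_of_nonneg_left (mul_le_mul_of_nonneg_right
            (sub_le_iff_le_add'.2 (hφψ l g)) (hZ _)) (mul_nonneg (Nat.cast_nonneg _)
              (h.w_nn hs.1.le g))).trans ?_
          by_cases hz : D.k g = 0 ∨ ψ l g = 0 ∨ D.c g = 0
          · refine le_trans (le_of_eq ?_) (sum_nonneg hn)
            rcases hz with hz | hz | hz <;> simp [hz, w]
          push Not at hz
          have hl1 := Nat.pow_log_le_self 2 hz.1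
          have hl2 := Nat.lt_pow_succ_log_self one_lt_two (D.k g)
          refine le_trans ?_ (single_le_sum hn (mem_range.2
            (Nat.log_lt_of_lt_pow hz.1 (hJ l g hz.2.1 hz.2.2))))
          rw [if_pos ⟨hl1, hl2⟩, mul_assoc]
          exact mul_le_mul_of_nonneg_right (by exact_mod_cast hl2.le) hx
      _ ≤ _ := by
          rw [sum_comm, sum_mul, sum_mul]
          refine sum_le_sum fun j hj => ?_
          rw [← sum_filter, ← mul_sum]
          refine (mul_le_mul_of_nonneg_left (hr l hl h0 s hs j (mem_range.1 hj))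
            (by positivity)).trans (le_of_eq ?_)
          rw [Real.rpow_sub_one hs.1.ne']
          have := hs.1.ne'
          field_simp
          ring
  · refine (mul_le_of_le_one_left (Real.exp_pos _).le (Z_empty_le h hP h1)).trans
      (Real.exp_le_exp.2 ?_)
    simp only [Real.zero_rpow (hp _).ne', mul_zero, sum_const_zero, sub_zero]
    rw [mul_sum, sum_div]
    exact sum_le_sum fun j _ => mul_le_of_le_one_right (by have := hC j; positivity)
      (Real.rpow_le_one h.Y0 h.Y1 (hp j).le)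

end Dat

end Crest.Agent.N337.Bi
private theorem rz_1579f0419a : type_of% @_root_.Crest.Agent.N337.Bi.Ph.eq_def := @_root_.Crest.Agent.N337.Bi.Ph.eq_def -- L20
private theorem rz_3efb46919a : type_of% @_root_.Crest.Agent.N337.Bi.Ph.eq_1 := @_root_.Crest.Agent.N337.Bi.Ph.eq_1 -- L20
end

-- ▼ part N337/E/Loop

/-!
# Row 337, ENG (helper86): ordered births of the loops of the space-time permutation

`bs b s` multiplies the field `b` by `s` at time `0`; `LD b Y` are the birth data of the loops,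
`BM p b Y H` the mean of `H ξ (chronological list of the births)`.
`smL` : supermartingale lemma with the drift in the child models written with `WN.ls`.
`BM_set`, `BM_aliv`, `mkE_eq`, `mkE_le` : the law of the set of births, of the marked loops.
-/

set_option autoImplicit false
set_option linter.unusedSectionVars false

namespace Crest.Agent.N337.Bi

open Finset Crest.Agent.N337.Rep Crest.Agent.N337.LY0 Crest.Agent.N337.Gas
open Crest.Agent.N337.WN (ls Zg lw)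
open Crest.Agent.N337.Pc (bw mkE qP)

section marks
variable {Γ : Type} [Fintype Γ] [DecidableEq Γ]


lemma sum_bw (D : Γ → ℝ) (X : Finset Γ) : ∑ B ∈ X.powerset, bw D X B = 1 := by
  simp only [bw]; rw [← prod_add]; simp





end marks

variable {Λ : Type} [Fintype Λ] [DecidableEq Λ] {T : ℕ} [NeZero T] (ex ey : Fin T → Λ)

/-- the field at level `s`. -/
def bs (b : Fin T × Λ → ℝ) (s : ℝ) (v : Fin T × Λ) : ℝ := if v.1 = 0 then s * b v else b v

/-- birth data of the loops. -/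
def LD (b : Fin T × Λ → ℝ) (Y : ℝ) : Dat (Lp T Λ) := ⟨ub b, wd, Y⟩

/-- mean over the coins and the ordered births. -/
noncomputable def BM (p : Fin T → ℝ) (b : Fin T × Λ → ℝ) (Y : ℝ)
    (H : (Fin T → Bool) → List (Lp T Λ) → ℝ) : ℝ := (LD b Y).MM (Pw p) (L ex ey) H

variable {ex ey} {p : Fin T → ℝ} {b : Fin T × Λ → ℝ} {Y s : ℝ} {A : Finset (Lp T Λ)}
  {ξ : Fin T → Bool} {g : Lp T Λ}

lemma LD_ok (hb : ∀ v, 0 ≤ b v ∧ b v ≤ 1) (h0 : 0 ≤ Y) (h1 : Y ≤ 1) : (LD b Y).Ok :=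
  ⟨ub_nn fun v => (hb v).1, ub_le_one hb, h0, h1⟩

lemma bs_mem (hb : ∀ v, 0 ≤ b v ∧ b v ≤ 1) (h0 : 0 ≤ s) (h1 : s ≤ 1) (v : Fin T × Λ) :
    0 ≤ bs b s v ∧ bs b s v ≤ 1 := by
  unfold bs; split_ifs
  exacts [⟨mul_nonneg h0 (hb v).1, mul_le_one₀ h1 (hb v).1 (hb v).2⟩, hb v]

lemma bs_fld (hb : ∀ v, 0 ≤ b v ∧ b v ≤ 1) (h0 : 0 ≤ s) (h1 : s < 1) : Arc.Fld (bs b s) :=
  ⟨bs_mem hb h0 h1.le, fun x => by
    rw [bs, if_pos rfl]; exact (mul_le_of_le_one_right h0 (hb _).2).trans_lt h1⟩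

lemma bs_mono (hb : ∀ v, 0 ≤ b v) {t : ℝ} (h : s ≤ t) (v : Fin T × Λ) : bs b s v ≤ bs b t v := by
  unfold bs; split_ifs
  exacts [mul_le_mul_of_nonneg_right h (hb v), le_rfl]

lemma bs_one (b : Fin T × Λ → ℝ) : bs b 1 = b := by funext v; simp [bs]


lemma kill_fld (h : Arc.Fld b) (U : Finset (Fin T × Λ)) : Arc.Fld (kill b U) := h.kill U

lemma ub_bs (b : Fin T × Λ → ℝ) (s : ℝ) (g : Lp T Λ) : ub (bs b s) g = ub b g * s ^ wd g := by
  have e : wd g = (g.2.filter fun v => v.1 = 0).card := by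
    refine card_bij (fun x _ => (0, x)) (by simp) (by simp) ?_
    rintro ⟨t, x⟩ h
    obtain ⟨h1, rfl⟩ := mem_filter.1 h
    exact ⟨x, by simpa using h1, rfl⟩
  rw [e, ub, ub, ← prod_const, prod_filter, ← prod_mul_distrib]
  exact prod_congr rfl fun v _ => by unfold bs; split_ifs <;> ring

lemma LD_w (b : Fin T × Λ → ℝ) (Y s : ℝ) (g : Lp T Λ) : (LD b Y).w s g = ub (bs b s) g :=
  (ub_bs b s g).symm

lemma wd_ne (hg : g ∈ L ex ey ξ) : wd g ≠ 0 := by
  obtain ⟨v, rfl⟩ := mem_L.1 hg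
  obtain ⟨x, hx⟩ := exists_time ex ey ξ (o _ v) 0
  exact card_ne_zero.2 ⟨x, mem_filter.2 ⟨mem_univ _, mem_obv.2 hx⟩⟩

lemma ub_kill_mem (hA : A ⊆ L ex ey ξ) (hg : g ∈ A) (b : Fin T × Λ → ℝ) :
    ub (kill b (pts A)) g = 0 := by
  obtain ⟨v, hv⟩ := L_nonempty (hA hg)
  exact prod_eq_zero hv (if_pos (mem_pts.2 ⟨g, hg, hv⟩))

lemma ub_kill_notMem (hA : A ⊆ L ex ey ξ) (hg : g ∈ L ex ey ξ) (hg' : g ∉ A)
    (b : Fin T × Λ → ℝ) : ub (kill b (pts A)) g = ub b g :=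
  prod_congr rfl fun v hv => if_neg fun k => by
    obtain ⟨g', h1, h2⟩ := mem_pts.1 k
    exact hg' (L_eq hg (hA h1) hv h2 ▸ h1)

lemma prod_kill (hA : A ⊆ L ex ey ξ) {B : Finset (Lp T Λ)} (hB : B ⊆ L ex ey ξ)
    (b : Fin T × Λ → ℝ) : ∏ g ∈ B \ A, (1 - ub b g) = ∏ g ∈ B, (1 - ub (kill b (pts A)) g) := by
  rw [← prod_subset (sdiff_subset : B \ A ⊆ B) fun g h1 h2 => by
    rw [ub_kill_mem hA (by simp only [mem_sdiff] at h2; tauto), sub_zero]]
  exact prod_congr rfl fun g hg => by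
    rw [ub_kill_notMem hA (hB (mem_sdiff.1 hg).1) (mem_sdiff.1 hg).2]

lemma sum_cond (hp : ∀ s, 0 ≤ p s ∧ p s ≤ 1) (A : Finset (Lp T Λ)) {F G : (Fin T → Bool) → ℝ}
    (h : ∀ ξ, A ⊆ L ex ey ξ → F ξ = G ξ) :
    ∑ ξ, (Pw p ξ * if A ⊆ L ex ey ξ then 1 else 0) * F ξ =
      qq ex ey p A * ∑ ξ, Pw (pin ex ey p A) ξ * G ξ := by
  rw [sum_congr rfl fun ξ _ => show _ = (Pw p ξ * if A ⊆ L ex ey ξ then 1 else 0) * G ξ by
    split_ifs with k; exacts [by rw [h ξ k], by simp]]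
  by_cases h0 : qq ex ey p A = 0
  · rw [h0, zero_mul]
    refine sum_eq_zero fun ξ _ => ?_
    rw [(sum_eq_zero_iff_of_nonneg fun ξ _ => mul_nonneg (Pw_nonneg hp ξ)
      (by split_ifs <;> norm_num)).1 h0 ξ (mem_univ _), zero_mul]
  · simp only [Pw_cond h0, mul_sum, mul_assoc]

theorem Z_eq (hp : ∀ s, 0 ≤ p s ∧ p s ≤ 1) (A : Finset (Lp T Λ)) (s : ℝ) :
    (LD b Y).Z (Pw p) (L ex ey) A s =
      qq ex ey p A * Zg ex ey (pin ex ey p A) (kill (bs b s) (pts A)) := by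
  rw [Dat.Z, ← WN.sum_gw]
  refine sum_cond hp A fun ξ hA => ?_
  simp only [LD_w]
  rw [prod_kill hA subset_rfl, prod_L]
  simp only [ub_lp]; rfl

theorem ls_eq (hp : ∀ s, 0 ≤ p s ∧ p s ≤ 1) (A : Finset (Lp T Λ)) (s : ℝ) (ψ : Lp T Λ → ℝ) :
    ∑ g ∈ Aᶜ, (LD b Y).w s g * (ψ g * (LD b Y).Z (Pw p) (L ex ey) (insert g A) s) =
      qq ex ey p A * ls ex ey (pin ex ey p A) (kill (bs b s) (pts A)) ψ := by
  simp only [← mul_assoc, Dat.Z]
  rw [← Dat.sum_ins (Pw p) (L ex ey) A _ fun _ _ B => ∏ g ∈ B, (1 - (LD b Y).w s g), ls]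
  refine sum_cond hp A fun ξ hA => ?_
  simp only [LD_w]
  have e : ∀ c : Orb (Sg ex ey ξ), lw (Sg ex ey ξ) (kill (bs b s) (pts A)) (bp c) =
      ub (kill (bs b s) (pts A)) (lp ex ey ξ (bp c)) * ∏ g ∈ (L ex ey ξ).erase (lp ex ey ξ (bp c)),
        (1 - ub (kill (bs b s) (pts A)) g) := fun c => by
    rw [lw, o_bp, ub_lp, L_eq_image, ← image_erase fun _ _ => lp_bp_inj,
      prod_image fun _ _ _ _ => lp_bp_inj]
    simp only [ub_lp]
  simp only [e]
  rw [← sum_L ξ fun g => ψ g * (ub (kill (bs b s) (pts A)) g * ∏ g ∈ (L ex ey ξ).erase g,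
    (1 - ub (kill (bs b s) (pts A)) g)), ← sum_subset (sdiff_subset : L ex ey ξ \ A ⊆ _)
    fun g h1 h2 => by
      rw [ub_kill_mem hA (by simp only [mem_sdiff] at h2; tauto)]; ring]
  refine sum_congr rfl fun g hg => ?_
  rw [ub_kill_notMem hA (mem_sdiff.1 hg).1 (mem_sdiff.1 hg).2, ← erase_sdiff_comm,
    prod_kill hA (erase_subset _ _)]
  ring

/-- **supermartingale lemma for the loops.** -/
theorem smL (hp : ∀ s, 0 ≤ p s ∧ p s ≤ 1) (hb : ∀ v, 0 ≤ b v ∧ b v ≤ 1) (h0 : 0 ≤ Y) (h1 : Y ≤ 1)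
    {φ ψ : List (Lp T Λ) → Lp T Λ → ℝ} (hφ : ∀ a g, 0 ≤ φ a g) (hψ : ∀ a g, 0 ≤ ψ a g)
    (hφψ : ∀ a g, φ a g ≤ 1 + ψ a g) {J : ℕ} (hJ : ∀ a g, ψ a g ≠ 0 → ub b g ≠ 0 → wd g < 2 ^ J)
    {C : ℕ → ℝ} (hC : ∀ j, 0 ≤ C j) {α : ℝ} (hα : 0 < α)
    (hr : ∀ l : List (Lp T Λ), l.Nodup → Ph φ [] l ≠ 0 → qq ex ey p l.toFinset ≠ 0 →
      ∀ s ∈ Set.Ioo 0 Y, ∀ j < J,
        ls ex ey (pin ex ey p l.toFinset) (kill (bs b s) (pts l.toFinset))
          (fun g => if 2 ^ j ≤ wd g ∧ wd g < 2 ^ (j + 1) then ψ l g else 0) ≤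
        C j * s ^ (α * 2 ^ j) * Zg ex ey (pin ex ey p l.toFinset) (kill (bs b s) (pts l.toFinset))) :
    BM ex ey p b Y (fun _ => Ph φ []) ≤ Real.exp (2 * (∑ j ∈ range J, C j) / α) := by
  refine Dat.sm (LD_ok hb h0 h1) (Pw_nonneg hp) (sum_Pw p).le hφ hψ hφψ hJ hC hα
    fun l hl hP s hs j hj => ?_
  rw [sum_filter, sum_congr rfl fun g _ => show _ = (LD b Y).w s g *
    ((if 2 ^ j ≤ wd g ∧ wd g < 2 ^ (j + 1) then ψ l g else 0) *
      (LD b Y).Z (Pw p) (L ex ey) (insert g l.toFinset) s) by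
        change (if 2 ^ j ≤ wd g ∧ wd g < 2 ^ (j + 1) then _ else _) = _
        split_ifs <;> simp, ls_eq hp, Z_eq hp, mul_left_comm]
  by_cases hq : qq ex ey p l.toFinset = 0
  · simp [hq]
  · exact mul_le_mul_of_nonneg_left (hr l hl hP hq s hs j hj) ((cpt_qq hp).nn _)

/-- the law of the set of births. -/
theorem BM_set (p : Fin T → ℝ) (b : Fin T × Λ → ℝ) (Y : ℝ)
    (F : (Fin T → Bool) → Finset (Lp T Λ) → ℝ) : BM ex ey p b Y (fun ξ l => F ξ l.toFinset) =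
      ∑ ξ, Pw p ξ * ∑ C ∈ (L ex ey ξ).powerset, bw (ub (bs b Y)) (L ex ey ξ) C * F ξ C :=
  sum_congr rfl fun ξ _ => by
    rw [(LD b Y).m_set0 fun g hg => wd_ne hg]
    simp only [LD_w]; rfl



/-- alive point sets. -/
theorem BM_aliv (p : Fin T → ℝ) (b : Fin T × Λ → ℝ) (Y : ℝ)
    (F : (Fin T → Bool) → Finset (Fin T × Λ) → ℝ) :
    BM ex ey p b Y (fun ξ l => F ξ (pts l.toFinset)) =
      ∑ ξ, Pw p ξ * ∑ D, Arc.aliv ex ey (bs b Y) ξ D * F ξ (Arc.on D) := by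
  classical
  rw [BM_set _ _ _ fun ξ C => F ξ (pts C)]
  refine sum_congr rfl fun ξ _ => congrArg _ ?_
  rw [← sum_subset (subset_univ (univ.filter fun D : Fin T × Λ → Bool =>
    ∀ v, D (Sg ex ey ξ v) = D v)) fun D _ hD => by
      rw [Arc.aliv, if_neg (by simpa using hD), zero_mul]]
  have hon : ∀ C : Finset (Lp T Λ), Arc.on (fun v => decide (v ∈ pts C)) = pts C := fun C => by
    ext v; simp [Arc.mem_on]
  have hcl : ∀ {D : Fin T × Λ → Bool}, (∀ v, D (Sg ex ey ξ v) = D v) → ∀ {u v},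
      u ∈ (lp ex ey ξ v).2 → D u = D v := fun {D} h {u v} huv => by
    rw [lp_snd, obv, ob_eq] at huv
    obtain ⟨i, -, rfl⟩ := mem_image.1 huv
    exact Arc.inv_it h i v
  refine sum_nbij' (fun C v => decide (v ∈ pts C)) (fun D => (Arc.on D).image (lp ex ey ξ))
    ?_ ?_ ?_ ?_ ?_
  · intro C hC
    refine mem_filter.2 ⟨mem_univ _, fun v => decide_eq_decide.2 ?_⟩
    simp only [mem_pts]
    refine exists_congr fun g => and_congr_right fun hg => ?_
    obtain ⟨u, rfl⟩ := mem_L.1 (mem_powerset.1 hC hg)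
    simp only [lp_snd, mem_obv, o_apply]
  · intro D _
    exact mem_powerset.2 (image_subset_iff.2 fun v _ => lp_mem_L ξ v)
  · intro C hC
    rw [hon]; ext g
    simp only [mem_image, mem_pts]
    refine ⟨?_, fun hg => ?_⟩
    · rintro ⟨v, ⟨g', h1, h2⟩, rfl⟩
      exact eq_lp (mem_powerset.1 hC h1) h2 ▸ h1
    · obtain ⟨v, hv⟩ := L_nonempty (mem_powerset.1 hC hg)
      exact ⟨v, ⟨g, hg, hv⟩, (eq_lp (mem_powerset.1 hC hg) hv).symm⟩
  · intro D hD
    funext v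
    rw [Bool.eq_iff_iff, decide_eq_true_iff, mem_pts]
    refine ⟨?_, fun h => ⟨_, mem_image_of_mem _ (Arc.mem_on.2 h), self_mem_obv ξ v⟩⟩
    rintro ⟨g, h1, h2⟩
    obtain ⟨u, hu, rfl⟩ := mem_image.1 h1
    rw [hcl (mem_filter.1 hD).2 h2]; exact Arc.mem_on.1 hu
  · intro C hC
    have hC' := mem_powerset.1 hC
    rw [hon, Arc.aliv, if_pos, hon, bw, prod_kill hC' subset_rfl, prod_L]
    · simp only [ub_lp]
      congr 2
      rw [zd, ← prod_filter, show (univ.filter fun v => decide (v ∈ pts C) = true) = pts C by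
        ext v; simp, pts, prod_biUnion fun g hg g' hg' hne => disjoint_left.2 fun v h h' =>
          hne (L_eq (hC' hg) (hC' hg') h h')]
      rfl
    · intro v
      refine decide_eq_decide.2 ?_
      simp only [mem_pts]
      refine exists_congr fun g => and_congr_right fun hg => ?_
      obtain ⟨u, rfl⟩ := mem_L.1 (hC' hg)
      simp only [lp_snd, mem_obv, o_apply]

end Crest.Agent.N337.Bi
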