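import Crest.Agent.N337.E.MDefs
import Crest.Agent.N337.E.Shape
import Crest.Agent.N337.Rg.Ult
import Crest.Agent.N337.E.Birth

-- ▼ part N337/E/Sum
section

/-!
# Row 337, ENG (helper14): the total weight of the skeletons
-/

set_option autoImplicit false
set_option linter.unusedSectionVars false

namespace Crest.Agent.N337.En

open Finset Crest.MathPhysics.SpinModel Sd Rg Tr

section gen
variable {ι ι' β : Type} [DecidableEq β] {F : β → ℝ}

lemma sum_un (h : ∀ y, 0 ≤ F y) (s t : Finset β) :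
    ∑ y ∈ s ∪ t, F y ≤ ∑ y ∈ s, F y + ∑ y ∈ t, F y :=
  (le_add_of_nonneg_right (sum_nonneg fun y _ => h y)).trans sum_union_inter.le

lemma sum_ins (h : ∀ y, 0 ≤ F y) (a : β) (s : Finset β) :
    ∑ y ∈ insert a s, F y ≤ F a + ∑ y ∈ s, F y := by
  simpa only [sum_singleton, ← insert_eq] using sum_un h {a} s

lemma sum_bU (h : ∀ y, 0 ≤ F y) (s : Finset ι) (t : ι → Finset β) :
    ∑ y ∈ s.biUnion t, F y ≤ ∑ x ∈ s, ∑ y ∈ t x, F y := by
  classical
  induction s using Finset.induction_on with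
  | empty => simp
  | insert a s ha ih =>
    rw [biUnion_insert, sum_insert ha]; exact (sum_un h _ _).trans (add_le_add le_rfl ih)

lemma sum_img (h : ∀ y, 0 ≤ F y) (s : Finset ι) (f : ι → β) :
    ∑ y ∈ s.image f, F y ≤ ∑ x ∈ s, F (f x) := by
  simpa only [sum_singleton, biUnion_singleton] using sum_bU h s fun x => {f x}

lemma sum_img2 {γ : Type} [DecidableEq γ] {F : γ → ℝ} (h : ∀ y, 0 ≤ F y) (s : Finset ι)
    (t : Finset ι') (f : ι → ι' → γ) : ∑ y ∈ image₂ f s t, F y ≤ ∑ a ∈ s, ∑ b ∈ t, F (f a b) := by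
  rw [← sum_product']
  exact sum_img h _ _

lemma sum_le_card {s : Finset ι} {f : ι → ℝ} {c N : ℝ} (hc : 0 ≤ c) (h : ∀ x ∈ s, f x ≤ c)
    (hN : (s.card : ℝ) ≤ N) : ∑ x ∈ s, f x ≤ N * c :=
  (sum_le_card_nsmul s f c h).trans (by rw [nsmul_eq_mul]; exact mul_le_mul_of_nonneg_right hN hc)

lemma sum_pi_cons {N : ℕ} (s : Finset β) {F : (Fin (N + 1) → β) → ℝ} (h : ∀ f, 0 ≤ F f) :
    ∑ f ∈ Fintype.piFinset (fun _ => s), F f ≤
      ∑ y ∈ s, ∑ f ∈ Fintype.piFinset (fun _ : Fin N => s), F (Fin.cons y f) := by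
  refine le_trans (sum_le_sum_of_subset_of_nonneg (fun f hf => ?_) fun f _ _ => h f)
    (sum_img2 h _ _ fun y f => Fin.cons y f)
  rw [Fintype.mem_piFinset] at hf
  exact mem_image₂.2 ⟨f 0, hf 0, Fin.tail f, Fintype.mem_piFinset.2 fun i => hf i.succ,
    Fin.cons_self_tail f⟩

/-- total length of a chain. -/
noncomputable def tot (d : β → β → ℝ) {N : ℕ} (f : Fin N → β) : ℝ :=
  ∑ i : Fin N, ∑ j : Fin N, if j.val = i.val + 1 then d (f i) (f j) else 0

lemma tot_cons (d : β → β → ℝ) {N : ℕ} (x : β) (g : Fin (N + 1) → β) :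
    tot d (Fin.cons x g : Fin (N + 2) → β) = d x (g 0) + tot d g := by
  rw [tot, Fin.sum_univ_succ, tot]
  congr 1
  · rw [Fin.sum_univ_succ, Fin.sum_univ_succ]; simp
  · refine sum_congr rfl fun i _ => ?_
    rw [Fin.sum_univ_succ]; simp

lemma chain_sum (s : Finset β) (d : β → β → ℝ) {c : ℝ} (h0 : 0 ≤ c)
    (hc : ∀ x, ∑ y ∈ s, Real.exp (-d x y) ≤ c) (N : ℕ) (x : β) :
    ∑ f ∈ Fintype.piFinset (fun _ : Fin N => s),
      Real.exp (-tot d (Fin.cons x f : Fin (N + 1) → β)) ≤ c ^ N := by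
  induction N generalizing x with
  | zero => simp [tot]
  | succ N ih =>
    refine (sum_pi_cons s fun _ => (Real.exp_pos _).le).trans ?_
    simp only [tot_cons, Fin.cons_zero, neg_add, Real.exp_add, ← mul_sum]
    refine (sum_le_sum fun y _ => mul_le_mul_of_nonneg_left (ih y) (Real.exp_pos _).le).trans ?_
    rw [← sum_mul, pow_succ']
    exact mul_le_mul_of_nonneg_right (hc x) (pow_nonneg h0 _)

lemma geo_int (I : Finset ℤ) (x : ℤ) {c : ℝ} (hc : 0 < c) :
    ∑ t ∈ I, Real.exp (-(dist x t / c)) ≤ 2 * (1 + c) := by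
  set M := I.sup (fun t => (x - t).natAbs) + 1
  have h0 : ∀ t : ℤ, 0 ≤ Real.exp (-(dist x t / c)) := fun _ => (Real.exp_pos _).le
  have hq : Real.exp (-(1 / c)) ≤ c / (1 + c) := by
    rw [Real.exp_neg, inv_le_comm₀ (Real.exp_pos _) (by positivity), inv_div, add_div,
      div_self hc.ne']
    exact Real.add_one_le_exp _
  have hg : ∑ k ∈ range M, Real.exp (-((k : ℝ) / c)) ≤ 1 + c := by
    have h1 : c / (1 + c) < 1 := (div_lt_one (by positivity)).2 (by linarith)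
    refine (sum_le_sum fun k _ => ?_).trans (((summable_geometric_of_lt_one (by positivity)
      h1).sum_le_tsum (range M) fun _ _ => by positivity).trans ?_)
    · rw [show -((k : ℝ) / c) = k * -(1 / c) by ring, Real.exp_nat_mul]
      exact pow_le_pow_left₀ (Real.exp_pos _).le hq k
    · rw [tsum_geometric_of_lt_one (by positivity) h1]
      exact le_of_eq (by field_simp; ring)
  refine (sum_le_sum_of_subset_of_nonneg (t := (range M).image (fun k : ℕ => x + k) ∪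
    (range M).image fun k : ℕ => x - k) (fun t ht => ?_) fun t _ _ => h0 t).trans
    ((sum_un h0 _ _).trans ((add_le_add (sum_img h0 _ _) (sum_img h0 _ _)).trans ?_))
  · have := le_sup (f := fun t => (x - t).natAbs) ht
    simp only [mem_union, mem_image, mem_range]
    rcases le_total x t with h | h
    · exact Or.inl ⟨(x - t).natAbs, by omega, by omega⟩
    · exact Or.inr ⟨(x - t).natAbs, by omega, by omega⟩
  · simp only [Int.dist_eq]
    push_cast
    simp only [sub_add_cancel_left, abs_neg, sub_sub_cancel, Nat.abs_cast]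
    linarith

end gen

lemma card_box (z : V) (r : ℕ) : (box z r).card = vol r := by
  rw [Tr.box, Fintype.card_piFinset, vol, prod_congr rfl fun a _ => show _ = 2 * r + 1 by
    rw [Int.card_Icc]; omega]
  simp

lemma row_box (z x : V) (r : ℕ) {b : ℝ} (hb : 1 ≤ b) :
    ∑ v ∈ box z r, Real.exp (-(dist x v / b)) ≤ (8 * b) ^ 3 := by
  have h1 : ∀ v : V, Real.exp (-(dist x v / b)) ≤
      ∏ a, Real.exp (-(dist (x a) (v a) / (3 * b))) := fun v => by
    rw [← Real.exp_sum, Real.exp_le_exp, sum_neg_distrib, neg_le_neg_iff, ← sum_div,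
      div_le_div_iff₀ (by positivity) (by positivity), Fin.sum_univ_three]
    nlinarith [dist_le_pi_dist x v 0, dist_le_pi_dist x v 1, dist_le_pi_dist x v 2]
  refine (sum_le_sum fun v _ => h1 v).trans ?_
  rw [Tr.box, ← prod_univ_sum (fun a => Icc (z a - r) (z a + r)) fun a t =>
    Real.exp (-(dist (x a) t / (3 * b)))]
  refine (prod_le_prod (fun a _ => sum_nonneg fun _ _ => (Real.exp_pos _).le) fun a _ =>
    (geo_int _ (x a) (by positivity)).trans (show _ ≤ 8 * b by linarith)).trans (by simp)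

variable {L n T : ℕ} [NeZero T] {α κ : Type} [SemilatticeSup α] [Preorder κ]
  {S : Sys (Tor 3 L) α κ} {G : Eg} {P : Pz}

/-- cube root of the price of a term. -/
def Pz.w (P : Pz) (t : Term T n) : ℝ :=
  match t.dt with
  | .tg _ => P.wt t.lv
  | .fr => P.wf t.lv
  | .sc _ => P.ws t.lv
  | .pr _ => P.wp t.lv

namespace Nm
variable (h : Nm S G P L n T)
include h

lemma w_nn (t : Term T n) : 0 ≤ P.w t := by
  obtain ⟨u, l, _ | _ | _ | _⟩ := t
  exacts [(h.wt l).1, (h.wf l).1, (h.ws l).1, (h.wp l).1]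

lemma Wt_nn (𝒮 : Finset (Term T n)) : 0 ≤ Tr.Wt P.w 𝒮 := prod_nonneg fun t _ => h.w_nn t

lemma one_le_B : 1 ≤ P.B := le_trans (card_pos.2 ⟨0, by simp⟩) h.hB

lemma card_gp (z : V) (r : ℕ) : ((gp T n G.D z r).card : ℝ) ≤ P.B * n * vol r := by
  rw [gp, card_product, card_product, card_box, card_univ, Fintype.card_fin, mul_comm (vol r),
    ← mul_assoc]
  exact_mod_cast Nat.mul_le_mul_right _ (Nat.mul_le_mul_right _ h.hB)

lemma card_dJ (z : V) : ((dJ G T n z).card : ℝ) ≤ P.B * (n * vol G.r0) ^ G.n1 := by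
  classical
  have : dJ G T n z ⊆ (univ.filter fun s : Fin T => G.D ∣ s.val).biUnion fun s =>
      Fintype.piFinset fun _ => {s} ×ˢ (box z G.r0 ×ˢ univ) := by
    intro f hf
    obtain ⟨h1, -, h2⟩ := mem_filter.1 hf
    simp only [Fintype.mem_piFinset, gp, mem_product] at h1
    simp only [mem_biUnion, Fintype.mem_piFinset, mem_product, mem_singleton]
    by_cases k : Nonempty (Fin G.n1)
    · obtain ⟨i⟩ := k
      exact ⟨(f i).1, (h1 i).1, fun j => ⟨h2 j i, (h1 j).2⟩⟩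
    · exact ⟨0, by simp, fun j => absurd ⟨j⟩ k⟩
  have h2 := (card_le_card this).trans card_biUnion_le
  simp only [Fintype.card_piFinset, card_product, card_singleton, card_box, card_univ,
    Fintype.card_fin, prod_const, sum_const, smul_eq_mul, one_mul, mul_comm (vol _)] at h2
  exact_mod_cast h2.trans (Nat.mul_le_mul_right _ h.hB)

lemma card_dL (m : ℕ) (z : V) :
    ((dL G T n m z).card : ℝ) ≤ (P.B * n * vol (G.σ m)) ^ G.jl m := by
  classical
  refine le_trans (Nat.cast_le.2 (card_filter_le _ _)) ?_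
  simp only [Fintype.card_piFinset, prod_const, card_univ, Fintype.card_fin, Nat.cast_pow]
  exact pow_le_pow_left₀ (Nat.cast_nonneg _) (h.card_gp z _) _

lemma card_dS (ho : Tr.Ok S G) (m : ℕ) (z : V) : ((dS G T n m z).card : ℝ) ≤
    P.B * n * vol (G.σ m) * (10 ^ 5 * P.B * n * (G.A m * G.jl m) ^ 3) ^ G.Ns m := by
  classical
  have hA : (1 : ℝ) ≤ G.A m := by exact_mod_cast (ho.A m).1
  have hj : (1 : ℝ) ≤ G.jl m := by exact_mod_cast (ho.jl m).2.1
  have hB : (1 : ℝ) ≤ P.B := by exact_mod_cast h.one_le_B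
  set b : ℝ := 4 * (G.A m * G.jl m) with hb
  have b1 : 1 ≤ b := by nlinarith
  have hg := h.card_gp z (G.σ m)
  have hσ : (G.σ m : ℝ) = b * G.Ns m := by rw [Eg.σ, hb]; push_cast; ring
  unfold dS
  generalize G.σ m = σ at *
  obtain ⟨N, hN⟩ := Nat.exists_eq_add_of_le' (ho.jl m).1
  generalize G.Ns m = N' at *
  subst hN
  set d : Pv T n → Pv T n → ℝ := fun x y => dist x.2.1 y.2.1 / b with hd
  have hc : ∀ x, ∑ y ∈ gp T n G.D z σ, Real.exp (-d x y) ≤ P.B * (n * (8 * b) ^ 3) := fun x => by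
    simp only [gp, hd, sum_product, sum_const, card_univ, Fintype.card_fin, nsmul_eq_mul, ← mul_sum]
    exact mul_le_mul (by exact_mod_cast h.hB) (mul_le_mul_of_nonneg_left (row_box z _ σ b1)
      (Nat.cast_nonneg _)) (by positivity) (by positivity)
  rw [card_eq_sum_ones, Nat.cast_sum, sum_filter]
  refine (sum_le_sum (g := fun f => Real.exp (N + 1) * Real.exp (-tot d f)) fun f _ => ?_).trans ?_
  · split_ifs with k
    · rw [← Real.exp_add, Nat.cast_one, Real.one_le_exp_iff, ← sub_eq_add_neg, sub_nonneg]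
      rw [hσ, ← div_le_iff₀' (by positivity), sum_div] at k
      refine le_trans (le_of_eq (sum_congr rfl fun i _ => ?_)) (k.trans (by push_cast; rfl))
      rw [sum_div]
      exact sum_congr rfl fun j _ => by split_ifs <;> simp [hd]
    · positivity
  rw [← mul_sum]
  refine (mul_le_mul_of_nonneg_left ((sum_pi_cons _ fun _ => (Real.exp_pos _).le).trans
    (sum_le_card (by positivity) (fun y _ => chain_sum _ d (by positivity) hc N y) hg))
    (Real.exp_pos _).le).trans ?_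
  rcases Nat.eq_zero_or_pos n with rfl | hn
  · simp
  have hn' : (1 : ℝ) ≤ n := by exact_mod_cast hn
  rw [mul_left_comm]
  refine mul_le_mul_of_nonneg_left ?_ (by positivity)
  have c1 : 1 ≤ P.B * (n * (8 * b) ^ 3) := one_le_mul_of_one_le_of_one_le hB
    (one_le_mul_of_one_le_of_one_le hn' (one_le_pow₀ (by linarith)))
  calc _ ≤ 3 ^ (N + 1) * (P.B * (n * (8 * b) ^ 3)) ^ (N + 1) := by
        refine mul_le_mul ?_ (pow_le_pow_right₀ c1 (Nat.le_succ N)) (by positivity) (by positivity)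
        rw [← Nat.cast_succ, ← Real.exp_one_pow]
        exact pow_le_pow_left₀ (Real.exp_pos _).le (by linarith [Real.exp_one_lt_d9]) _
    _ ≤ _ := by
        rw [← mul_pow]
        refine pow_le_pow_left₀ (by positivity) ?_ _
        have : 0 ≤ (P.B : ℝ) * n * (G.A m * G.jl m) ^ 3 := by positivity
        rw [hb]; nlinarith

omit h in
lemma Wt_tgs (u lv : ℕ) {N : ℕ} (f : Fin N → Pv T n) :
    Tr.Wt P.w (tgs T n u lv f) = P.wt lv ^ N := by
  rw [Tr.Wt, tgs, prod_image fun i _ j _ e => Fin.ext (by simpa using congrArg Term.cd e)]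
  simp [Pz.w]

lemma sum_Tg (m k : ℕ) : ∑ 𝒮 ∈ Tg G T n m k, Tr.Wt P.w 𝒮 ≤ 1 + G.Q ^ (m + 1) * P.wf m := by
  refine (sum_ins h.Wt_nn _ _).trans (add_le_add (by simp [Tr.Wt]) ((sum_img h.Wt_nn _ _).trans ?_))
  simp [Tr.Wt, Pz.w]

lemma sum_Tm0 (k : ℕ) (z : V) : ∑ 𝒮 ∈ Tm S G T n 0 k z, Tr.Wt P.w 𝒮 ≤
    P.wp 0 + P.B * (n * vol G.r0 * P.wt 0) ^ G.n1 := by
  refine (sum_ins h.Wt_nn _ _).trans (add_le_add (by simp [Tr.Wt, Pz.w])
    ((sum_img h.Wt_nn _ _).trans ?_))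
  rw [mul_pow, ← mul_assoc]
  exact sum_le_card (pow_nonneg (h.wt 0).1 _) (fun f _ => (Wt_tgs _ _ f).le) (h.card_dJ z)


lemma sum_Tm (ho : Tr.Ok S G) (m k : ℕ) (z : V) :
    ∑ 𝒮 ∈ Tm S G T n (m + 1) k z, Tr.Wt P.w 𝒮 ≤ tm S G P n m := by
  have := (h.wt (m + 1)).1
  have := (h.ws (m + 1)).1
  have := (h.wp (m + 1)).1
  refine (sum_bU h.Wt_nn _ _).trans (sum_le_card (by positivity) (fun z' _ => ?_)
    (by rw [card_box]))
  rw [add_assoc]
  refine (sum_ins h.Wt_nn _ _).trans (add_le_add (by simp [Tr.Wt, Pz.w])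
    ((sum_un h.Wt_nn _ _).trans (add_le_add ((sum_img h.Wt_nn _ _).trans ?_)
      ((sum_img h.Wt_nn _ _).trans ?_))))
  · exact sum_le_card (h.ws _).1 (fun f _ => by simp [Tr.Wt, Pz.w]) (h.card_dS ho m z')
  · rw [mul_pow]
    exact sum_le_card (by positivity) (fun f _ => (Wt_tgs _ _ f).le) (h.card_dL m z')

/-- a tag and the rest of the skeleton. -/
lemma sum_tag (m k : ℕ) (𝒯 : Finset (Finset (Term T n))) {c : ℝ}
    (h1 : ∀ 𝒮 ∈ 𝒯, ∀ t ∈ 𝒮, t.dt = .fr → t.lv ≠ m) (h2 : ∑ 𝒮 ∈ 𝒯, Tr.Wt P.w 𝒮 ≤ c) :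
    ∑ 𝒮 ∈ image₂ (· ∪ ·) (Tg G T n m k) 𝒯, Tr.Wt P.w 𝒮 ≤ (1 + G.Q ^ (m + 1) * P.wf m) * c := by
  refine (sum_img2 h.Wt_nn _ _ _).trans (le_trans (le_of_eq ?_) (mul_le_mul (h.sum_Tg m k) h2
    (sum_nonneg fun _ _ => h.Wt_nn _) ((sum_nonneg fun _ _ => h.Wt_nn _).trans (h.sum_Tg m k))))
  rw [sum_mul_sum]
  refine sum_congr rfl fun A hA => sum_congr rfl fun B hB => prod_union ?_
  rcases mem_insert.1 hA with rfl | hA
  · simp
  · obtain ⟨j, -, rfl⟩ := mem_image.1 hA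
    exact disjoint_singleton_left.2 fun k => h1 B hB _ k rfl rfl

omit h in
lemma Tm_ne (m k : ℕ) (z : V) : ∀ 𝒮 ∈ Tm S G T n m k z, ∀ t ∈ 𝒮, t.dt ≠ .fr := by
  have key : ∀ u lv N (f : Fin N → Pv T n), ∀ t ∈ tgs T n u lv f, t.dt ≠ .fr := fun u lv N f t ht => by
    obtain ⟨j, -, rfl⟩ := mem_image.1 ht; simp
  intro 𝒮 h𝒮 t ht
  rcases m with _ | m
  · rcases mem_insert.1 h𝒮 with rfl | k
    · rw [mem_singleton.1 ht]; simp
    · obtain ⟨f, -, rfl⟩ := mem_image.1 k; exact key _ _ _ f t ht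
  · obtain ⟨z', -, k⟩ := mem_biUnion.1 h𝒮
    rcases mem_insert.1 k with rfl | k
    · rw [mem_singleton.1 ht]; simp
    rcases mem_union.1 k with k | k <;> obtain ⟨f, -, rfl⟩ := mem_image.1 k
    · rw [mem_singleton.1 ht]; simp
    · exact key _ _ _ f t ht

/-- **SUM** for a node. -/
theorem sum_Fam (ho : Tr.Ok S G) (hS : ∀ m k z, ∀ 𝒮 ∈ Fam S G T n m k z, ∀ t ∈ 𝒮,
    t.cd / G.Q ^ (m + 1) = k ∧ t.lv ≤ m) (m : ℕ) (hm : m < G.mt) (k : ℕ) (z : V) :
    ∑ 𝒮 ∈ Fam S G T n m k z, Tr.Wt P.w 𝒮 ≤ P.φ m := by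
  classical
  induction m generalizing k z with
  | zero => exact (h.sum_tag 0 k _ (fun 𝒮 h1 t h2 h3 => absurd h3 (Tm_ne 0 k z 𝒮 h1 t h2))
      (h.sum_Tm0 k z)).trans (by simpa using h.φ0)
  | succ m ih =>
    have φ0 : 0 ≤ P.φ m := (sum_nonneg fun _ _ => h.Wt_nn _).trans (ih (by omega) 0 z)
    refine (h.sum_tag (m + 1) k _ (fun 𝒮 h1 t h2 h3 => ?_) ((sum_un h.Wt_nn _ _).trans
      (add_le_add (h.sum_Tm ho m k z) ((sum_bU h.Wt_nn _ _).trans ?_)))).trans (h.φ1 m hm)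
    · rcases mem_union.1 h1 with h1 | h1
      · exact absurd h3 (Tm_ne _ k z 𝒮 h1 t h2)
      · obtain ⟨s, -, h1⟩ := mem_biUnion.1 h1
        obtain ⟨f, hf, rfl⟩ := mem_image.1 h1
        obtain ⟨j, -, h4⟩ := mem_biUnion.1 h2
        have := (hS _ _ _ _ (Fintype.mem_piFinset.1 hf j) t h4).2
        omega
    · rw [mul_pow]
      refine sum_le_card (pow_nonneg φ0 _) (fun s _ => (sum_img h.Wt_nn _ _).trans ?_) ?_
      · have e : ∀ f ∈ Fintype.piFinset fun j : Fin (ar S) => Fam S G T n m (k * G.Q + j.val) (s j),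
            Tr.Wt P.w (univ.biUnion f) = ∏ j, Tr.Wt P.w (f j) := fun f hf =>
          prod_biUnion fun i _ j _ hij => disjoint_left.2 fun t h1 h2 => hij (Fin.ext (by
            have := (hS _ _ _ _ (Fintype.mem_piFinset.1 hf i) t h1).1
            have := (hS _ _ _ _ (Fintype.mem_piFinset.1 hf j) t h2).1
            omega))
        rw [sum_congr rfl e, ← prod_univ_sum (fun j : Fin (ar S) => Fam S G T n m (k * G.Q + j.val) (s j))
          fun _ 𝒮 => Tr.Wt P.w 𝒮]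
        exact (prod_le_prod (fun j _ => sum_nonneg fun _ _ => h.Wt_nn _) fun j _ =>
          ih (by omega) _ _).trans (by simp)
      · refine le_trans (Nat.cast_le.2 (card_filter_le _ _)) ?_
        simp [card_box]

/-- **SUM** for an item. -/
theorem sum_Top (ho : Tr.Ok S G) (hS : ∀ m k z, ∀ 𝒮 ∈ Fam S G T n m k z, ∀ t ∈ 𝒮,
    t.cd / G.Q ^ (m + 1) = k ∧ t.lv ≤ m) (m : ℕ) (hm : m < G.mt) (y : V) :
    ∑ 𝒮 ∈ Top S G T n m y, Tr.Wt P.w 𝒮 ≤ tm S G P n m + vol (2 * S.ρ (m + 1)) * P.φ m :=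
  (sum_un h.Wt_nn _ _).trans (add_le_add (h.sum_Tm ho m 0 y) ((sum_bU h.Wt_nn _ _).trans
    (sum_le_card ((sum_nonneg fun _ _ => h.Wt_nn _).trans (h.sum_Fam ho hS m hm 0 y))
      (fun s _ => h.sum_Fam ho hS m hm 0 s) (by rw [card_box]))))

end Nm

end Crest.Agent.N337.En
end

-- ▼ part N337/E/TPc
section

/-!
# Row 337, ENG (helper14): (TP) for the targets of a skeleton
-/

set_option autoImplicit false
set_option linter.unusedSectionVars false

namespace Crest.Agent.N337.En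

open Finset Crest.MathPhysics.SpinModel Crest.Agent.N337.Rep Sd Rg Tr Free
open Crest.Agent.N337.Gas (Lp pts wd ub lp obv)
open Crest.Agent.N337.WN (Cls Fst One Gc covL exA Exit)

lemma St_succ {Γ : Type} [DecidableEq Γ] (g : ℕ → Γ) (i : ℕ) :
    St g (i + 1) = insert (g i) (St g i) := by rw [St, range_add_one, image_insert]; rfl

lemma sq_eq {Γ : Type} [Inhabited Γ] {l : List Γ} {i : ℕ} (h : i < l.length) : sq l i = l[i] :=
  List.getD_eq_getElem _ _ h

lemma St_sq {Γ : Type} [DecidableEq Γ] [Inhabited Γ] (l : List Γ) {i : ℕ} (h : i ≤ l.length) :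
    St (sq l) i = (l.take i).toFinset := by
  induction i with
  | zero => simp [St]
  | succ i ih =>
    rw [St_succ, ih (by omega), sq_eq h, List.take_succ_eq_append_getElem h, List.toFinset_append]
    ext; simp only [mem_insert, mem_union, List.mem_toFinset, List.mem_singleton, or_comm]

variable {L n T : ℕ} [NeZero L] [NeZero T]

lemma dist_le_tdist {v v' : V} (h : 2 * dist v v' < L) :
    dist v v' ≤ tdist (tcast L v) (tcast L v') := by
  refine (dist_pi_le_iff (Nat.cast_nonneg _)).2 fun a => ?_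
  have h1 := (mul_le_mul_of_nonneg_left (dist_le_pi_dist v v' a) zero_le_two).trans_lt h
  have h2 := tdist_le_iff.1 (le_refl (tdist (tcast L v) (tcast L v'))) a
  rw [Int.dist_eq, ← Int.cast_sub, ← Int.cast_abs] at h1 ⊢
  have h3 : 2 * |v a - v' a| < L := by exact_mod_cast h1
  rw [(ZMod.valMinAbs_spec _ (v' a - v a)).2 ⟨by simp [tcast], by
    constructor <;> cases abs_cases (v a - v' a) <;> omega⟩] at h2
  have h4 : |v a - v' a| ≤ (tdist (tcast L v) (tcast L v') : ℤ) := by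
    cases abs_cases (v a - v' a) <;> omega
  exact_mod_cast h4

lemma card_near (x : Tor 3 L) (r : ℕ) :
    (univ.filter fun y : Tor 3 L × Fin n => tdist x y.1 ≤ r).card ≤ n * vol r := by
  rw [show (univ.filter fun y : Tor 3 L × Fin n => tdist x y.1 ≤ r) =
    (univ.filter fun y => tdist x y ≤ r) ×ˢ univ by ext; simp, card_product, card_univ,
    Fintype.card_fin, mul_comm]
  exact Nat.mul_le_mul_left _ (card_ball_le x r)

variable {ex ey : Fin T → Tor 3 L × Fin n} {ξ : Fin T → Bool}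

lemma ends_pts {C : Finset (Lp T (Tor 3 L × Fin n))} (h : C ⊆ Gas.L ex ey ξ) :
    Arc.ends ex ey ξ (pts C) = 0 := by
  refine card_eq_zero.2 (filter_eq_empty_iff.2 fun v hv => not_not.2 ?_)
  obtain ⟨g, h1, h2⟩ := Gas.mem_pts.1 hv
  refine Gas.mem_pts.2 ⟨g, h1, ?_⟩
  rw [Gas.eq_lp (h h1) h2]
  exact Gas.mem_obv.2 (o_apply _ _)

lemma bs_ne {b : Fin T × (Tor 3 L × Fin n) → ℝ} {Y : ℝ} (hY : 0 < Y)
    {g : Lp T (Tor 3 L × Fin n)} (h : ub b g ≠ 0) {v : Fin T × (Tor 3 L × Fin n)} (hv : v ∈ g.2) :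
    Bi.bs b Y v ≠ 0 := by
  have := prod_ne_zero_iff.1 h v hv
  unfold Bi.bs; split_ifs; exacts [mul_ne_zero hY.ne' this, this]

variable {α κ : Type} [SemilatticeSup α] [Preorder κ] {S : Sys (Tor 3 L) α κ} {G : Eg} {P : Pz}
  {p : Fin T → ℝ} {b : Fin T × (Tor 3 L × Fin n) → ℝ} {Y : ℝ} {U : ℕ → Tor 3 L → Prop}
  {Lf : Finset (Lp T (Tor 3 L × Fin n)) → Tor 3 L → Prop} {Ev : (Fin T → Bool) → ℕ → V → Prop}
  {m : ℕ} {z : V} {𝒮 : Finset (Term T n)}

lemma TB.up {l l' : ℕ} {J : ℕ → Tor 3 L → Prop} {x : V} (h : TB S G l J x) (hl : l ≤ l') :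
    TB S G l' J x := fun k h1 h2 => h k (hl.trans h1) h2

/-- positions of a skeleton keep their distance on the torus. -/
lemma shp_dist (H : Shp G m 0 z 𝒮) (hL : 4 * G.rr m < L) {t t' : Term T n} (ht : t ∈ 𝒮)
    (ht' : t' ∈ 𝒮) {v v' : V} (h : t.At v) (h' : t'.At v') :
    dist v v' ≤ tdist (tcast L v) (tcast L v') := by
  refine dist_le_tdist ?_
  have h1 := H.loc t ht v h
  have h2 := H.loc t' ht' v' h'
  have h3 : (4 * G.rr m : ℝ) < L := by exact_mod_cast hL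
  linarith [dist_triangle_right v v' z]

lemma shp_far (H : Shp G m 0 z 𝒮) (hL : 4 * G.rr m < L) {t t' : Term T n} (ht : t ∈ 𝒮)
    (ht' : t' ∈ 𝒮) {v v' : V} (h : t.At v) (h' : t'.At v') {l : ℕ} (hl : t.lv ≤ l)
    (hc : t.cd / G.Q ^ (l + 1) ≠ t'.cd / G.Q ^ (l + 1)) :
    G.σ l < 4 * tdist (tcast L v) (tcast L v') := by
  have h1 := (H.sep t ht t' ht' v v' h h' l hl hc).trans_le (shp_dist H hL ht ht' h h')
  have h2 : (G.σ l : ℝ) < 4 * tdist (tcast L v) (tcast L v') := by linarith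
  exact_mod_cast h2

/-- price of targets and tags. -/
noncomputable def Pz.p1 (P : Pz) (t : Term T n) : ℝ :=
  match t.dt with
  | .tg _ => P.wt t.lv ^ 3
  | .fr => P.wf t.lv ^ 3
  | _ => 1

/-- the code `u` carries a tag of level `≥ k`. -/
def Fr (𝒮 : Finset (Term T n)) (u k : ℕ) : Prop := ∃ l', (⟨u, l', .fr⟩ : Term T n) ∈ 𝒮 ∧ k ≤ l'

/-- an enumeration of the targets by their codes. -/
structure Enu (𝒮 : Finset (Term T n)) (X : Finset ℕ) (lv : ℕ → ℕ) (x : ℕ → Pv T n) : Prop where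
  mem : ∀ u ∈ X, (⟨u, lv u, .tg (x u)⟩ : Term T n) ∈ 𝒮
  all : ∀ u l y, (⟨u, l, .tg y⟩ : Term T n) ∈ 𝒮 → u ∈ X

lemma exists_Enu (hn : 0 < n) (𝒮 : Finset (Term T n)) : ∃ X lv x, Enu 𝒮 X lv x := by
  classical
  have : Nonempty (Pv T n) := ⟨(0, 0, ⟨0, hn⟩)⟩
  have h : ∀ u ∈ (𝒮.filter fun t => ∃ y, t.dt = .tg y).image Term.cd, ∃ l y,
      (⟨u, l, .tg y⟩ : Term T n) ∈ 𝒮 := fun u hu => by
    obtain ⟨⟨u, l, d⟩, h1, rfl⟩ := mem_image.1 hu
    obtain ⟨h1, y, rfl⟩ := mem_filter.1 h1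
    exact ⟨l, y, h1⟩
  choose! lv x h using h
  exact ⟨_, lv, x, h, fun u l y k => mem_image.2 ⟨_, mem_filter.2 ⟨k, y, rfl⟩, rfl⟩⟩

variable {X : Finset ℕ} {lv : ℕ → ℕ} {x : ℕ → Pv T n}

open Classical in
/-- multipliers. -/
noncomputable def θ (P : Pz) (𝒮 : Finset (Term T n)) (lv : ℕ → ℕ) (u : ℕ) : ℝ :=
  if Fr 𝒮 u 0 then 1 else P.th (lv u)

open Classical in
/-- one-point rates. -/
noncomputable def γ1 (P : Pz) (𝒮 : Finset (Term T n)) (lv : ℕ → ℕ) (j u : ℕ) : ℝ :=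
  if Fr 𝒮 u (P.lev j) then 1 else P.g1 (max (lv u) (P.lev j))

/-- Green majorant. -/
noncomputable def gg (G : Eg) (P : Pz) (lv : ℕ → ℕ) (v u : ℕ) : ℝ :=
  if v / G.Q ^ (lv v + 1) = u / G.Q ^ (lv v + 1) then (if lv v = 0 then P.γ0 else 0)
  else P.γ (ell G.Q v u - 2)

namespace Nm
variable (h : Nm S G P L n T)
include h

lemma th1 (l : ℕ) : 1 ≤ P.th l := h.th.1.trans (h.th.2.1 (Nat.zero_le l))

lemma aa6 (l : ℕ) : 6 ≤ P.aa l := h.aa.1.trans (h.aa.2 (Nat.zero_le l))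

lemma g1_mem (l : ℕ) : 0 ≤ P.g1 l ∧ P.g1 l ≤ 1 := by
  unfold Pz.g1; split_ifs; exacts [h.γ0, ⟨by linarith [h.γ l], by linarith [h.γ l]⟩]

lemma θ_mem (u : ℕ) : 1 ≤ θ P 𝒮 lv u ∧ θ P 𝒮 lv u ≤ P.th (lv u) := by
  unfold θ; split_ifs; exacts [⟨le_rfl, h.th1 _⟩, ⟨h.th1 _, le_rfl⟩]

lemma wf1 (l : ℕ) : 1 ≤ P.wf l ^ 3 := le_trans (one_le_mul_of_one_le_of_one_le (h.th1 l)
  (Real.one_le_exp (by positivity))) (h.wf l).2

/-- levels of two targets in different terminals. -/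
lemma lev_of (ho : Tr.Ok S G) (H : Shp G m 0 z 𝒮) (E : Enu 𝒮 X lv x) {v u : ℕ} (hv : v ∈ X)
    (hu : u ∈ X) (hc : v / G.Q ^ (lv v + 1) ≠ u / G.Q ^ (lv v + 1)) :
    ∃ l, ell G.Q v u = l + 2 ∧ lv v ≤ l ∧ lv u ≤ l ∧ l < m ∧ v / G.Q ^ (l + 1) ≠ u / G.Q ^ (l + 1) := by
  have hQ := ho.Q1.2.2
  have h1 := (ell_le_iff hQ).not.2 hc
  have h2 := (ell_le_iff hQ).2 ((H.cd _ (E.mem v hv)).1.trans (H.cd _ (E.mem u hu)).1.symm)
  have h3 : ¬ ell G.Q u v ≤ lv u + 1 := fun k => by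
    have k1 := (ell_le_iff hQ).1 k
    have := (H.own _ (E.mem u hu) _ (E.mem v hv) (by simp) (by simp)
      (fun e => hc (by rw [show u = v from congrArg Term.cd e])) k1).1
    exact hc (by rw [show lv v = lv u from this]; exact k1.symm)
  rw [ell_comm] at h3
  obtain ⟨l, hl⟩ : ∃ l, ell G.Q v u = l + 2 := ⟨ell G.Q v u - 2, by omega⟩
  exact ⟨l, hl, by omega, by omega, by simp only at h2; omega, (ell_spec hQ hl).2⟩

lemma tgt' (ho : Tr.Ok S G) (H : Shp G m 0 z 𝒮) (hm : m ≤ G.mt) (E : Enu 𝒮 X lv x) :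
    WN.Tgt X (gg G P lv) (ell G.Q) (m + 1) (rr G.Q) ww (fun u => P.aa (lv u)) (1 / 4) (1 / 4) (1 / 2)
      (θ P 𝒮 lv) fun _ _ => True := by
  have hQ := ho.Q1.2.2
  refine tgt hQ (fun u hu => (H.cd _ (E.mem u hu)).1) (fun v u => ?_) (fun v => h.aa6 _)
    (fun u hu v hv huv => ?_) (fun v => zero_lt_one.trans_le (h.θ_mem v).1) (by norm_num)
    (by norm_num) fun v _ => le_trans (mul_le_mul_of_nonneg_right (h.θ_mem v).2
      (Real.rpow_nonneg (div_nonneg (by norm_num) (by linarith [h.aa6 (lv v)])) _)) (h.th.2.2 _)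
  · unfold gg; split_ifs; exacts [h.γ0.1, le_rfl, (h.γ _).1]
  rw [ell_comm]
  unfold gg
  split_ifs with k k'
  · have := (H.own _ (E.mem v hv) _ (E.mem u hu) (by simp) (by simp)
      (fun e => huv (congrArg Term.cd e).symm) k).1
    have h1 := (ell_le_iff hQ).2 k
    have h2 := ell_pos hQ huv.symm
    rw [show lv u = lv v from this, k', ← pow_two, show ell G.Q v u = 1 by omega]
    exact h.pair0
  · rw [mul_zero, dl]; positivity
  · obtain ⟨l, h1, h2, h3, h4, -⟩ := h.lev_of ho H E hv hu k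
    rw [h1, Nat.add_sub_cancel]
    refine le_trans (mul_le_mul_of_nonneg_right ?_ (h.γ l).1) (h.pair l (by omega))
    rw [pow_two]
    exact mul_le_mul (h.aa.2 h2) (h.aa.2 h3) (by linarith [h.aa6 (lv u)]) (by linarith [h.aa6 l])

/-- the price of one target. -/
lemma price (H : Shp G m 0 z 𝒮) (hm : m ≤ G.mt) (E : Enu 𝒮 X lv x) {u : ℕ} (hu : u ∈ X) :
    Real.exp (32 * ∑ j ∈ range P.J, θ P 𝒮 lv u * (2 * γ1 P 𝒮 lv j u) ^ (1 / 8 : ℝ)) / θ P 𝒮 lv u ≤
      ∏ t ∈ 𝒮 with t.cd = u, P.p1 t := by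
  classical
  have h1 := h.one (lv u) ((H.cd _ (E.mem u hu)).2.trans hm)
  have hm' : (⟨u, lv u, .tg (x u)⟩ : Term T n) ∈ 𝒮.filter fun t => t.cd = u :=
    mem_filter.2 ⟨E.mem u hu, rfl⟩
  have hr : ∀ t ∈ (𝒮.filter fun t => t.cd = u).erase ⟨u, lv u, .tg (x u)⟩, 1 ≤ P.p1 t := by
    rintro ⟨u', l, y | _ | _ | _⟩ ht
    · obtain ⟨k1, k2⟩ := mem_erase.1 ht
      obtain ⟨k3, k4⟩ := mem_filter.1 k2
      have k5 : u' = u := k4
      subst u'
      obtain ⟨rfl, rfl⟩ := H.tg_eq k3 (E.mem _ hu)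
      exact absurd rfl k1
    exacts [h.wf1 l, le_rfl, le_rfl]
  have w0 : 0 ≤ P.wt (lv u) ^ 3 := pow_nonneg (h.wt _).1 _
  have t1 := h.th1 (lv u)
  have g0 : ∀ j, 0 ≤ (2 * P.g1 (max (lv u) (P.lev j))) ^ (1 / 8 : ℝ) := fun j =>
    Real.rpow_nonneg (by linarith [h.g1_mem (max (lv u) (P.lev j))]) _
  rw [← mul_prod_erase _ _ hm', ← mul_sum]
  change _ ≤ P.wt (lv u) ^ 3 * _
  by_cases k : Fr 𝒮 u 0
  · obtain ⟨l0, k0, -⟩ := id k
    obtain ⟨⟨u', l, d⟩, k1', k2⟩ := exists_max_image (𝒮.filter fun t => t.cd = u ∧ t.dt = .fr)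
      Term.lv ⟨_, mem_filter.2 ⟨k0, rfl, rfl⟩⟩
    obtain ⟨k1, k3, k4⟩ := mem_filter.1 k1'
    have k5 : u' = u := k3
    subst u'
    obtain rfl : d = .fr := k4
    have s1 : ∑ j ∈ range P.J, (2 * γ1 P 𝒮 lv j u) ^ (1 / 8 : ℝ) ≤ 2 * P.nc l + 1 := by
      refine (sum_le_sum (g := fun j => (if P.lev j ≤ l then 2 else 0) +
        (2 * P.g1 (max (lv u) (P.lev j))) ^ (1 / 8 : ℝ)) fun j _ => ?_).trans ?_
      · unfold γ1
        split_ifs with a1 a2
        · refine le_add_of_le_of_nonneg ?_ (g0 j)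
          simpa using Real.rpow_le_rpow_of_exponent_le (x := 2) one_le_two (show 1 / 8 ≤ 1 by norm_num)
        · obtain ⟨l', a3, a4⟩ := a1
          exact absurd (a4.trans (k2 _ (mem_filter.2 ⟨a3, rfl, rfl⟩))) a2
        · linarith
        · linarith
      · rw [sum_add_distrib, ← sum_filter, sum_const, nsmul_eq_mul, mul_comm]
        exact add_le_add le_rfl ((le_mul_of_one_le_left (sum_nonneg fun j _ => g0 j) t1).trans h1)
    have s2 : P.wf l ^ 3 ≤ ∏ t ∈ (𝒮.filter fun t => t.cd = u).erase ⟨u, lv u, .tg (x u)⟩, P.p1 t :=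
      le_trans (by simp [Pz.p1]) (prod_le_prod_of_subset_of_one_le (s := {⟨u, l, .fr⟩})
        (singleton_subset_iff.2 (mem_erase.2 ⟨by simp, mem_filter.2 ⟨k1, rfl⟩⟩))
        (by simpa [Pz.p1] using pow_nonneg (h.wf l).1 3) fun t ht _ => hr t ht)
    rw [θ, if_pos k, div_one, one_mul]
    calc _ ≤ Real.exp 32 * Real.exp (64 * P.nc l) := by
          rw [← Real.exp_add]; exact Real.exp_le_exp.2 (by linarith)
      _ ≤ P.th l * P.wt (lv u) ^ 3 * Real.exp (64 * P.nc l) :=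
          mul_le_mul_of_nonneg_right ((h.wt _).2.trans (mul_le_mul_of_nonneg_right
            (h.th.2.1 (H.tag _ _ _ _ k1 (E.mem _ hu))) w0)) (Real.exp_pos _).le
      _ ≤ _ := by
          rw [mul_comm (P.th l), mul_assoc]
          exact mul_le_mul_of_nonneg_left ((h.wf l).2.trans s2) w0
  · have e : ∀ j, γ1 P 𝒮 lv j u = P.g1 (max (lv u) (P.lev j)) := fun j =>
      if_neg fun ⟨l', a, _⟩ => k ⟨l', a, Nat.zero_le _⟩
    simp only [e, θ, if_neg k]
    rw [div_le_iff₀' (by linarith)]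
    refine (Real.exp_le_exp.2 (by linarith)).trans ((h.wt _).2.trans
      (mul_le_mul_of_nonneg_left (le_mul_of_one_le_right w0 (one_le_prod hr)) (by linarith)))

lemma prices (H : Shp G m 0 z 𝒮) (hm : m ≤ G.mt) (E : Enu 𝒮 X lv x) :
    Real.exp (4 * (∑ j ∈ range P.J, 1 * ∑ u ∈ X with True,
      θ P 𝒮 lv u * (2 * γ1 P 𝒮 lv j u) ^ ((1 / 4 : ℝ) / 2)) / ((1 - 1 / 2) * (1 / 4))) /
      ∏ u ∈ X, θ P 𝒮 lv u ≤ ∏ t ∈ 𝒮, P.p1 t := by
  classical
  have e : ∀ a : ℝ, 4 * a / ((1 - 1 / 2) * (1 / 4)) = 32 * a := fun a => by ring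
  simp only [filter_true, one_mul, e, show (1 / 4 : ℝ) / 2 = 1 / 8 by norm_num]
  rw [sum_comm, mul_sum, Real.exp_sum, ← prod_div_distrib,
    ← prod_fiberwise_of_maps_to (s := 𝒮) (t := 𝒮.image Term.cd) fun t ht => mem_image_of_mem _ ht]
  have p0 : ∀ t : Term T n, 0 ≤ P.p1 t := by
    rintro ⟨u, l, _ | _ | _ | _⟩
    exacts [pow_nonneg (h.wt l).1 3, pow_nonneg (h.wf l).1 3, zero_le_one, zero_le_one]
  refine (prod_le_prod (fun u _ => div_nonneg (Real.exp_pos _).le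
    (zero_le_one.trans (h.θ_mem u).1)) fun u hu => h.price H hm E hu).trans
    (prod_le_prod_of_subset_of_one_le (fun u hu => mem_image.2 ⟨_, E.mem u hu, rfl⟩)
      (fun u _ => prod_nonneg fun t _ => p0 t) fun u _ hu => one_le_prod ?_)
  rintro ⟨u', l, y | _ | _ | _⟩ ht
  · obtain ⟨k2, k3⟩ := mem_filter.1 ht
    have k5 : u' = u := k3
    subst u'
    exact absurd (E.all _ _ _ k2) hu
  exacts [h.wf1 l, le_rfl, le_rfl]

end Nm

variable (S G P U Lf b 𝒮 X lv x) in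
/-- allowed births. -/
def Alw (a : List (Lp T (Tor 3 L × Fin n))) (g : Lp T (Tor 3 L × Fin n)) : Prop :=
  ub b g ≠ 0 ∧ ∀ u ∈ X, pj L (x u) ∈ g.2 → TB S G (lv u) (Jc S U Lf a.toFinset) (x u).2.1 ∧
    (lv u ≠ 0 → ∃ y ∈ g.2, G.Rl (lv u - 1) < tdist (tcast L (x u).2.1) y.2.1) ∧
    (∀ u' ∈ X, lv u' = lv u → lv u ≠ 0 → u' / G.Q ^ (lv u + 1) = u / G.Q ^ (lv u + 1) →
      pj L (x u') ∈ g.2 → u' = u) ∧
    ((∀ u' ∈ X, pj L (x u') ∈ g.2 → u ≤ u') → Fr 𝒮 u (P.lev (Nat.log 2 (wd g))) ∨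
      TB S G (max (lv u) (P.lev (Nat.log 2 (wd g)))) (Jc S U Lf (insert g a.toFinset)) (x u).2.1)

variable (S G P U Lf b 𝒮 X lv x) in
open Classical in
/-- the targets covered by a birth. -/
noncomputable def cv (a : List (Lp T (Tor 3 L × Fin n))) (g : Lp T (Tor 3 L × Fin n)) : Finset ℕ :=
  if Alw S G P b U Lf 𝒮 X lv x a g then X.filter fun u => pj L (x u) ∈ g.2 else ∅

lemma mem_cv {a : List (Lp T (Tor 3 L × Fin n))} {g : Lp T (Tor 3 L × Fin n)} {u : ℕ} :
    u ∈ cv S G P b U Lf 𝒮 X lv x a g ↔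
      Alw S G P b U Lf 𝒮 X lv x a g ∧ u ∈ X ∧ pj L (x u) ∈ g.2 := by
  unfold cv; split_ifs with h <;> simp [h]

lemma real_cov (H : Shp G m 0 z 𝒮) (E : Enu 𝒮 X lv x) {l : List (Lp T (Tor 3 L × Fin n))}
    (hl : l.Nodup) (hl' : ∀ g ∈ l, g ∈ Gas.L ex ey ξ ∧ ub b g ≠ 0)
    (R : Real S G (cf P U Lf Ev ξ) (sq l) l.length G.mt 𝒮) :
    X ⊆ covL (cv S G P b U Lf 𝒮 X lv x) [] l := by
  intro u hu
  obtain ⟨i, hi, h1, -⟩ := R.tg _ _ _ (E.mem u hu)
  have hg := fun {i} (hi : i < l.length) => hl' _ (List.getElem_mem hi)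
  refine (WN.mem_covL _ _).2 ⟨l.take i, l[i], l.drop (i + 1), by simp, mem_cv.2
    ⟨⟨(hg hi).2, fun v hv h2 => ?_⟩, hu, sq_eq hi ▸ h1⟩⟩
  obtain ⟨i', hi', k1, k2, k3, k4, k5⟩ := R.tg _ _ _ (E.mem v hv)
  rw [sq_eq hi'] at k1
  obtain rfl : i' = i := (hl.getElem_inj_iff).1 (Gas.L_eq (hg hi').1 (hg hi).1 k1 h2)
  rw [St_succ] at k5
  rw [St_sq l hi.le] at k2 k5
  rw [sq_eq hi] at k3 k4 k5
  rw [List.nil_append]
  refine ⟨k2, k3, fun u' hu' e => k4 u' (x u') (e ▸ E.mem u' hu'), fun k => k5 fun u' l' y a1 a2 => ?_⟩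
  exact k u' (E.all _ _ _ a1) ((H.tg_eq a1 (E.mem u' (E.all _ _ _ a1))).2 ▸ a2)

namespace Inp
variable (I : Inp ex ey S G P p b Y U Lf Ev) (H : Shp G m 0 z 𝒮) (hm : m ≤ G.mt) (E : Enu 𝒮 X lv x)
include I H hm E

lemma inj : Set.InjOn (fun u => pj L (x u)) X := by
  intro u hu v hv e
  by_contra hne
  have e1 : tcast L (x u).2.1 = tcast L (x v).2.1 := congrArg (fun w => w.2.1) e
  by_cases k : u / G.Q ^ (lv u + 1) = v / G.Q ^ (lv u + 1)
  · obtain ⟨-, -, y, y', k1, k2, k3, -⟩ := H.own _ (E.mem u hu) _ (E.mem v hv) (by simp) (by simp)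
      (fun e => hne (congrArg Term.cd e)) k
    have := shp_dist H (I.nm.hL m hm) (E.mem u hu) (E.mem v hv) rfl rfl
    rw [e1, tdist_self, Nat.cast_zero, dist_le_zero] at this
    cases k1; cases k2
    exact k3 (Prod.ext (congrArg (fun w => w.1) e) (Prod.ext this (congrArg (fun w => w.2.2) e)))
  · have := shp_far H (I.nm.hL m hm) (E.mem u hu) (E.mem v hv) rfl rfl le_rfl k
    rw [e1, tdist_self] at this
    omega

lemma pairs (a : List (Lp T (Tor 3 L × Fin n))) (ξ : Fin T → Bool) (l : Lp T (Tor 3 L × Fin n))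
    (h0 : Pw p ξ ≠ 0) (hA : a.toFinset ⊆ Gas.L ex ey ξ) (v : ℕ)
    (hv : v ∈ cv S G P b U Lf 𝒮 X lv x a l) (u : ℕ) (hu : u ∈ cv S G P b U Lf 𝒮 X lv x a l)
    (hne : v ≠ u) : Gc ex ey p (Bi.bs b Y) (pts a.toFinset) ξ (pj L (x v)) (pj L (x u)) ≤
      gg G P lv v u := by
  obtain ⟨hw, hv, hv'⟩ := mem_cv.1 hv
  obtain ⟨-, hu, hu'⟩ := mem_cv.1 hu
  obtain ⟨k1, -, k2, -⟩ := hw.2 v hv hv'
  unfold gg
  split_ifs with k k'
  · obtain ⟨-, -, y, y', a1, a2, -, a3⟩ := H.own _ (E.mem v hv) _ (E.mem u hu) (by simp) (by simp)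
      (fun e => hne (congrArg Term.cd e)) k
    cases a1; cases a2
    have := I.ht.lag ξ _ _ (pj L (x v)) (pj L (x u)) h0 hA (k' ▸ k1) rfl (a3 k')
    rwa [if_neg fun e => hne (I.inj H hm E hv hu e), sub_zero] at this
  · exact absurd (k2 u hu (H.own _ (E.mem v hv) _ (E.mem u hu) (by simp) (by simp)
      (fun e => hne (congrArg Term.cd e)) k).1 k' k.symm hu').symm hne
  · obtain ⟨l, h1, h2, -, h4, h5⟩ := I.nm.lev_of I.ok H E hv hu k
    rw [h1, Nat.add_sub_cancel]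
    refine I.ht.far ξ _ _ l _ _ _ h0 hA subset_rfl (by rw [ends_pts hA]; omega) (by omega)
      (TB.up k1 h2) rfl (bs_ne I.hY.1 hw.1 hv') (bs_ne I.hY.1 hw.1 hu') ?_
    have := shp_far H (I.nm.hL m hm) (E.mem v hv) (E.mem u hu) rfl rfl h2 h5
    have := (I.nm.dd l).2.1
    change _ ≤ tdist (tcast L (x v).2.1) (tcast L (x u).2.1)
    omega

lemma one {j u : ℕ} (hu : u ∈ X) (hf : ¬ Fr 𝒮 u (P.lev j)) (a : List (Lp T (Tor 3 L × Fin n))) :
    One ex ey p b Y a.toFinset (fun l => Cls j l ∧ Fst u (cv S G P b U Lf 𝒮 X lv x a l))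
      (P.g1 (max (lv u) (P.lev j))) := by
  classical
  have hx : ∀ l, Cls j l ∧ Fst u (cv S G P b U Lf 𝒮 X lv x a l) → pj L (x u) ∈ l.2 :=
    fun l h => (mem_cv.1 h.2.1).2.2
  unfold Pz.g1
  split_ifs with k
  · refine One.ret I.hp I.hb I.hY.2 I.nm.γ0.1 hx fun ξ h0 hA _ h => ?_
    have := I.ht.lag ξ _ _ (pj L (x u)) (pj L (x u)) h0 hA ((show lv u = 0 by omega) ▸
      ((mem_cv.1 h.2.1).1.2 u hu (hx _ h)).1) rfl rfl
    rwa [if_pos rfl] at this
  generalize hl' : max (lv u) (P.lev j) = l' at k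
  refine One.exit I.hp I.hb I.hY.2 (I.nm.γ l').1 (I.nm.γ l').2 hx
    (fun v => P.dd l' ≤ tdist (tcast L (x u).2.1) v.2.1) fun ξ h0 hA _ h => ?_
  have hw := (mem_cv.1 h.2.1).1
  obtain ⟨-, k1, -, k2⟩ := hw.2 u hu (hx _ h)
  rw [(Nat.log_eq_of_pow_le_of_lt_pow h.1.1 h.1.2), hl'] at k2
  have k3 := (k2 fun u' h1 h2 => h.2.2 u' (mem_cv.2 ⟨hw, h1, h2⟩)).resolve_left hf
  have d1 := (I.nm.dd l').1
  have hO : ¬ P.dd l' ≤ tdist (tcast L (x u).2.1) (pj L (x u)).2.1 := by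
    change ¬ _ ≤ tdist _ (tcast L (x u).2.1); rw [tdist_self]; omega
  obtain ⟨N, hN⟩ : ∃ N, Exit ex ey (fun v => P.dd l' ≤ tdist (tcast L (x u).2.1) v.2.1)
      (pj L (x u)) N ξ := by
    rcases le_total (lv u) (P.lev j) with k4 | k4
    · rw [max_eq_right k4] at hl'
      refine WN.exit_of_wd hO (lt_of_le_of_lt ?_ (((I.nm.lev j).2 (hl' ▸ k)).trans_le h.1.1))
      refine (card_le_card fun y hy => ?_).trans ((card_near (tcast L (x u).2.1) (P.dd l' - 1)).trans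
        (Nat.mul_le_mul_left _ (Nat.pow_le_pow_left (by rw [hl']; omega) 3)))
      simp only [mem_filter, mem_univ, true_and] at hy ⊢
      omega
    · rw [max_eq_left k4] at hl'
      obtain ⟨y, h1, h2⟩ := k1 (hl' ▸ k)
      refine WN.exists_exit hO (Gas.mem_obv.1 h1) (le_trans ?_ h2.le)
      have := (I.nm.dd (l' - 1)).2.2.1
      rw [Nat.sub_add_cancel (by omega)] at this
      rwa [hl']
  refine ⟨N, hN, I.ht.far ξ (insert (lp ex ey ξ (pj L (x u))) a.toFinset) _ l' _ _ _ h0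
    (insert_subset (Gas.lp_mem_L _ _) hA) (union_subset (Gas.pts_mono (subset_insert _ _)) fun v hv =>
      Gas.mem_pts.2 ⟨_, mem_insert_self _ _, WN.exA_sub ex ey _ N ξ hv⟩)
    ((Arc.ends_union _ _ _).trans ?_) ?_ k3 rfl (bs_ne I.hY.1 hw.1 (hx _ h))
    (bs_ne I.hY.1 hw.1 (Gas.mem_obv.2 (LY0.o_it _ _ _))) hN.2⟩
  · rw [ends_pts hA, zero_add, ← hN.Al_eq]; exact Arc.ends_Al _ _ _ _
  · have := (H.cd _ (E.mem u hu)).2
    have := (I.nm.lev j).1
    simp only at *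
    omega

omit E in
open Classical in
/-- **(TP) for a skeleton.** -/
theorem tpc : Bi.BM ex ey p b Y (fun ξ l =>
    if Real S G (cf P U Lf Ev ξ) (sq l) l.length G.mt 𝒮 then 1 else 0) ≤ ∏ t ∈ 𝒮, P.p1 t := by
  obtain ⟨X, lv, x, E⟩ := exists_Enu I.nm.hn 𝒮
  refine le_trans (Bi.Dat.MM_mono (Bi.LD_ok I.hb I.hY.1.le I.hY.2.le) (Pw_nonneg I.hp)
    fun ξ l _ hl => ?_) ((WN.tp (cov := cv S G P b U Lf 𝒮 X lv x) I.hp I.hb I.hY.1.le I.hY.2
      (I.nm.tgt' I.ok H hm E) (I.inj H hm E) (fun a l u h => (mem_cv.1 h).2.1)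
      (fun a l u h => (mem_cv.1 h).2.2) (fun _ _ _ _ _ _ _ _ => trivial) (I.pairs H hm E)
      (fun _ l _ => I.hJ l) (μ := fun _ _ => 1) (fun _ _ => ⟨zero_le_one, le_rfl⟩) (m := fun _ => 1)
      (fun _ => zero_le_one) (fun _ _ _ _ _ => le_rfl) (fun _ _ => True) (fun _ _ _ _ _ _ => trivial)
      (γ := γ1 P 𝒮 lv) (fun j u => ?_) fun j _ u hu _ => ?_).trans (I.nm.prices H hm E))
  · rw [WN.Ph_one]
    split_ifs with k k'
    exacts [le_rfl, absurd (real_cov H E hl.1 hl.2 k) k', zero_le_one, le_rfl]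
  · unfold γ1; split_ifs; exacts [zero_le_one, (I.nm.g1_mem _).1]
  · unfold γ1
    split_ifs with k
    · obtain ⟨l', k, -⟩ := k
      exact Or.inl ⟨(if_pos ⟨l', k, Nat.zero_le _⟩).le, le_rfl⟩
    · exact Or.inr ⟨(I.nm.g1_mem _).2, I.one H hm E hu k⟩

end Inp

end Crest.Agent.N337.En
end

-- ▼ part N337/E/SC

/-!
# Row 337, ENG (helper86): prescribed orders of births

`sc` : disjoint sequences `q f` of polymers with `k ≤ K f` are all born, each in its order, with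
probability at most `∏_f (1 + log (K f)) ^ |q f| / |q f|!`.
-/

set_option autoImplicit false
set_option linter.unusedSectionVars false

namespace Crest.Agent.N337.Bi

open Finset

/-- common majorant of the rates `k s ^ (k - 1)`, `k ≤ K`, and its primitive. -/
noncomputable def rho (K : ℕ) (s : ℝ) : ℝ := ∑ i ∈ range K, s ^ i
noncomputable def Rho (K : ℕ) (s : ℝ) : ℝ := ∑ i ∈ range K, s ^ (i + 1) / (i + 1)

lemma Rho_deriv (K : ℕ) (s : ℝ) : HasDerivAt (Rho K) (rho K s) s :=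
  HasDerivAt.fun_sum fun i _ => ((hasDerivAt_pow (i + 1) s).div_const ((i : ℝ) + 1)).congr_deriv (by
    have : (i : ℝ) + 1 ≠ 0 := by positivity
    simp only [Nat.add_sub_cancel, Nat.cast_add, Nat.cast_one]; field_simp)

lemma Rho_mono (K : ℕ) {s t : ℝ} (hs : 0 ≤ s) (h : s ≤ t) : Rho K s ≤ Rho K t :=
  sum_le_sum fun i _ => div_le_div_of_nonneg_right (pow_le_pow_left₀ hs h _) (by positivity)

lemma Rho_le (K : ℕ) {s : ℝ} (hs : 0 ≤ s) (h : s ≤ 1) : Rho K s ≤ 1 + Real.log K := by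
  refine (Rho_mono K hs h).trans (le_trans (le_of_eq ?_) (harmonic_le_one_add_log K))
  simp [Rho, harmonic]

lemma rate_le {k K : ℕ} (h : k ≤ K) {s : ℝ} (hs : 0 ≤ s) (hs1 : s ≤ 1) :
    k * s ^ (k - 1) ≤ rho K s := by
  refine le_trans ?_ (sum_le_sum_of_subset_of_nonneg (range_mono h) fun i _ _ => by positivity)
  have := card_nsmul_le_sum (range k) (fun i => s ^ i) (s ^ (k - 1)) fun i hi =>
    pow_le_pow_of_le_one hs hs1 (Nat.le_sub_one_of_lt (mem_range.1 hi))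
  simpa using this

lemma pw_deriv (K n : ℕ) (Y s : ℝ) :
    HasDerivAt (fun t => (Rho K Y - Rho K t) ^ n / (n.factorial : ℝ))
      (-if n = 0 then 0 else rho K s * ((Rho K Y - Rho K s) ^ (n - 1) / ((n - 1).factorial : ℝ)))
      s := by
  refine ((((Rho_deriv K s).const_sub (Rho K Y)).fun_pow n).div_const _).congr_deriv ?_
  rcases n with _ | n
  · simp
  · have : ((n : ℝ) + 1) ≠ 0 := by positivity
    have : (n.factorial : ℝ) ≠ 0 := by positivity
    simp only [Nat.add_sub_cancel, Nat.factorial_succ, Nat.succ_ne_zero, if_false]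
    push_cast; field_simp

variable {Γ : Type} [DecidableEq Γ] {ι : Type} [Fintype ι] [DecidableEq ι]

lemma sub_of_notMem {g : Γ} {q l : List Γ} (h : q.Sublist (g :: l)) (hg : g ∉ q) : q.Sublist l :=
  (List.sublist_cons_iff.1 h).resolve_right fun ⟨_, e, _⟩ => hg (e ▸ List.mem_cons_self)

/-- disjoint sequences. -/
structure Sq (q : ι → List Γ) : Prop where
  nd : ∀ f, (q f).Nodup
  dj : ∀ f f' g, g ∈ q f → g ∈ q f' → f = f'

lemma Sq.tail {q : ι → List Γ} (h : Sq q) {f : ι} {g : Γ} {t : List Γ} (e : q f = g :: t) :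
    Sq (Function.update q f t) := by
  have hs : ∀ f' x, x ∈ Function.update q f t f' → x ∈ q f' := fun f' x hx => by
    by_cases k : f' = f
    · subst k; rw [Function.update_self] at hx; rw [e]; exact List.mem_cons_of_mem _ hx
    · rwa [Function.update_of_ne k] at hx
  refine ⟨fun f' => ?_, fun f₁ f₂ x h1 h2 => h.dj _ _ x (hs _ _ h1) (hs _ _ h2)⟩
  by_cases k : f' = f
  · subst k; rw [Function.update_self]; exact (List.nodup_cons.1 (e ▸ h.nd f')).2
  · rw [Function.update_of_ne k]; exact h.nd f'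

namespace Dat

variable {D : Dat Γ}

open Classical in
theorem sc0 (h : D.Ok) (K : ι → ℕ) (L : Finset Γ) : ∀ (q : ι → List Γ), Sq q →
    (∀ f, ∀ g ∈ q f, D.k g ≤ K f) → ∀ s, 0 ≤ s → s ≤ D.Y →
    D.m L (fun l => if ∀ f, (q f).Sublist l then 1 else 0) s ≤
      (∏ g ∈ L with ∀ f, g ∉ q f, (1 - D.w s g)) *
        ∏ f, (Rho (K f) D.Y - Rho (K f) s) ^ (q f).length / ((q f).length.factorial : ℝ) := by
  induction L using erase_ind with
  | h L ih =>
    intro q hq hK s hs hs1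
    have hU := fun t => (HasDerivAt.fun_finsetProd (u := L.filter fun g => ∀ f, g ∉ q f) (x := t)
      fun g _ => (D.w_deriv t g).const_sub 1).fun_mul (HasDerivAt.fun_finsetProd
        (u := (univ : Finset ι)) (x := t) fun f _ => pw_deriv (K f) (q f).length D.Y t)
    have hV := D.m_deriv L fun l => if ∀ f, (q f).Sublist l then 1 else 0
    have := le_of_deriv hs1 (continuous_iff_continuousAt.2 fun t =>
      ((hU t).fun_sub (hV t)).continuousAt).continuousOn (fun t _ => (hU t).fun_sub (hV t))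
      fun t ht => ?_
    · refine sub_nonneg.1 (le_trans (sub_nonneg.2 ?_) this)
      rw [m_end]
      have hw := fun g => sub_nonneg.2 (h.w_le h.Y0 le_rfl g)
      split_ifs with h0
      · have h1 : ∀ f, q f = [] := fun f => List.sublist_nil.1 (h0 f)
        simp [h1]
      · rw [mul_zero]
        exact mul_nonneg (prod_nonneg fun g _ => hw g) (prod_nonneg fun f _ => by
          rw [sub_self]; positivity)
    have ht0 : 0 ≤ t := hs.trans ht.1.le
    have hw := fun g => sub_nonneg.2 (h.w_le ht0 ht.2.le g)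
    have hR := fun K => sub_nonneg.2 (Rho_mono K ht0 ht.2.le)
    set L' := L.filter fun g => ∀ f, g ∉ q f with hL'
    set u : ι → ℕ → ℝ := fun f n => (Rho (K f) D.Y - Rho (K f) t) ^ n / (n.factorial : ℝ) with hu
    have u0 : ∀ f n, 0 ≤ u f n := fun f n => div_nonneg (pow_nonneg (hR _) _) (by positivity)
    set X : ι → ℝ := fun f => (∏ g ∈ L', (1 - D.w t g)) * ((∏ f' ∈ univ.erase f,
      u f' (q f').length) * (rho (K f) t * u f ((q f).length - 1))) with hX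
    have X0 : ∀ f, 0 ≤ X f := fun f => mul_nonneg (prod_nonneg fun g _ => hw g) (mul_nonneg
      (prod_nonneg fun _ _ => u0 _ _) (mul_nonneg (sum_nonneg fun _ _ => by positivity) (u0 _ _)))
    have h1 : ∀ g ∈ L', D.w' t g * D.m (L.erase g)
        (fun l => if ∀ f, (q f).Sublist (g :: l) then 1 else 0) t ≤
        D.w' t g * ((∏ x ∈ L'.erase g, (1 - D.w t x)) * ∏ f, u f (q f).length) := by
      intro g hg
      obtain ⟨hgL, hgq⟩ := mem_filter.1 hg
      refine mul_le_mul_of_nonneg_left ?_ (h.w'_nn ht0 g)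
      have e : ∀ f l, (q f).Sublist (g :: l) ↔ (q f).Sublist l := fun f l =>
        ⟨fun k => sub_of_notMem k (hgq f), fun k => k.cons g⟩
      simp only [e]
      rw [hL', ← filter_erase]
      exact ih g hgL q hq hK t ht0 ht.2.le
    have h2 : ∀ g ∈ L.filter fun g => ¬∀ f, g ∉ q f, D.w' t g * D.m (L.erase g)
        (fun l => if ∀ f, (q f).Sublist (g :: l) then 1 else 0) t ≤
        ∑ f, if (q f).head? = some g then X f else 0 := by
      intro g hg
      obtain ⟨hgL, hgq⟩ := mem_filter.1 hg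
      push Not at hgq
      obtain ⟨f, hf⟩ := hgq
      have hn : ∀ f ∈ (univ : Finset ι), 0 ≤ if (q f).head? = some g then X f else 0 :=
        fun f _ => by split_ifs; exacts [X0 f, le_rfl]
      refine le_trans ?_ (single_le_sum hn (mem_univ f))
      split_ifs with hh
      · obtain ⟨r, e⟩ := List.head?_eq_some_iff.1 hh
        have hq' := hq.tail e
        have e1 : ∀ l, (∀ f', (q f').Sublist (g :: l)) ↔
            ∀ f', (Function.update q f r f').Sublist l := fun l => forall_congr' fun f' => by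
          by_cases k : f' = f
          · subst k; rw [Function.update_self, e, List.cons_sublist_cons]
          · rw [Function.update_of_ne k]
            exact ⟨fun k' => sub_of_notMem k' fun k'' => k (hq.dj _ _ g k'' hf),
              fun k' => k'.cons g⟩
        simp only [e1]
        have h3 := ih g hgL _ hq' (fun f' x hx => hK f' x (by
          by_cases k : f' = f
          · subst k; rw [Function.update_self] at hx; rw [e]; exact List.mem_cons_of_mem _ hx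
          · rwa [Function.update_of_ne k] at hx)) t ht0 ht.2.le
        have e2 : (L.erase g).filter (fun x => ∀ f', x ∉ Function.update q f r f') = L' := by
          ext x
          simp only [hL', mem_filter, mem_erase]
          refine ⟨fun ⟨⟨a, b⟩, c⟩ => ⟨b, fun f' k => c f' ?_⟩, fun ⟨a, b⟩ =>
            ⟨⟨fun k => b f (k ▸ hf), a⟩, fun f' k => b f' ?_⟩⟩
          · by_cases k' : f' = f
            · subst k'; rw [Function.update_self]
              exact (List.mem_cons.1 (e ▸ k)).resolve_left a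
            · rwa [Function.update_of_ne k']
          · by_cases k' : f' = f
            · subst k'; rw [Function.update_self] at k; rw [e]; exact List.mem_cons_of_mem _ k
            · rwa [Function.update_of_ne k'] at k
        rw [e2, ← prod_erase_mul _ _ (mem_univ f), Function.update_self,
          prod_congr (s₁ := univ.erase f) rfl fun f' hf' => by
            rw [Function.update_of_ne (ne_of_mem_erase hf')]] at h3
        have h4 : D.w' t g ≤ rho (K f) t := (mul_le_of_le_one_left (by positivity) (h.c1 g)).trans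
          (rate_le (hK f g hf) ht0 (ht.2.le.trans h.Y1))
        refine (mul_le_mul h4 h3 (m_nn h (fun _ _ => by split_ifs <;> norm_num) ht0 ht.2.le)
          ((h.w'_nn ht0 g).trans h4)).trans (le_of_eq ?_)
        simp only [hX, hu, e, List.length_cons, Nat.add_sub_cancel]; ring
      · refine mul_nonpos_of_nonneg_of_nonpos (h.w'_nn ht0 g) (le_trans
          (m_mono h _ (H' := fun _ => 0) (fun l hl => ?_) ht0 ht.2.le) (D.m_zero _ _).le)
        rw [if_neg fun k => ?_]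
        rcases List.sublist_cons_iff.1 (k f) with k' | ⟨r, e, -⟩
        · exact notMem_erase g L (hl.2 g (k'.subset hf)).1
        · exact hh (by rw [e]; rfl)
    have h3 : ∑ g ∈ L.filter fun g => ¬∀ f, g ∉ q f, ∑ f, (if (q f).head? = some g then X f else 0)
        ≤ ∑ f, if (q f).length = 0 then 0 else X f := by
      rw [sum_comm]
      refine sum_le_sum fun f _ => ?_
      rcases q f with _ | ⟨x, r⟩
      · simp
      · simp only [List.head?_cons, Option.some.injEq, sum_ite_eq, List.length_cons,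
          Nat.succ_ne_zero, if_false]
        split_ifs; exacts [le_rfl, X0 f]
    have h4 := (sum_filter_add_sum_filter_not L (fun g => ∀ f, g ∉ q f) _).symm.trans_le
      (add_le_add (sum_le_sum h1) ((sum_le_sum h2).trans h3))
    rw [sub_neg_eq_add]
    refine (add_le_add_right h4 _).trans (le_of_eq ?_)
    simp only [smul_eq_mul, sum_mul, mul_sum]
    rw [add_add_add_comm, ← sum_add_distrib, ← sum_add_distrib, sum_eq_zero fun g _ => by ring,
      sum_eq_zero fun f _ => ?_, add_zero]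
    split_ifs
    · simp
    · simp only [hX, hu]; ring

open Classical in
/-- **prescribed orders.** -/
theorem sc (h : D.Ok) (K : ι → ℕ) (L : Finset Γ) {q : ι → List Γ} (hq : Sq q)
    (hK : ∀ f, ∀ g ∈ q f, D.k g ≤ K f) :
    D.m L (fun l => if ∀ f, (q f).Sublist l then 1 else 0) 0 ≤
      ∏ f, (1 + Real.log (K f)) ^ (q f).length / ((q f).length.factorial : ℝ) := by
  refine (sc0 h K L q hq hK 0 le_rfl h.Y0).trans ?_
  have h0 : ∀ K, Rho K 0 = 0 := fun K => by simp [Rho]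
  have hR : ∀ K, 0 ≤ Rho K D.Y := fun K => (h0 K).symm.trans_le (Rho_mono K le_rfl h.Y0)
  simp only [h0, sub_zero]
  refine (mul_le_of_le_one_left (prod_nonneg fun f _ => by have := hR (K f); positivity)
    (prod_le_one (fun g _ => sub_nonneg.2 (h.w_le le_rfl h.Y0 g))
      fun g _ => sub_le_self _ (h.w_nn le_rfl g))).trans ?_
  exact prod_le_prod (fun f _ => by have := hR (K f); positivity) fun f _ =>
    div_le_div_of_nonneg_right (pow_le_pow_left₀ (hR _) (Rho_le _ h.Y0 h.Y1) _) (by positivity)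

open Classical in
/-- **prescribed orders**, for sequences depending on the family. -/
theorem MM_sc (h : D.Ok) {Ω : Type} [Fintype Ω] {P : Ω → ℝ} (hP : ∀ ω, 0 ≤ P ω)
    (h1 : ∑ ω, P ω ≤ 1) (Lw : Ω → Finset Γ) (K n : ι → ℕ) (q : Ω → ι → List Γ)
    (E : Ω → List Γ → Prop) (hE : ∀ ω l, P ω ≠ 0 → D.Adm (Lw ω) l → E ω l → Sq (q ω) ∧
      ∀ f, (q ω f).length = n f ∧ (q ω f).Sublist l ∧ ∀ g ∈ q ω f, D.k g ≤ K f) :
    D.MM P Lw (fun ω l => if E ω l then 1 else 0) ≤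
      ∏ f, (1 + Real.log (K f)) ^ n f / ((n f).factorial : ℝ) := by
  have hB : 0 ≤ ∏ f, (1 + Real.log (K f)) ^ n f / ((n f).factorial : ℝ) :=
    prod_nonneg fun f _ => by have := Real.log_natCast_nonneg (K f); positivity
  refine le_trans (sum_le_sum fun ω _ => ?_) ((sum_mul _ _ _).symm.trans_le
    (mul_le_of_le_one_left hB h1))
  by_cases h0 : P ω = 0
  · simp [h0]
  refine mul_le_mul_of_nonneg_left ?_ (hP ω)
  by_cases hex : ∃ l, D.Adm (Lw ω) l ∧ E ω l
  · obtain ⟨l₀, hl₀, hE₀⟩ := hex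
    obtain ⟨hq, hf⟩ := hE ω l₀ h0 hl₀ hE₀
    refine (m_mono h _ (fun l hl => ?_) le_rfl h.Y0).trans ((sc h K (Lw ω) hq
      fun f => (hf f).2.2).trans (le_of_eq (prod_congr rfl fun f _ => by rw [(hf f).1])))
    beta_reduce
    split_ifs with k k'
    · exact le_rfl
    · exact absurd (fun f => ((hE ω l h0 hl k).2 f).2.1) k'
    · exact zero_le_one
    · exact le_rfl
  · refine (m_mono h _ (H' := fun _ => 0) (fun l hl => ?_) le_rfl h.Y0).trans
      ((D.m_zero _ _).trans_le hB)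
    exact (if_neg fun k => hex ⟨l, hl, k⟩).le

end Dat

end Crest.Agent.N337.Bi
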