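import Mathlib
import Crest.Agent.N337.Rg.Defs
import Crest.Agent.N337.Free.Tor

-- ▼ part N337/E/Seed
section

/-!
# Row 337, ENG (helper30): merging cubes and extracting seeds (note h30-2, MERGE and SE)

Pure geometry of `ℤ³` with the sup norm.  `O` = cells that are bad from the start, `P` = cells that
become bad, `τ` = the time at which they do.
-/

set_option autoImplicit false

namespace Crest.Agent.N337.Sd

open Finset

/-- lattice points, sup distance. -/
abbrev V : Type := Fin 3 → ℤ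

/-- height in one of the six axis directions. -/
def hgt (e : Fin 3 × Bool) (p : V) : ℝ := if e.2 then (p e.1 : ℝ) else -(p e.1 : ℝ)

lemma hgt_le (e : Fin 3 × Bool) (p q : V) : hgt e p - hgt e q ≤ dist p q := by
  have h := dist_le_pi_dist p q e.1
  rw [Int.dist_eq] at h
  unfold hgt
  split_ifs
  · linarith [le_abs_self ((p e.1 : ℝ) - q e.1)]
  · linarith [neg_abs_le ((p e.1 : ℝ) - q e.1)]

lemma exists_hgt (p q : V) : ∃ e, hgt e p - hgt e q = dist p q := by
  obtain ⟨i, -, hi⟩ := exists_max_image (univ : Finset (Fin 3)) (fun i => dist (p i) (q i))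
    univ_nonempty
  have h : dist p q = dist (p i) (q i) :=
    le_antisymm ((dist_pi_le_iff dist_nonneg).2 fun j => hi j (mem_univ _)) (dist_le_pi_dist p q i)
  rw [h, Int.dist_eq]
  rcases le_total (0 : ℝ) ((p i : ℝ) - q i) with h0 | h0
  · exact ⟨(i, true), by simp [hgt, abs_of_nonneg h0]⟩
  · exact ⟨(i, false), by simp [hgt, abs_of_nonpos h0]; ring⟩

/-- **MERGE**: cubes `(centre, radius)` are collected in well separated groups. -/
theorem merge {c σ : ℝ} (hc : 0 ≤ c) (hσ : 0 ≤ σ) (n : ℕ) :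
    ∀ l : Finset (V × ℝ), l.card ≤ n → (∀ m ∈ l, 0 ≤ m.2) → ∃ F : Finset (V × ℝ), F.card ≤ n ∧
      (∀ m ∈ l, ∃ G ∈ F, dist m.1 G.1 + m.2 ≤ G.2) ∧
      (∀ G ∈ F, ∀ G' ∈ F, G ≠ G' → c * (G.2 + σ + (G'.2 + σ)) ≤ dist G.1 G'.1) ∧
      ∀ G ∈ F, ∃ m ∈ l, dist m.1 G.1 + m.2 ≤ G.2 ∧ G.2 + σ ≤ (2 * c + 2) ^ n * (m.2 + σ) := by
  have hC : (1 : ℝ) ≤ 2 * c + 2 := by linarith
  have triv : ∀ (n : ℕ) (l : Finset (V × ℝ)), l.card ≤ n → (∀ m ∈ l, 0 ≤ m.2) →
      (∀ G ∈ l, ∀ G' ∈ l, G ≠ G' → c * (G.2 + σ + (G'.2 + σ)) ≤ dist G.1 G'.1) →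
      ∃ F : Finset (V × ℝ), F.card ≤ n ∧ (∀ m ∈ l, ∃ G ∈ F, dist m.1 G.1 + m.2 ≤ G.2) ∧
      (∀ G ∈ F, ∀ G' ∈ F, G ≠ G' → c * (G.2 + σ + (G'.2 + σ)) ≤ dist G.1 G'.1) ∧
      ∀ G ∈ F, ∃ m ∈ l, dist m.1 G.1 + m.2 ≤ G.2 ∧ G.2 + σ ≤ (2 * c + 2) ^ n * (m.2 + σ) :=
    fun n l h1 h2 h3 => ⟨l, h1, fun m hm => ⟨m, hm, by simp⟩, h3, fun G hG => ⟨G, hG, by simp,
      le_mul_of_one_le_left (by linarith [h2 G hG]) (one_le_pow₀ hC)⟩⟩
  induction n with
  | zero =>
    intro l h1 h2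
    refine triv 0 l h1 h2 fun G hG => ?_
    rw [card_eq_zero.1 (Nat.le_zero.1 h1)] at hG
    simp at hG
  | succ n ih =>
    intro l h1 h2
    by_cases hs : ∀ G ∈ l, ∀ G' ∈ l, G ≠ G' → c * (G.2 + σ + (G'.2 + σ)) ≤ dist G.1 G'.1
    · exact triv _ l h1 h2 hs
    have : ∃ G ∈ l, ∃ G' ∈ l, G ≠ G' ∧ G'.2 ≤ G.2 ∧
        dist G.1 G'.1 < c * (G.2 + σ + (G'.2 + σ)) := by
      push Not at hs
      obtain ⟨G, hG, G', hG', hne, hd⟩ := hs
      rcases le_total G'.2 G.2 with h | h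
      · exact ⟨G, hG, G', hG', hne, h, hd⟩
      · exact ⟨G', hG', G, hG, hne.symm, h, by rw [dist_comm, add_comm (G'.2 + σ)]; exact hd⟩
    obtain ⟨G, hG, G', hG', hne, hle, hd⟩ := this
    have g0 := h2 G hG
    have g0' := h2 G' hG'
    have d0 : 0 ≤ dist G.1 G'.1 := dist_nonneg
    set H : V × ℝ := (G.1, G.2 + dist G.1 G'.1 + G'.2) with hH
    have hG'' : G' ∈ l.erase G := mem_erase.2 ⟨hne.symm, hG'⟩
    obtain ⟨F, f1, f2, f3, f4⟩ := ih (insert H ((l.erase G).erase G')) (by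
      have a1 := card_insert_le H ((l.erase G).erase G')
      have a2 := card_erase_of_mem hG''
      have a3 := card_erase_of_mem hG
      have a4 := card_pos.2 ⟨_, hG''⟩
      omega) (by
      intro m hm
      rcases mem_insert.1 hm with rfl | hm
      · simp only [hH]; linarith
      · exact h2 m (mem_of_mem_erase (mem_of_mem_erase hm)))
    obtain ⟨K, hK, hKH⟩ := f2 H (mem_insert_self _ _)
    refine ⟨F, by omega, fun m hm => ?_, f3, fun K' hK' => ?_⟩
    · by_cases e1 : m = G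
      · subst e1
        exact ⟨K, hK, by simp only [hH] at hKH; linarith⟩
      by_cases e2 : m = G'
      · subst e2
        refine ⟨K, hK, ?_⟩
        simp only [hH] at hKH
        have := dist_triangle m.1 G.1 K.1
        rw [dist_comm m.1 G.1] at this
        linarith
      exact f2 m (mem_insert_of_mem (mem_erase.2 ⟨e2, mem_erase.2 ⟨e1, hm⟩⟩))
    · obtain ⟨m, hm, m1, m2⟩ := f4 K' hK'
      have hp : 0 ≤ (2 * c + 2) ^ n := by positivity
      rcases mem_insert.1 hm with rfl | hm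
      · refine ⟨G, hG, by simp only [hH] at m1; linarith, m2.trans ?_⟩
        rw [pow_succ, mul_assoc]
        refine mul_le_mul_of_nonneg_left ?_ hp
        simp only [hH]
        nlinarith [mul_le_mul_of_nonneg_left hle hc]
      · have hm' := mem_of_mem_erase (mem_of_mem_erase hm)
        refine ⟨m, hm', m1, m2.trans ?_⟩
        rw [pow_succ, mul_assoc]
        exact mul_le_mul_of_nonneg_left
          (le_mul_of_one_le_left (by linarith [h2 m hm']) hC) hp

variable (O : Set V) (P : Finset V) (τ : V → ℕ)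

/-- `p` is bad before `s` is. -/
def Old (s p : V) : Prop := p ∈ O ∨ (p ∈ P ∧ τ p < τ s)

/-- every older bad cell lies within `W` but off the ball `B(s, A)` and off the cone at `s`, or in one
of at most `q` far groups. -/
def Seed (A σ c W : ℝ) (q : ℕ) (s : V) : Prop :=
  ∃ (e : Fin 3 × Bool) (F : Finset (V × ℝ)), F.card ≤ q ∧
    (∀ G ∈ F, σ ≤ G.2 ∧ G.2 ≤ W ∧ c * G.2 ≤ dist s G.1) ∧
    ∀ p, Old O P τ s p → (A < dist p s ∧ hgt e p - hgt e s < dist p s ∧ dist p s ≤ (c + 3) * W) ∨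
      ∃ G ∈ F, dist p G.1 ≤ G.2

/-- `N` links to older and older cells, of total length at most `2 A N`. -/
def Chn (A : ℝ) (N : ℕ) (z : ℕ → V) : Prop :=
  (∀ i ≤ N, z i ∈ P ∧ z i ∉ O) ∧ (∀ i < N, τ (z (i + 1)) < τ (z i)) ∧
    ∑ i ∈ range N, dist (z i) (z (i + 1)) ≤ 2 * A * N

variable {O P τ}

/-- one new seed outside separated groups. -/
theorem stage {A σ c W : ℝ} {N q : ℕ} (hA : 0 ≤ A) (hc : 0 ≤ c) (hσ : 4 * A * N ≤ σ)
    {F : Finset (V × ℝ)} (hq : F.card ≤ q) (h0 : ∀ G ∈ F, 0 ≤ G.2 ∧ G.2 + σ ≤ W) (hW : σ ≤ W)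
    (hs : ∀ G ∈ F, ∀ G' ∈ F, G ≠ G' → (c + 1) * (G.2 + σ + (G'.2 + σ)) ≤ dist G.1 G'.1)
    (hO : ∀ p ∈ O, ∃ G ∈ F, dist p G.1 ≤ G.2)
    (hy : ∃ y ∈ P, ∀ G ∈ F, G.2 + σ < dist y G.1) :
    (∃ z, Chn O P τ A N z ∧ ∀ p ∈ O, σ < dist p (z 0)) ∨ ∃ s ∈ P, Seed O P τ A σ c W q s ∧
      ∀ p, ∀ G ∈ F, dist p G.1 ≤ G.2 → σ / 2 < dist p s := by
  classical
  have hσ0 : 0 ≤ σ := le_trans (by positivity) hσ
  obtain ⟨z0, hz0, hmin⟩ := exists_min_image (P.filter fun y => ∀ G ∈ F, G.2 + σ < dist y G.1) τ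
    (by obtain ⟨y, h1, h2⟩ := hy; exact ⟨y, mem_filter.2 ⟨h1, h2⟩⟩)
  obtain ⟨hz0P, hz0F⟩ := mem_filter.1 hz0
  have base : ∀ p, ∀ G ∈ F, dist p G.1 ≤ G.2 → σ < dist p z0 := fun p G hG h => by
    have := dist_triangle z0 p G.1
    rw [dist_comm z0 p] at this
    linarith [hz0F G hG]
  have cov : ∀ p, Old O P τ z0 p → ∃ G ∈ F, dist p G.1 ≤ G.2 + σ := by
    rintro p (h | ⟨h1, h2⟩)
    · obtain ⟨G, hG, h⟩ := hO p h
      exact ⟨G, hG, by linarith⟩
    · by_contra hn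
      push Not at hn
      exact absurd (hmin p (mem_filter.2 ⟨h1, hn⟩)) (by omega)
  set Far := F.filter fun G => (c + 1) * (G.2 + σ) ≤ dist z0 G.1 with hFar
  obtain ⟨e, he⟩ : ∃ e, ∀ p, Old O P τ z0 p → (∀ G ∈ Far, G.2 + σ < dist p G.1) →
      hgt e p < hgt e z0 ∧ dist p z0 ≤ (c + 2) * W := by
    by_cases hn : ∃ G ∈ F, dist z0 G.1 < (c + 1) * (G.2 + σ)
    · obtain ⟨G0, hG0, hn⟩ := hn
      obtain ⟨e, he⟩ := exists_hgt z0 G0.1
      refine ⟨e, fun p hp hf => ?_⟩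
      obtain ⟨G, hG, h⟩ := cov p hp
      have hG' : dist z0 G.1 < (c + 1) * (G.2 + σ) := by
        by_contra h'
        exact absurd (hf G (mem_filter.2 ⟨hG, not_lt.1 h'⟩)) (not_lt.2 h)
      have e1 : G = G0 := by
        by_contra hne
        have a1 := hs G hG G0 hG0 hne
        have a2 := dist_triangle G.1 z0 G0.1
        rw [dist_comm G.1 z0] at a2
        nlinarith
      subst e1
      have a1 := hgt_le e p G.1
      have a2 := dist_triangle p G.1 z0
      rw [dist_comm G.1 z0] at a2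
      have a3 := mul_le_mul_of_nonneg_left (h0 G hG).2 (by linarith : 0 ≤ c + 1)
      exact ⟨by linarith [hz0F G hG], by nlinarith [(h0 G hG).2]⟩
    · refine ⟨(0, true), fun p hp hf => ?_⟩
      obtain ⟨G, hG, h⟩ := cov p hp
      push Not at hn
      exact absurd (hf G (mem_filter.2 ⟨hG, hn G hG⟩)) (not_lt.2 h)
  have main : ∀ i ≤ N, (∃ s ∈ P, Seed O P τ A σ c W q s ∧ dist s z0 ≤ σ / 2) ∨
      ∃ z : ℕ → V, z 0 = z0 ∧ (∀ j ≤ i, z j ∈ P ∧ z j ∉ O) ∧ (∀ j < i, τ (z (j + 1)) < τ (z j)) ∧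
        τ (z i) ≤ τ z0 ∧ hgt e (z i) ≤ hgt e z0 ∧
        dist (z i) z0 ≤ ∑ j ∈ range i, dist (z j) (z (j + 1)) ∧
        ∑ j ∈ range i, dist (z j) (z (j + 1)) ≤ 2 * A * i + hgt e (z i) - hgt e z0 := by
    intro i
    induction i with
    | zero =>
      refine fun _ => Or.inr ⟨fun _ => z0, rfl, fun _ _ => ⟨hz0P, fun h => ?_⟩, by simp, le_rfl,
        le_rfl, by simp, by simp⟩
      obtain ⟨G, hG, h⟩ := hO z0 h
      linarith [hz0F G hG]
    | succ i ih =>
      intro hi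
      rcases ih (by omega) with h | ⟨z, z1, z2, z3, z4, z5, z6, z7⟩
      · exact Or.inl h
      have hiN : ((i : ℝ) + 1) ≤ N := by exact_mod_cast hi
      have hold : ∀ p, Old O P τ (z i) p → Old O P τ z0 p := fun p hp =>
        hp.imp id fun h => ⟨h.1, lt_of_lt_of_le h.2 z4⟩
      have hAi : 2 * A * (i + 1) ≤ σ / 2 := by nlinarith
      by_cases hl : ∃ p, Old O P τ (z i) p ∧ (∀ G ∈ Far, G.2 + σ < dist p G.1) ∧
          (dist p (z i) ≤ A ∨ dist p (z i) ≤ hgt e p - hgt e (z i))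
      · obtain ⟨p, hp, hf, hl⟩ := hl
        have a1 := (he p (hold p hp) hf).1
        have a2 : ∑ j ∈ range i, dist (z j) (z (j + 1)) + dist (z i) p ≤
            2 * A * (i + 1) + hgt e p - hgt e z0 := by
          rw [dist_comm (z i) p]
          rcases hl with hl | hl
          · have := hgt_le e (z i) p
            rw [dist_comm] at this
            linarith
          · linarith
        have a3 : dist p z0 ≤ ∑ j ∈ range i, dist (z j) (z (j + 1)) + dist (z i) p := by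
          have := dist_triangle p (z i) z0
          rw [dist_comm p (z i)] at this
          linarith
        have hpO : p ∉ O := fun h => by
          obtain ⟨G, hG, h⟩ := hO p h
          linarith [base p G hG h]
        have hpP := hp.resolve_left hpO
        have up : ∀ j ≤ i, Function.update z (i + 1) p j = z j := fun j hj =>
          Function.update_of_ne (by omega) _ _
        have sm : ∑ j ∈ range (i + 1), dist (Function.update z (i + 1) p j)
            (Function.update z (i + 1) p (j + 1)) =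
            ∑ j ∈ range i, dist (z j) (z (j + 1)) + dist (z i) p := by
          rw [sum_range_succ, up i le_rfl, Function.update_self]
          congr 1
          refine sum_congr rfl fun j hj => ?_
          rw [up j (by have := mem_range.1 hj; omega), up (j + 1) (by have := mem_range.1 hj; omega)]
        refine Or.inr ⟨Function.update z (i + 1) p, by rw [up 0 (by omega), z1], fun j hj => ?_,
          fun j hj => ?_, ?_, ?_, ?_, ?_⟩
        · rcases Nat.lt_or_ge i j with h | h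
          · rw [show j = i + 1 by omega, Function.update_self]; exact ⟨hpP.1, hpO⟩
          · rw [up j h]; exact z2 j h
        · rcases Nat.lt_or_ge j i with h | h
          · rw [up j (by omega), up (j + 1) (by omega)]; exact z3 j h
          · rw [show j = i by omega, up i le_rfl, Function.update_self]; exact hpP.2
        · rw [Function.update_self]; have := hpP.2; omega
        · rw [Function.update_self]; exact a1.le
        · rw [sm, Function.update_self]; exact a3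
        · rw [sm, Function.update_self]; push_cast; exact a2
      · have hd : dist (z i) z0 ≤ σ / 2 := by nlinarith
        refine Or.inl ⟨z i, (z2 i le_rfl).1, ⟨e, Far.image fun G => (G.1, G.2 + σ),
          card_image_le.trans ((card_filter_le _ _).trans hq), fun G hG => ?_, fun p hp => ?_⟩, hd⟩
        · obtain ⟨G', hG', rfl⟩ := mem_image.1 hG
          obtain ⟨b1, b2⟩ := mem_filter.1 hG'
          have := dist_triangle z0 (z i) G'.1
          rw [dist_comm z0 (z i)] at this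
          have b3 := h0 G' b1
          exact ⟨by simp only; linarith, b3.2, by simp only; nlinarith⟩
        · by_cases hf : ∀ G ∈ Far, G.2 + σ < dist p G.1
          · left
            push Not at hl
            obtain ⟨b1, b2⟩ := hl p hp hf
            have b3 := (he p (hold p hp) hf).2
            have := dist_triangle p z0 (z i)
            rw [dist_comm z0 (z i)] at this
            exact ⟨b1, b2, by nlinarith⟩
          · right
            push Not at hf
            obtain ⟨G, hG, h⟩ := hf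
            exact ⟨_, mem_image_of_mem _ hG, h⟩
  rcases main N le_rfl with ⟨s, s1, s2, s3⟩ | ⟨z, z1, z2, z3, -, z5, -, z7⟩
  · refine Or.inr ⟨s, s1, s2, fun p G hG h => ?_⟩
    have := dist_triangle p s z0
    linarith [base p G hG h]
  · refine Or.inl ⟨z, ⟨z2, z3, by linarith⟩, fun p hp => ?_⟩
    obtain ⟨G, hG, h⟩ := hO p hp
    rw [z1]
    exact base p G hG h

/-- **SE**: a chain, or as many separated seeds as there are targets. -/
theorem seeds' {A σ c S : ℝ} {N q0 a : ℕ} (hA : 0 ≤ A) (hc : 0 ≤ c) (hS : 0 ≤ S)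
    (hσ : 4 * A * N ≤ σ) {F0 : Finset (V × ℝ)} {Y : Finset V} (hq : F0.card ≤ q0)
    (hF : ∀ G ∈ F0, 0 ≤ G.2 ∧ G.2 ≤ S) (hO : ∀ p ∈ O, ∃ G ∈ F0, dist p G.1 ≤ G.2) (hY : Y ⊆ P) (ha : a ≤ Y.card)
    (hYY : ∀ y ∈ Y, ∀ y' ∈ Y, y ≠ y' → 4 * (2 * c + 4) ^ (q0 + a) * σ < dist y y')
    (hYO : ∀ y ∈ Y, ∀ G ∈ F0, 2 * ((2 * c + 4) ^ (q0 + a) * (G.2 + σ)) < dist y G.1) :
    (∃ z, Chn O P τ A N z ∧ ∀ p ∈ O, σ < dist p (z 0)) ∨ ∃ T ⊆ P, T.card = a ∧
      (∀ s ∈ T, Seed O P τ A σ c ((2 * c + 4) ^ (q0 + a) * (S + σ)) (q0 + a) s ∧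
        ∀ p ∈ O, σ / 2 < dist p s) ∧ ∀ s ∈ T, ∀ s' ∈ T, s ≠ s' → σ / 2 < dist s s' := by
  classical
  have hσ0 : 0 ≤ σ := le_trans (by positivity) hσ
  have hC : (1 : ℝ) ≤ (2 * c + 4) ^ (q0 + a) := one_le_pow₀ (by linarith)
  have main : ∀ j ≤ a, (∃ z, Chn O P τ A N z ∧ ∀ p ∈ O, σ < dist p (z 0)) ∨ ∃ T ⊆ P, T.card = j ∧
      (∀ s ∈ T, Seed O P τ A σ c ((2 * c + 4) ^ (q0 + a) * (S + σ)) (q0 + a) s ∧
        ∀ p ∈ O, σ / 2 < dist p s) ∧ ∀ s ∈ T, ∀ s' ∈ T, s ≠ s' → σ / 2 < dist s s' := by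
    intro j
    induction j with
    | zero => exact fun _ => Or.inr ⟨∅, empty_subset _, rfl, by simp, by simp⟩
    | succ j ih =>
      intro hj
      rcases ih (by omega) with h | ⟨T, t1, t2, t3, t4⟩
      · exact Or.inl h
      obtain ⟨F, f1, f2, f3, f4⟩ := merge (c := c + 1) (by linarith) hσ0 (q0 + a)
        (F0 ∪ T.image fun s => (s, (0 : ℝ))) (by
          have a1 := card_union_le F0 (T.image fun s => (s, (0 : ℝ)))
          have a3 := card_image_le (s := T) (f := fun s => (s, (0 : ℝ)))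
          omega) (by
          intro m hm
          rcases mem_union.1 hm with h | h
          · exact (hF m h).1
          · obtain ⟨z, -, rfl⟩ := mem_image.1 h
            exact le_rfl)
      rw [show 2 * (c + 1) + 2 = 2 * c + 4 by ring] at f4
      have g0 : ∀ G ∈ F, 0 ≤ G.2 ∧ G.2 + σ ≤ (2 * c + 4) ^ (q0 + a) * (S + σ) := by
        intro G hG
        obtain ⟨m, hm, m1, m2⟩ := f4 G hG
        have d0 : 0 ≤ dist m.1 G.1 := dist_nonneg
        rcases mem_union.1 hm with h | h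
        · exact ⟨by linarith [(hF m h).1], m2.trans (by nlinarith [(hF m h).2])⟩
        · obtain ⟨z, -, rfl⟩ := mem_image.1 h
          exact ⟨by simp only at m1 d0; linarith, m2.trans (by simp only; nlinarith)⟩
      have gO : ∀ p ∈ O, ∃ G ∈ F, dist p G.1 ≤ G.2 := fun p hp => by
        obtain ⟨z, hz, h⟩ := hO p hp
        obtain ⟨G, hG, h'⟩ := f2 z (mem_union_left _ hz)
        exact ⟨G, hG, by have := dist_triangle p z.1 G.1; linarith⟩
      have gT : ∀ s ∈ T, ∃ G ∈ F, dist s G.1 ≤ G.2 := fun s hs => by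
        obtain ⟨G, hG, h'⟩ := f2 (s, 0) (mem_union_right _ (mem_image_of_mem _ hs))
        exact ⟨G, hG, by simpa using h'⟩
      have hy : ∃ y ∈ P, ∀ G ∈ F, G.2 + σ < dist y G.1 := by
        by_contra hn
        push Not at hn
        have : ∀ y ∈ Y, ∃ s ∈ T, dist y s ≤ 2 * ((2 * c + 4) ^ (q0 + a) * σ) := by
          intro y hy
          obtain ⟨G, hG, h⟩ := hn y (hY hy)
          obtain ⟨m, hm, m1, m2⟩ := f4 G hG
          have d1 := dist_triangle y G.1 m.1
          rw [dist_comm G.1 m.1] at d1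
          rcases mem_union.1 hm with h' | h'
          · have := hYO y hy m h'
            linarith [(hF m h').1]
          · obtain ⟨z, hz, rfl⟩ := mem_image.1 h'
            refine ⟨z, hz, ?_⟩
            simp only [add_zero, zero_add] at m1 m2 d1
            linarith
        choose! f hf1 hf2 using this
        have := card_le_card_of_injOn f (s := Y) (t := T) hf1 fun y hy y' hy' h => by
          by_contra hne
          have a1 := hYY y hy y' hy' hne
          have a2 := hf2 y hy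
          have a3 := hf2 y' hy'
          have a4 := dist_triangle y (f y) y'
          rw [← h, dist_comm] at a3
          linarith
        omega
      rcases stage (O := O) (P := P) (τ := τ) hA hc hσ f1 g0 (by nlinarith) f3 gO hy with
        h | ⟨s, s1, s2, s3⟩
      · exact Or.inl h
      have hT : ∀ s' ∈ T, σ / 2 < dist s' s := fun s' hs' => by
        obtain ⟨G, hG, h⟩ := gT s' hs'
        exact s3 s' G hG h
      have hsT : s ∉ T := fun h => by
        have := hT s h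
        rw [dist_self] at this
        linarith
      refine Or.inr ⟨insert s T, insert_subset s1 t1, by rw [card_insert_of_notMem hsT, t2],
        fun s' hs' => ?_, fun u hu v hv huv => ?_⟩
      · rcases mem_insert.1 hs' with rfl | h
        · refine ⟨s2, fun p hp => ?_⟩
          obtain ⟨G, hG, h⟩ := gO p hp
          exact s3 p G hG h
        · exact t3 s' h
      · rcases mem_insert.1 hu with rfl | hu' <;> rcases mem_insert.1 hv with rfl | hv'
        · exact absurd rfl huv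
        · rw [dist_comm]; exact hT v hv'
        · exact hT u hu'
        · exact t4 u hu' v hv' huv
  exact main a le_rfl


end Crest.Agent.N337.Sd
end

-- ▼ part N337/E/TDefs

/-!
# Row 337, ENG (helper30): routes, skeletons, realisation (definitions)

Positions live in `V = ℤ³` (sup norm) and are read on the torus through `tcast L`.
A skeleton is a finite set of terms.  The code of a term is a number in base `Q`; the node of level
`m` above the code `u` is `u / Q ^ (m + 1)`.  Births are `g 0, g 1, …, g (nb - 1)`; the state at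
time `i` is `St g i = {g 0, …, g (i - 1)}`.
-/

set_option autoImplicit false
set_option linter.unusedSectionVars false

namespace Crest.Agent.N337.Tr

open Finset Crest.MathPhysics.SpinModel Sd Rg

/-- parameters of the engine (those of the rung system are in `Rg.Sys`). -/
structure Eg where
  /-- no junk at level `mt` -/
  mt : ℕ
  /-- points of a J1 leaf, their range -/
  n1 : ℕ
  r0 : ℕ
  /-- base of the codes -/
  Q : ℕ
  /-- far balls: distance `≥ c *` radius -/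
  c : ℕ
  /-- static covering balls in a triple cell -/
  N0 : ℕ
  /-- steps per window (grid slices = multiples of `D`) -/
  D : ℕ
  /-- clean ball of a seed -/
  A : ℕ → ℕ
  /-- chains have `Ns * jl` links -/
  Ns : ℕ → ℕ
  jl : ℕ → ℕ
  /-- radius of the covering balls of all junk -/
  Sg : ℕ → ℕ
  /-- largest far ball -/
  W : ℕ → ℕ
  /-- range in which a route has to avoid the junk -/
  Rs : ℕ → ℕ
  /-- long loops -/
  Rl : ℕ → ℕ
  /-- range of the grid point of a link -/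
  lo : ℕ → ℕ
  /-- distance from a term to its seed of level `l` -/
  rr : ℕ → ℕ
  /-- range of the search of the highest failing level -/
  kp : ℕ → ℕ

namespace Eg
variable (G : Eg)
/-- separation of seeds. -/
def σ (m : ℕ) : ℕ := 4 * G.A m * (G.Ns m * G.jl m)
end Eg

section par
variable {L : ℕ} {α κ : Type} [SemilatticeSup α] [Preorder κ] (S : Sys (Tor 3 L) α κ) (G : Eg)

/-- arity. -/
def ar : ℕ := S.a1 + 1
/-- constant of the merge. -/
def Cm : ℕ := (2 * G.c + 4) ^ (G.N0 + ar S * S.N + ar S)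
/-- isolation constant of a target. -/
def Lm : ℕ := 4 * Cm S G + 2
/-- number of far balls. -/
def qf : ℕ := G.N0 + ar S * S.N + ar S + (G.N0 + 27 * S.a1)

/-- all inequalities used by the deterministic part. -/
structure Ok : Prop where
  d : ∀ x y, S.d x y = tdist x y
  c2 : 2 ≤ G.c
  lam : G.c * Lm S G + 1 ≤ S.Lam
  Q1 : ar S ≤ G.Q ∧ G.n1 ≤ G.Q ∧ 2 ≤ G.Q
  jl : ∀ m, 1 ≤ G.Ns m ∧ 1 ≤ G.jl m ∧ G.jl m ≤ G.Q ^ (m + 2)
  sep : ∀ m, 4 * Cm S G * G.σ m ≤ S.sep m
  Sg : ∀ m, S.Lam * S.Sx m ≤ G.Sg m ∧ S.sep m ≤ S.Sx m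
  W : ∀ m, Cm S G * (G.Sg m + G.σ m) ≤ G.W m
  H : ∀ m, Lm S G * G.Sg m + G.kp m ≤ S.H m
  kp : ∀ m, (G.c + 1) * G.Sg m ≤ G.kp m ∧ G.kp m ≤ S.ρ (m + 1)
  A : ∀ m, 1 ≤ G.A m ∧ 5 * S.ρ m ≤ G.A m ∧ G.lo m ≤ G.A m
  room : ∀ m, (G.N0 + 27 * S.a1 + 1) * ((G.c + 1) * G.Sg m) ≤ S.ρ (m + 1) ∧
    G.Rs m ≤ S.ρ (m + 1) ∧ G.A m ≤ G.Rs m ∧ Lm S G * G.Sg m ≤ S.ρ (m + 1)
  rr0 : G.r0 ≤ G.rr 0
  rr : ∀ m, G.rr m + 2 * S.ρ (m + 1) + G.kp m + G.σ m ≤ G.rr (m + 1)
  rrσ : ∀ m, 8 * G.rr m ≤ G.σ m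
  hL : ∀ m < G.mt, 20 * S.ρ (m + 1) < L

/-- **route datum of level `l` at `s`** for the junk `J`: a clean ball, a free axis cone, far balls. -/
def Rt (l : ℕ) (J : Tor 3 L → Prop) (s : V) : Prop :=
  ∃ (e : Fin 3 × Bool) (F : Finset (V × ℝ)), F.card ≤ qf S G ∧
    (∀ B ∈ F, (G.σ l : ℝ) ≤ B.2 ∧ B.2 ≤ G.W l ∧ G.c * B.2 ≤ dist s B.1) ∧
    ∀ p, J (tcast L p) → dist p s ≤ G.Rs l →
      ((G.A l : ℝ) < dist p s ∧ hgt e p - hgt e s < dist p s ∧ dist p s ≤ (G.c + 3) * G.W l) ∨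
        ∃ B ∈ F, dist p B.1 ≤ B.2

/-- route data at the levels `lo ≤ l < hi`. -/
def RR (lo hi : ℕ) (J : ℕ → Tor 3 L → Prop) (x : V) : Prop :=
  ∀ l, lo ≤ l → l < hi → ∃ s, dist x s ≤ G.rr l ∧ Rt S G l (J l) s

/-- **tube data** from the level `lo` on. -/
def TB (lo : ℕ) (J : ℕ → Tor 3 L → Prop) (x : V) : Prop := RR S G lo G.mt J x

/-- the static junk `U` (and everything that is not isolated from it) is sparse. -/
def UC (U : ℕ → Tor 3 L → Prop) : Prop :=
  ∀ m < G.mt, ∀ b, (∀ y, tdist b y ≤ 4 * S.ρ (m + 1) → ¬ U (m + 1) y) →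
    ∃ F : Finset (Tor 3 L), F.card ≤ G.N0 ∧ ∀ y, tdist b y ≤ 3 * S.ρ (m + 1) →
      (U m y ∨ ¬ S.Iso U m y) → ∃ f ∈ F, tdist f y ≤ G.Sg m

/-- no static junk of level `m` near `z`. -/
def Fre (U : ℕ → Tor 3 L → Prop) (m : ℕ) (z : V) : Prop :=
  ∀ p, U m (tcast L p) → (G.A m : ℝ) < dist p z

end par

/-! ### skeletons -/

/-- space-time points with a position in `ℤ³`. -/
abbrev Pv (T n : ℕ) : Type := Fin T × V × Fin n

/-- the point of the torus. -/
def pj (L : ℕ) {T n : ℕ} (x : Pv T n) : Fin T × (Tor 3 L × Fin n) := (x.1, (tcast L x.2.1, x.2.2))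

/-- target, free tag, short chain, product event. -/
inductive Dt (T n : ℕ) : Type
  | tg (x : Pv T n)
  | fr
  | sc (xs : List (Pv T n))
  | pr (z : V)

/-- code, level, datum. -/
structure Term (T n : ℕ) : Type where
  cd : ℕ
  lv : ℕ
  dt : Dt T n

noncomputable instance (T n : ℕ) : DecidableEq (Term T n) := Classical.decEq _

/-- the box of radius `r`. -/
noncomputable def box (z : V) (r : ℕ) : Finset V := Fintype.piFinset fun a => Icc (z a - r) (z a + r)

/-- grid points over a box. -/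
noncomputable def gp (T n D : ℕ) (z : V) (r : ℕ) : Finset (Pv T n) :=
  (univ.filter fun s : Fin T => D ∣ s.val) ×ˢ (box z r ×ˢ univ)

section fam
variable {L : ℕ} {α κ : Type} [SemilatticeSup α] [Preorder κ] (S : Sys (Tor 3 L) α κ) (G : Eg)
  (T n : ℕ)

/-- the targets `f j` with the codes `u + j`. -/
noncomputable def tgs (u lv : ℕ) {N : ℕ} (f : Fin N → Pv T n) : Finset (Term T n) :=
  univ.image fun j : Fin N => ⟨u + j.val, lv, .tg (f j)⟩

open Classical in
/-- J1 data: `n1` distinct points on one grid slice. -/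
noncomputable def dJ (z : V) : Finset (Fin G.n1 → Pv T n) :=
  (Fintype.piFinset fun _ => gp T n G.D z G.r0).filter fun f =>
    Function.Injective f ∧ ∀ i j, (f i).1 = (f j).1

open Classical in
/-- short chains: `Ns` grid points, total length bounded. -/
noncomputable def dS (m : ℕ) (z : V) : Finset (Fin (G.Ns m) → Pv T n) :=
  (Fintype.piFinset fun _ => gp T n G.D z (G.σ m)).filter fun f =>
    ∑ i : Fin (G.Ns m), ∑ j : Fin (G.Ns m), (if j.val = i.val + 1 then dist (f i).2.1 (f j).2.1 else 0) ≤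
      G.σ m

open Classical in
/-- long links: `jl` distinct grid points. -/
noncomputable def dL (m : ℕ) (z : V) : Finset (Fin (G.jl m) → Pv T n) :=
  (Fintype.piFinset fun _ => gp T n G.D z (G.σ m)).filter Function.Injective

/-- terminals of the node `(m, k)` at `z`. -/
noncomputable def Tm : ℕ → ℕ → V → Finset (Finset (Term T n))
  | 0, k, z => insert {⟨k * G.Q, 0, .pr z⟩} ((dJ G T n z).image (tgs T n (k * G.Q) 0))
  | m + 1, k, z => (box z (2 * S.ρ (m + 1))).biUnion fun z' =>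
      insert {⟨k * G.Q ^ (m + 2), m + 1, .pr z'⟩}
        ((dS G T n m z').image (fun f => {⟨k * G.Q ^ (m + 2), m + 1, .sc (List.ofFn f)⟩}) ∪
          (dL G T n m z').image (tgs T n (k * G.Q ^ (m + 2)) (m + 1)))

/-- free tags of the node `(m, k)`. -/
noncomputable def Tg (m k : ℕ) : Finset (Finset (Term T n)) :=
  insert ∅ ((range (G.Q ^ (m + 1))).image fun j => {⟨k * G.Q ^ (m + 1) + j, m, .fr⟩})

open Classical in
/-- positions of the children (level `m`). -/
noncomputable def Ps (m : ℕ) (z : V) : Finset (Fin (ar S) → V) :=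
  (Fintype.piFinset fun _ => box z (2 * S.ρ (m + 1))).filter fun s =>
    ∀ i j, i ≠ j → (G.σ m : ℝ) / 2 < dist (s i) (s j)

/-- **skeletons** of the node `(m, k)` at `z`. -/
noncomputable def Fam : ℕ → ℕ → V → Finset (Finset (Term T n))
  | 0, k, z => image₂ (· ∪ ·) (Tg G T n 0 k) (Tm S G T n 0 k z)
  | m + 1, k, z => image₂ (· ∪ ·) (Tg G T n (m + 1) k) (Tm S G T n (m + 1) k z ∪
      (Ps S G m z).biUnion fun s =>
        (Fintype.piFinset fun j => Fam m (k * G.Q + j.val) (s j)).image fun f => univ.biUnion f)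

/-- skeletons of an item of level `m` at `y` (virtual parent of code `0`). -/
noncomputable def Top (m : ℕ) (y : V) : Finset (Finset (Term T n)) :=
  Tm S G T n (m + 1) 0 y ∪ (box y (2 * S.ρ (m + 1))).biUnion fun s => Fam S G T n m 0 s

/-- weight of a skeleton. -/
noncomputable def Wt {T n : ℕ} (w : Term T n → ℝ) (𝒮 : Finset (Term T n)) : ℝ := ∏ t ∈ 𝒮, w t

variable {T n}

/-- the positions of a term. -/
def Term.At (t : Term T n) (v : V) : Prop :=
  match t.dt with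
  | .tg x => v = x.2.1
  | .fr => False
  | .sc xs => ∃ x ∈ xs, v = x.2.1
  | .pr z => v = z

/-- **static shape** of a skeleton below the node `(m, k)` at `z`. -/
structure Shp (m k : ℕ) (z : V) (𝒮 : Finset (Term T n)) : Prop where
  cd : ∀ t ∈ 𝒮, t.cd / G.Q ^ (m + 1) = k ∧ t.lv ≤ m
  loc : ∀ t ∈ 𝒮, ∀ v, t.At v → dist v z ≤ G.rr m
  /-- different nodes are far apart -/
  sep : ∀ t ∈ 𝒮, ∀ t' ∈ 𝒮, ∀ v v', t.At v → t'.At v' → ∀ l, t.lv ≤ l →
    t.cd / G.Q ^ (l + 1) ≠ t'.cd / G.Q ^ (l + 1) → (G.σ l : ℝ) / 4 < dist v v'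
  /-- a terminal fills its node -/
  own : ∀ t ∈ 𝒮, ∀ t' ∈ 𝒮, t.dt ≠ .fr → t'.dt ≠ .fr → t ≠ t' →
    t.cd / G.Q ^ (t.lv + 1) = t'.cd / G.Q ^ (t.lv + 1) → t'.lv = t.lv ∧ t.cd ≠ t'.cd ∧
      ∃ x x', t.dt = .tg x ∧ t'.dt = .tg x' ∧ x ≠ x' ∧ (t.lv = 0 → x.1 = x'.1)
  grid : ∀ u l x, ⟨u, l, .tg x⟩ ∈ 𝒮 → G.D ∣ x.1.val
  len : ∀ u l xs, ⟨u, l, .sc xs⟩ ∈ 𝒮 → 1 ≤ l ∧ xs.length = G.Ns (l - 1)
  tag : ∀ u l l' x, ⟨u, l, .fr⟩ ∈ 𝒮 → ⟨u, l', .tg x⟩ ∈ 𝒮 → l' ≤ l

end fam

/-! ### realisation -/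

section real
variable {L : ℕ} {α κ : Type} [SemilatticeSup α] [Preorder κ] (S : Sys (Tor 3 L) α κ) (G : Eg)
  {T n : ℕ} {Γ : Type} [DecidableEq Γ]

/-- state at time `i`. -/
def St (g : ℕ → Γ) (i : ℕ) : Finset Γ := (range i).image g

/-- static junk and failing cells of the state `C`. -/
def Jc (U : ℕ → Tor 3 L → Prop) (Lf : Finset Γ → Tor 3 L → Prop) (C : Finset Γ) (l : ℕ)
    (y : Tor 3 L) : Prop := U l y ∨ S.Fl U (Lf C) l y

/-- the data of one configuration: points of a loop, class level, leaves, product events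
(`Ev 0` = PR leaf, `Ev (m + 1)` = FAST of level `m`). -/
structure Cf (L T n : ℕ) (Γ : Type) where
  pts : Γ → Finset (Fin T × (Tor 3 L × Fin n))
  lk : Γ → ℕ
  U : ℕ → Tor 3 L → Prop
  Lf : Finset Γ → Tor 3 L → Prop
  Ev : ℕ → V → Prop

variable (K : Cf L T n Γ)

/-- the loop `γ` leaves the ball of radius `Rl m` round `x`. -/
def Lng (m : ℕ) (γ : Γ) (x : Pv T n) : Prop :=
  ∃ y ∈ K.pts γ, G.Rl m < tdist (tcast L x.2.1) y.2.1

/-- what the deterministic part needs to know about the leaves and the births `g 0 … g (nb-1)`. -/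
structure Dyn (g : ℕ → Γ) (nb : ℕ) : Prop where
  uc : UC S G K.U
  top : ∀ y, ¬ Jc S K.U K.Lf (St g nb) G.mt y
  mono : ∀ C C' y, C ⊆ C' → K.Lf C y → K.Lf C' y
  zero : ∀ y, ¬ K.Lf ∅ y
  loc : ∀ i < nb, ∀ y, K.Lf (St g (i + 1)) y → ¬ K.Lf (St g i) y →
    ∃ v ∈ K.pts (g i), tdist y v.2.1 ≤ S.ρ 0
  leaf : ∀ i ≤ nb, ∀ z : V, K.Lf (St g i) (tcast L z) → K.Ev 0 z ∨
    ∃ f ∈ dJ G T n z, ∀ j, ∃ i' < i, pj L (f j) ∈ K.pts (g i')
  fast : ∀ m, ∀ z : V, ¬ K.Ev (m + 1) z → ∀ i < nb, ∀ v ∈ K.pts (g i),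
    tdist (tcast L z) v.2.1 ≤ S.loc m → ∃ x ∈ gp T n G.D z (G.lo m), pj L x ∈ K.pts (g i)

/-- **realisation** of a skeleton by the births before the time `t`, routes below the level `hi`. -/
structure Real (g : ℕ → Γ) (t hi : ℕ) (𝒮 : Finset (Term T n)) : Prop where
  tg : ∀ u l x, ⟨u, l, .tg x⟩ ∈ 𝒮 → ∃ i < t, pj L x ∈ K.pts (g i) ∧
    RR S G l hi (Jc S K.U K.Lf (St g i)) x.2.1 ∧ (l ≠ 0 → Lng G K (l - 1) (g i) x) ∧
    (∀ u' x', ⟨u', l, .tg x'⟩ ∈ 𝒮 → l ≠ 0 → u' / G.Q ^ (l + 1) = u / G.Q ^ (l + 1) →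
      pj L x' ∈ K.pts (g i) → u' = u) ∧
    ((∀ u' l' x', ⟨u', l', .tg x'⟩ ∈ 𝒮 → pj L x' ∈ K.pts (g i) → u ≤ u') →
      (∃ l', ⟨u, l', .fr⟩ ∈ 𝒮 ∧ K.lk (g i) ≤ l') ∨
        RR S G (max l (K.lk (g i))) hi (Jc S K.U K.Lf (St g (i + 1))) x.2.1)
  sc : ∀ u l xs, ⟨u, l, .sc xs⟩ ∈ 𝒮 → ∃ ι : Fin xs.length → ℕ, StrictMono ι ∧ ∀ j, ι j < t ∧
    pj L xs[j] ∈ K.pts (g (ι j)) ∧ ¬ Lng G K (l - 1) (g (ι j)) xs[j]
  pr : ∀ u l z, ⟨u, l, .pr z⟩ ∈ 𝒮 → K.Ev l z ∧ Fre G K.U (l - 1) z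

/-- **(Det)** a failing isolated cell has a realised skeleton at the highest failing level.
The births are disjoint loops. -/
def DetStmt : Prop :=
  ∀ (g : ℕ → Γ) (nb : ℕ), Ok S G → Dyn S G K g nb →
    (∀ i < nb, ∀ j < nb, i ≠ j → Disjoint (K.pts (g i)) (K.pts (g j))) →
    ∀ m < G.mt, ∀ x : V, (∀ l, m ≤ l → l < G.mt → S.Iso K.U l (tcast L x)) →
      S.Fl K.U (K.Lf (St g nb)) m (tcast L x) →
      ∃ l, m ≤ l ∧ l < G.mt ∧ ∃ y ∈ box x (G.kp l), ∃ 𝒮 ∈ Top S G T n l y,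
        Real S G K g nb G.mt 𝒮

end real

end Crest.Agent.N337.Tr
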