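import Crest.Agent.N337.E.Step
import Crest.Agent.N337.G1.Cap

-- ▼ part N337/E/TubeA
section

/-!
# Row 337, ENG (helper92): chains of balls in `ℤ³` (walks, shells, rays)
-/

set_option autoImplicit false
set_option linter.unusedSectionVars false

namespace Crest.Agent.N337.Tb

open Finset Sd Tr

/-- centre, radius, level. -/
abbrev Sta : Type := V × ℕ × ℕ

/-- consecutive balls. -/
def Lk (a b : Sta) : Prop := 2 * dist a.1 b.1 ≤ a.2.1 ∧ b.2.1 ≤ 2 * a.2.1 ∧ a.2.1 ≤ b.2.1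

/-- a chain of free balls of total cost at most `τ`. -/
inductive Rch (Fr : Sta → Prop) (w : ℕ → ℕ → ℝ) : Sta → Sta → ℝ → Prop
  | refl (a : Sta) {τ : ℝ} : 0 ≤ τ → Rch Fr w a a τ
  | step {a b c : Sta} {τ τ' : ℝ} : Fr a → Lk a b → Rch Fr w b c τ → w a.2.1 a.2.2 + τ ≤ τ' →
      Rch Fr w a c τ'

variable {Fr : Sta → Prop} {w : ℕ → ℕ → ℝ} {a b c : Sta} {τ τ' : ℝ}

lemma Rch.mono (h : Rch Fr w a b τ) (ht : τ ≤ τ') : Rch Fr w a b τ' := by
  cases h with
  | refl _ h => exact .refl _ (h.trans ht)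
  | step h1 h2 h3 h4 => exact .step h1 h2 h3 (h4.trans ht)

lemma Rch.trans (h : Rch Fr w a b τ) (h' : Rch Fr w b c τ') : Rch Fr w a c (τ + τ') := by
  induction h with
  | refl _ h => exact h'.mono (by linarith)
  | step h1 h2 _ h4 ih => exact .step h1 h2 (ih h') (by linarith)

lemma Rch.one (h1 : Fr a) (h2 : Lk a b) : Rch Fr w a b (w a.2.1 a.2.2) :=
  .step h1 h2 (.refl _ le_rfl) (by simp)

lemma Rch.seq (h : Rch Fr w a b τ) : ∃ (N : ℕ) (f : ℕ → Sta), f 0 = a ∧ f N = b ∧ f (N + 1) = b ∧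
    (∀ i < N, Fr (f i) ∧ Lk (f i) (f (i + 1))) ∧ ∑ i ∈ range N, w (f i).2.1 (f i).2.2 ≤ τ := by
  induction h with
  | refl a h => exact ⟨0, fun _ => a, rfl, rfl, rfl, by simp, by simpa⟩
  | @step a b c τ τ' h1 h2 _ h4 ih =>
    obtain ⟨N, f, e0, e1, e2, h5, h6⟩ := ih
    refine ⟨N + 1, fun i => Nat.casesOn i a f, rfl, e1, e2, fun i hi => ?_, ?_⟩
    · rcases i with _ | i
      · exact ⟨h1, by simpa [e0] using h2⟩
      · exact h5 i (by omega)
    · rw [sum_range_succ']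
      simp only [Nat.rec_zero]
      linarith

lemma dist_walk {γ : ℕ → V} {Q : ℕ} (h : ∀ k, dist (γ k) (γ (k + 1)) ≤ Q) (a j : ℕ) :
    dist (γ a) (γ (a + j)) ≤ (j * Q : ℕ) := by
  induction j with
  | zero => simp
  | succ j ih =>
    have := dist_triangle (γ a) (γ (a + j)) (γ (a + j + 1))
    have := h (a + j)
    push_cast at *
    rw [← add_assoc]
    linarith

/-- a walk at constant radius. -/
lemma walk {γ : ℕ → V} {Q r μ M i j : ℕ} (hw : 0 ≤ w r μ) (hQ : 1 ≤ Q) (hr : 2 * Q ≤ r)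
    (h : ∀ k, dist (γ k) (γ (k + 1)) ≤ Q) (hij : i ≤ j) (hM : j ≤ i + M * r)
    (hF : ∀ k, i ≤ k → k ≤ j → Fr (γ k, r, μ)) :
    Rch Fr w (γ i, r, μ) (γ j, r, μ) (4 * Q * M * w r μ) := by
  set Δ := r / (2 * Q) with hΔ
  have h1 : Δ * (2 * Q) ≤ r := Nat.div_mul_le_self _ _
  have h2 : r < Δ * (2 * Q) + 2 * Q := by
    have := Nat.lt_div_mul_add (a := r) (show 0 < 2 * Q by omega); omega
  have h3 : 1 ≤ Δ := (Nat.le_div_iff_mul_le (by omega)).2 (by omega)
  have key : ∀ m i, i ≤ j → j ≤ i + m * Δ → (∀ k, i ≤ k → k ≤ j → Fr (γ k, r, μ)) →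
      Rch Fr w (γ i, r, μ) (γ j, r, μ) (m * w r μ) := by
    intro m
    induction m with
    | zero => intro i a1 a2 _; rw [show i = j by omega]; exact .refl _ (by simp)
    | succ m ih =>
      intro i a1 a2 a3
      obtain ⟨t, t1, t2, t3⟩ : ∃ t, t ≤ Δ ∧ i + t ≤ j ∧ j ≤ i + t + m * Δ :=
        ⟨min Δ (j - i), by omega, by omega, by rw [add_mul] at a2; omega⟩
      refine .step (b := (γ (i + t), r, μ)) (a3 i le_rfl a1) ⟨?_, by simp only; omega, le_rfl⟩
        (ih (i + t) t2 t3 fun k k1 k2 => a3 k (by omega) k2) (by push_cast; linarith)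
      have a4 := dist_walk h i t
      have a5 : 2 * (t * Q) ≤ r := by nlinarith
      have a6 : (2 * (t * Q : ℕ) : ℝ) ≤ r := by exact_mod_cast a5
      simp only
      linarith
  have := key (4 * Q * M) i hij (hM.trans (by
    have : r ≤ 4 * Q * Δ := by nlinarith
    nlinarith)) hF
  simpa using this

/-- a move inside the box spanned by the two ends. -/
lemma move {r μ M : ℕ} (hw : 0 ≤ w r μ) (hr : 2 ≤ r) {y y' : V} (hM : dist y y' ≤ (M * r : ℕ))
    (hF : ∀ p : V, (∀ i, min (y i) (y' i) ≤ p i ∧ p i ≤ max (y i) (y' i)) → Fr (p, r, μ)) :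
    Rch Fr w (y, r, μ) (y', r, μ) (4 * M * w r μ) := by
  set γ : ℕ → V := fun k i => if y i ≤ y' i then min (y i + k) (y' i) else max (y i - k) (y' i)
  have h0 : γ 0 = y := funext fun i => by simp only [γ]; split_ifs <;> omega
  have h1 : γ (M * r) = y' := funext fun i => by
    have := dist_le_iff.1 hM i
    simp only [γ]; split_ifs <;> omega
  have := walk (Fr := Fr) (γ := γ) (Q := 1) (M := M) (i := 0) (j := M * r) hw le_rfl hr
    (fun k => dist_le_iff.2 fun i => by simp only [γ]; split_ifs <;> omega) (Nat.zero_le _)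
    (by omega) fun k _ _ => hF _ fun i => by simp only [γ]; split_ifs <;> omega
  rw [h0, h1] at this
  simpa using this

/-- the shell `D ≤ |p - x| ≤ 2 D`. -/
def Sh (x : V) (D : ℕ) (p : V) : Prop := (D : ℝ) ≤ dist p x ∧ dist p x ≤ (2 * D : ℕ)

lemma le_dist_iff {u v : V} {r : ℕ} (hr : 1 ≤ r) :
    (r : ℝ) ≤ dist u v ↔ ∃ a, r ≤ (u a - v a).natAbs := by
  obtain ⟨r, rfl⟩ : ∃ r', r = r' + 1 := ⟨r - 1, by omega⟩
  obtain ⟨t, ht⟩ := exists_nat u v
  have := dist_le_iff (u := u) (v := v) (r := r)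
  rw [ht, Nat.cast_le] at *
  constructor
  · intro h
    by_contra h1
    push Not at h1
    have := this.2 fun a => by have := h1 a; omega
    omega
  · rintro ⟨a, h⟩
    by_contra h1
    have := this.1 (by omega) a
    omega

/-- shells are connected. -/
lemma shell {r μ M D : ℕ} (hw : 0 ≤ w r μ) (hr : 2 ≤ r) (hD : 1 ≤ D) (hM : 4 * D ≤ M * r)
    {x y y' : V} (hy : Sh x D y) (hy' : Sh x D y') (hF : ∀ p, Sh x D p → Fr (p, r, μ)) :
    Rch Fr w (y, r, μ) (y', r, μ) (12 * M * w r μ) := by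
  obtain ⟨a, ha⟩ := (le_dist_iff hD).1 hy.1
  obtain ⟨a', ha'⟩ := (le_dist_iff hD).1 hy'.1
  obtain ⟨b, b1, b2⟩ := (by decide : ∀ a a' : Fin 3, ∃ b : Fin 3, b ≠ a ∧ b ≠ a') a a'
  have k := dist_le_iff.1 hy.2
  have k' := dist_le_iff.1 hy'.2
  have mv : ∀ (u u' : V) (e : Fin 3), (∀ i, (u i - x i).natAbs ≤ 2 * D) →
      (∀ i, (u' i - x i).natAbs ≤ 2 * D) → u e = u' e → D ≤ (u e - x e).natAbs →
      Rch Fr w (u, r, μ) (u', r, μ) (4 * M * w r μ) := fun u u' e c1 c2 c3 c4 =>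
    move hw hr (dist_le_iff.2 fun i => by have := c1 i; have := c2 i; omega) fun p hp =>
      hF p ⟨(le_dist_iff hD).2 ⟨e, by have := hp e; omega⟩, dist_le_iff.2 fun i => by
        have := c1 i; have := c2 i; have := hp i; omega⟩
  have up : ∀ u : V, (∀ i, (u i - x i).natAbs ≤ 2 * D) →
      ∀ i, (Function.update u b (x b + D) i - x i).natAbs ≤ 2 * D := fun u hu i => by
    by_cases h : i = b
    · subst h; rw [Function.update_self]; omega
    · rw [Function.update_of_ne h]; exact hu i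
  have := ((mv _ _ a k (up _ k) (by rw [Function.update_of_ne b1.symm]) ha).trans
    (mv _ _ b (up _ k) (up _ k') (by simp) (by rw [Function.update_self]; omega))).trans
    (mv _ _ a' (up _ k') k' (by rw [Function.update_of_ne b2.symm])
      (by rwa [Function.update_of_ne b2.symm]))
  exact this.mono (by linarith)

/-- doubling along a ray. -/
lemma dbl {γ : ℕ → V} {Q μ i : ℕ} (hw : ∀ r, 0 ≤ w r μ)
    (hw2 : ∀ r, 2 ≤ r → 4 * w (2 * r) μ ≤ 3 * w r μ) (hQ : 1 ≤ Q) (hr : 2 * Q ≤ 2 ^ i)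
    (h : ∀ k, dist (γ k) (γ (k + 1)) ≤ Q) (j : ℕ) (hij : i ≤ j)
    (hF : ∀ t k, i ≤ t → t < j → 8 * 2 ^ t ≤ k → k ≤ 16 * 2 ^ t → Fr (γ k, 2 ^ t, μ)) :
    Rch Fr w (γ (8 * 2 ^ i), 2 ^ i, μ) (γ (8 * 2 ^ j), 2 ^ j, μ)
      (132 * Q * (w (2 ^ i) μ - w (2 ^ j) μ)) := by
  induction j, hij using Nat.le_induction with
  | base => exact .refl _ (by simp)
  | succ j hij ih =>
    have a0 : 2 ^ i ≤ 2 ^ j := Nat.pow_le_pow_right two_pos hij
    have a1 := walk (Fr := Fr) (γ := γ) (M := 8) (i := 8 * 2 ^ j) (j := 16 * 2 ^ j) (hw (2 ^ j)) hQ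
      (hr.trans a0) h (by omega) (by omega) fun k k1 k2 => hF j k hij (by omega) k1 k2
    have a2 : Rch Fr w (γ (16 * 2 ^ j), 2 ^ j, μ) (γ (8 * 2 ^ (j + 1)), 2 ^ (j + 1), μ) _ :=
      .one (hF j _ hij (by omega) (by omega) le_rfl)
        ⟨by rw [show 8 * 2 ^ (j + 1) = 16 * 2 ^ j by ring]; simp, by simp only; omega,
          by simp only; omega⟩
    refine (((ih fun t k t1 t2 => hF t k t1 (by omega)).trans a1).trans a2).mono ?_
    have a3 := hw2 (2 ^ j) (by omega)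
    rw [← pow_succ'] at a3
    have a4 := hw (2 ^ j)
    have a5 : (1 : ℝ) ≤ Q := by exact_mod_cast hQ
    push_cast
    nlinarith

/-! ### rays in a cone -/

/-- the ray of slope `k / Q`. -/
def ray (s : V) (e : Fin 3 × Bool) (Q k n : ℕ) : V := fun i =>
  s i + n * (if i = e.1 then (if e.2 then (Q : ℤ) else -Q) else if i = e.1 + 1 then k else 0)

variable {s p : V} {e : Fin 3 × Bool} {Q k n : ℕ}

lemma ray_ax : (ray s e Q k n e.1 - s e.1) = if e.2 then (n * Q : ℤ) else -(n * Q) := by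
  simp only [ray, if_true]; split_ifs <;> ring

lemma ray_tr : (ray s e Q k n (e.1 + 1) - s (e.1 + 1)) = n * k := by
  have : e.1 + 1 ≠ e.1 := by generalize e.1 = a; revert a; decide
  simp [ray, this]

lemma ray_ne {i : Fin 3} (h : i ≠ e.1) : (ray s e Q k n i - s i).natAbs ≤ n * k := by
  simp only [ray, if_neg h]
  split_ifs <;> simp [Int.natAbs_mul]

lemma ray_step (hk : k ≤ Q) (n : ℕ) : dist (ray s e Q k n) (ray s e Q k (n + 1)) ≤ Q :=
  dist_le_iff.2 fun i => by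
    simp only [ray]
    push_cast
    split_ifs <;> rw [add_mul] <;> omega

lemma ray_dist (hk : k ≤ Q) : dist (ray s e Q k n) s = (n * Q : ℕ) := by
  refine le_antisymm (dist_le_iff.2 fun i => ?_) ?_
  · by_cases h : i = e.1
    · rw [h, ray_ax, ← Nat.cast_mul]; split_ifs <;> omega
    · exact (ray_ne h).trans (Nat.mul_le_mul_left _ hk)
  · rcases Nat.eq_zero_or_pos (n * Q) with h | h
    · rw [h]; simp
    · exact (le_dist_iff h).2 ⟨e.1, by rw [ray_ax, ← Nat.cast_mul]; split_ifs <;> omega⟩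

/-- the neighbourhood of a ray lies in the cone. -/
lemma ray_cone (hk : 2 * k ≤ Q) (hQ : 1 ≤ Q) {t : ℕ} (ht : 4 * t ≤ n)
    (h : dist p (ray s e Q k n) ≤ t) : dist p s ≤ hgt e p - hgt e s := by
  have h1 := dist_le_iff.1 h
  have h2 := h1 e.1
  have h3 := ray_ax (s := s) (e := e) (Q := Q) (k := k) (n := n)
  have h4 : 2 * (n * k) ≤ n * Q := by nlinarith
  have h5 : n ≤ n * Q := by nlinarith
  rw [← Nat.cast_mul] at h3
  have : hgt e p - hgt e s = ((p e.1 - s e.1).natAbs : ℕ) := by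
    rw [← Int.cast_natCast]
    unfold hgt
    split_ifs at h3 ⊢
    · rw [← Int.cast_sub]; congr 1; omega
    · rw [← Int.cast_neg, ← Int.cast_neg, ← Int.cast_sub]; congr 1; omega
  rw [this]
  refine dist_le_iff.2 fun i => ?_
  by_cases hi : i = e.1
  · rw [hi]
  · have := h1 i
    have := ray_ne (s := s) (Q := Q) (k := k) (n := n) hi
    split_ifs at h3 <;> omega

/-- a far ball meets at most one ray. -/
lemma ray_far {c : ℕ} (hc : 12 * Q + 5 ≤ c) {z p' : V} {v : ℝ} (hz : c * v ≤ dist s z)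
    {k' n' t t' : ℕ} (hk : 2 * k ≤ Q) (hk' : 2 * k' ≤ Q) (hn : n ≤ n') (hn' : 1 ≤ n')
    (ht : 4 * t ≤ n) (ht' : 4 * t' ≤ n') (h : dist p (ray s e Q k n) ≤ t)
    (h' : dist p' (ray s e Q k' n') ≤ t') (hp : dist p z ≤ v) (hp' : dist p' z ≤ v) : k = k' := by
  by_contra hne
  obtain ⟨Δ, hΔ⟩ := exists_nat (ray s e Q k n) (ray s e Q k' n')
  have a1 := dist_triangle4 (ray s e Q k n) p z (ray s e Q k' n')
  have a2 := dist_triangle z p' (ray s e Q k' n')
  have a3 := dist_triangle4 s (ray s e Q k' n') p' z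
  rw [dist_comm s (ray s e Q k' n'), ray_dist (by omega), dist_comm _ p'] at a3
  rw [dist_comm _ p] at a1
  rw [dist_comm z p'] at a2
  have b1 := dist_le_iff.1 hΔ.le e.1
  have b2 := dist_le_iff.1 hΔ.le (e.1 + 1)
  have b3 := ray_ax (s := s) (e := e) (Q := Q) (k := k) (n := n)
  have b4 := ray_ax (s := s) (e := e) (Q := Q) (k := k') (n := n')
  have b5 := ray_tr (s := s) (e := e) (Q := Q) (k := k) (n := n)
  have b6 := ray_tr (s := s) (e := e) (Q := Q) (k := k') (n := n')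
  obtain ⟨m, rfl⟩ := Nat.exists_eq_add_of_le hn
  rw [← Nat.cast_mul] at b3 b4 b5 b6
  rw [add_mul] at b4 b6
  have c1 : m * Q ≤ Δ := by split_ifs at b3 b4 <;> omega
  have c2 : 2 * (m * k) ≤ m * Q := by nlinarith
  have c3 : 2 * (n + m) ≤ 3 * Δ := by
    rcases lt_or_gt_of_ne hne with h1 | h1
    · have : n * k + m * k + (n + m) ≤ n * k' + m * k' := by nlinarith
      omega
    · have : n * k' + m * k' + (n + m) ≤ n * k + m * k := by nlinarith
      omega
  have d1 : (2 * (n + m) : ℝ) ≤ 3 * Δ := by exact_mod_cast c3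
  have d2 : (4 * t : ℝ) ≤ n := by exact_mod_cast ht
  have d3 : (4 * t' : ℝ) ≤ n + m := by exact_mod_cast ht'
  have d4 : (1 : ℝ) ≤ n + m := by exact_mod_cast hn'
  have d5 : (12 * Q + 5 : ℝ) ≤ c := by exact_mod_cast hc
  have d6 : (0 : ℝ) ≤ m := Nat.cast_nonneg _
  have d7 : (0 : ℝ) ≤ Q := Nat.cast_nonneg _
  push_cast at a3
  have e1 : (n + m : ℝ) ≤ 12 * v := by linarith
  nlinarith

/-- a ray that misses all far balls. -/
lemma exists_ray {c q : ℕ} (hc : 12 * Q + 5 ≤ c) (hq : 2 * q ≤ Q) {F : Finset (V × ℝ)}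
    (hF : F.card ≤ q) (hz : ∀ B ∈ F, c * B.2 ≤ dist s B.1) : ∃ k, 2 * k ≤ Q ∧
      ∀ (n t : ℕ) p, 1 ≤ n → 4 * t ≤ n → dist p (ray s e Q k n) ≤ t → ∀ B ∈ F, B.2 < dist p B.1 := by
  by_contra h
  push Not at h
  choose! n t p h1 h2 h3 B h4 h5 using h
  have := card_le_card_of_injOn (s := range (q + 1)) (t := F) B
    (fun k hk => h4 k (by simp at hk; omega)) fun k hk k' hk' hB => by
      have a : 2 * k ≤ Q := by simp at hk; omega
      have a' : 2 * k' ≤ Q := by simp at hk'; omega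
      have b' := h5 k' a'
      rw [← hB] at b'
      rcases le_total (n k) (n k') with h | h
      · exact ray_far hc (hz _ (h4 k a)) a a' h (h1 k' a') (h2 k a) (h2 k' a') (h3 k a) (h3 k' a')
          (h5 k a) b'
      · exact (ray_far hc (hz _ (h4 k a)) a' a h (h1 k a) (h2 k' a') (h2 k a) (h3 k' a') (h3 k a)
          b' (h5 k a)).symm
  rw [card_range] at this
  omega

end Crest.Agent.N337.Tb
end

-- ▼ part N337/E/Tube

/-!
# Row 337, ENG (helper92): from route data `Tr.TB` to a tube of G1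

The junk of level `l ≥ lo` inside `B(x, R l)` is declared a wall (`Us`); the tube follows a ray in
the free cone of the seed of level `l`, then turns inside the clean ball of the next seed.
-/

set_option autoImplicit false
set_option linter.unusedSectionVars false

namespace Crest.Agent.N337.Tb

open Finset Crest.MathPhysics.SpinModel Sd Tr Rg G1 Geo Free

variable {L : ℕ} [NeZero L] {α κ : Type} [SemilatticeSup α] [Preorder κ]
  (S : Sys (Tor 3 L) α κ) (G : Eg) (P : Scales) (k k' th : ℕ → ℕ)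

/-- inverse aperture of the rays. -/
def QQ : ℕ := 2 * qf S G + 2

/-- radius of the walls of level `l`. -/
noncomputable def Rw (l : ℕ) : ℕ := G.rr l + 32 * QQ S G * 2 ^ k' l + P.ρ (l + 1)

/-- numerical side conditions: `2 ^ k l` = radius at the start of the ray of level `l`,
`2 ^ k' l` = radius from which on the junk of level `l` is filled. -/
structure Nu : Prop where
  mt : P.mt = G.mt + 1
  c : 12 * QQ S G + 5 ≤ G.c
  kk : ∀ l < G.mt, k l ≤ k' l ∧ k' l ≤ k (l + 1)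
  big : ∀ l ≤ G.mt, 2 * QQ S G ≤ 2 ^ k l
  rr : ∀ l < G.mt, G.rr l ≤ 2 * QQ S G * 2 ^ k l ∧ th l ≤ 2 ^ k l ∧ 16 * QQ S G * 2 ^ k l ≤ G.A l
  σ : ∀ l < G.mt, G.A l ≤ G.σ l ∧ G.A l ≤ G.Rs l
  Rs : ∀ l < G.mt, Rw S G P k' l + G.rr l + th l ≤ G.Rs l
  R : ∀ l, l + 1 < G.mt → Rw S G P k' l ≤ 2 * QQ S G * 2 ^ k (l + 1)
  η : ∀ l < G.mt, P.η (l + 1) ≤ 2 ^ k' l
  top : ∀ m ≤ G.mt, 4 * P.η m ≤ 2 ^ k G.mt
  hL : 32 * QQ S G * 2 ^ k G.mt < L

/-- cost of a ball. -/
noncomputable def cw (r μ : ℕ) : ℝ := √(P.K (μ - 1) / (2 * (r : ℝ) + 1))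

/-- total cost of the tube. -/
noncomputable def tau (lo hi : ℕ) : ℝ :=
  600 * QQ S G * (cw P (2 ^ k lo) (lo + 1) + ∑ l ∈ Ico lo hi, cw P (2 ^ k' l) (l + 2))

/-- the junk with walls. -/
noncomputable def Us (U : ℕ → Finset (Tor 3 L)) (X : Tor 3 L) (lo m : ℕ) : Finset (Tor 3 L) :=
  U m ∪ (Ico lo m).biUnion fun l => U (l + 1) ∩ bl X (Rw S G P k' l)

variable {S G P k k' th} {U : ℕ → Finset (Tor 3 L)} {X : Tor 3 L} {lo l m r μ : ℕ}
  {J : ℕ → Tor 3 L → Prop} {x y : V}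

lemma cw_nn (r μ : ℕ) : 0 ≤ cw P r μ := Real.sqrt_nonneg _

lemma cw_anti {r' : ℕ} (h : r ≤ r') (μ : ℕ) : cw P r' μ ≤ cw P r μ :=
  Real.sqrt_le_sqrt (div_le_div_of_nonneg_left (zero_le_one.trans (one_le_K P _)) (by positivity)
    (by have : (r : ℝ) ≤ r' := by exact_mod_cast h
        linarith))

lemma cw_two (μ r : ℕ) (h : 2 ≤ r) : 4 * cw P (2 * r) μ ≤ 3 * cw P r μ := by
  have h0 := zero_le_one.trans (one_le_K P (μ - 1))
  have h1 : (2 : ℝ) ≤ r := by exact_mod_cast h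
  refine (abs_le_of_sq_le_sq' ?_ (by have := cw_nn (P := P) r μ; linarith)).2
  unfold cw
  rw [mul_pow, mul_pow, Real.sq_sqrt (by positivity), Real.sq_sqrt (by positivity), ← mul_div_assoc,
    ← mul_div_assoc, div_le_div_iff₀ (by positivity) (by positivity)]
  push_cast
  nlinarith

lemma mem_Us {u : Tor 3 L} : u ∈ Us S G P k' U X lo m ↔
    u ∈ U m ∨ ∃ l, lo ≤ l ∧ l < m ∧ u ∈ U (l + 1) ∧ tdist X u ≤ Rw S G P k' l := by
  simp only [Us, mem_union, mem_biUnion, mem_Ico, mem_inter, mem_bl, and_assoc]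

lemma sub_Us : U m ⊆ Us S G P k' U X lo m := subset_union_left

/-- points of level exactly `m`. -/
lemma exact_Us {u : Tor 3 L} (h : u ∈ Us S G P k' U X lo m) (h' : u ∉ Us S G P k' U X lo (m + 1)) :
    u ∈ U m ∧ u ∉ U (m + 1) ∧ ∀ l, lo ≤ l → m = l + 1 → Rw S G P k' l < tdist X u := by
  rw [mem_Us] at h h'
  push Not at h'
  have h1 : u ∈ U m := h.resolve_right fun ⟨l, a, b, c, d⟩ => (h'.2 l a (by omega) c).not_ge d
  exact ⟨h1, h'.1, fun l a b => h'.2 l a (by omega) (b ▸ h1)⟩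

lemma Nu.mono (h : Nu S G P k k' th) {a b : ℕ} (hab : a ≤ b) (hb : b ≤ G.mt) : 2 ^ k a ≤ 2 ^ k b := by
  refine Nat.pow_le_pow_right two_pos ?_
  induction b, hab using Nat.le_induction with
  | base => rfl
  | succ b _ ih => have := h.kk b hb; have := ih (by omega); omega

lemma Nu.le' (h : Nu S G P k k' th) (hl : l < G.mt) : 2 ^ k l ≤ 2 ^ k' l ∧ 2 ^ k' l ≤ 2 ^ k (l + 1) :=
  ⟨Nat.pow_le_pow_right two_pos (h.kk l hl).1, Nat.pow_le_pow_right two_pos (h.kk l hl).2⟩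

lemma two_le_Q : 2 ≤ QQ S G := by unfold QQ; omega

theorem cov_Us (h : Nu S G P k k' th) (hm : m < P.mt) (hc : CovIn P U m) :
    CovIn P (Us S G P k' U X lo) m := by
  intro c h1 h2
  obtain ⟨a1, a2, a3⟩ := exact_Us h1 h2
  obtain ⟨F, b1, b2⟩ := hc c a1 a2
  refine ⟨F, b1, fun y hy hd => b2 y ?_ hd⟩
  rcases mem_Us.1 hy with hy | ⟨l, c1, c2, c3, c4⟩
  · exact hy
  rcases (show l + 1 = m ∨ l + 1 < m by omega) with e | e
  · exact e ▸ c3
  obtain ⟨m, rfl⟩ : ∃ m', m = m' + 1 := ⟨m - 1, by omega⟩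
  have d0 := h.mt
  have d1 := a3 m (by omega) rfl
  have d2 := h.R l (by omega)
  have d3 := h.mono (show l + 1 ≤ m by omega) (by omega)
  have d4 := (h.le' (l := m) (by omega)).1
  have d5 := h.η m (by omega)
  have d6 := tdist_triangle X y c
  have d7 := two_le_Q (S := S) (G := G)
  rw [tdist_comm y c] at d6
  unfold Rw at d1
  nlinarith

/-- the ball `B(y, r)` misses the walls of level `l`. -/
def Av (S : Sys (Tor 3 L) α κ) (G : Eg) (P : Scales) (k' th : ℕ → ℕ) (J : ℕ → Tor 3 L → Prop)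
    (x : V) (l : ℕ) (y : V) (r : ℕ) : Prop :=
  ∀ p, J l (tcast L p) → dist p y ≤ (r + th l : ℕ) → dist p x ≤ (Rw S G P k' l + th l : ℕ) → False

/-- free balls. -/
def Fre (P : Scales) (U : ℕ → Finset (Tor 3 L)) (a : Sta) : Prop :=
  Near P U (tcast L a.1) a.2.2 a.2.1 ∧ 4 ≤ a.2.1 ∧ 2 * a.2.1 < L ∧ 1 ≤ a.2.2

lemma fre_of (h : Nu S G P k k' th) (hU : U P.mt = ∅)
    (hJ : ∀ l < G.mt, ∀ u ∈ U (l + 1), ∃ u', tdist u u' ≤ th l ∧ J l u') {D : ℕ}
    (hD : dist y x ≤ D) (h1 : D ≤ 12 * QQ S G * 2 ^ k G.mt) (h2 : 4 ≤ r ∧ r ≤ 2 ^ k G.mt)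
    (hμ : lo + 1 ≤ μ) (h3 : μ ≤ G.mt → D + r ≤ 32 * QQ S G * 2 ^ k' (μ - 1))
    (h4 : ∀ l, lo ≤ l → l < G.mt → Av S G P k' th J x l y r) :
    Fre P (Us S G P k' U (tcast L x) lo) (y, r, μ) := by
  have d0 := h.mt
  have d1 := h.hL
  have d7 := two_le_Q (S := S) (G := G)
  refine ⟨fun u hu => ⟨fun hw => ?_, fun m m1 m2 hw => ?_⟩, h2.1, by simp only; nlinarith,
    by simp only; omega⟩
  · simp only at hu
    rcases mem_Us.1 hw with hw | ⟨l, c1, c2, c3, c4⟩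
    · simp [hU] at hw
    rcases (show l + 1 = P.mt ∨ l < G.mt by omega) with e | e
    · simp [e, hU] at c3
    obtain ⟨u', e1, e2⟩ := hJ l e u c3
    have e3 : dist (lf y u') y ≤ (r + th l : ℕ) := by
      rw [dist_lf]; exact_mod_cast (tdist_triangle _ u _).trans (add_le_add hu e1)
    have e4 := (h.rr l e).2.1.trans (h.mono e.le le_rfl)
    refine h4 l c1 e (lf y u') (by rwa [tcast_lf]) e3 ((dist_le_tdist (L := L) ?_).trans ?_)
    · have := dist_triangle (lf y u') y x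
      have e5 : 2 * (r + th l + D) < L := by nlinarith
      have e6 : (2 * (r + th l + D) : ℝ) < L := by exact_mod_cast e5
      push_cast at e3
      linarith
    · rw [tcast_lf, tdist_comm]
      exact_mod_cast (tdist_triangle _ u _).trans (add_le_add c4 e1)
  · simp only at hu m1
    obtain ⟨v, c1, c2, c3⟩ := mem_Fm.1 hw
    obtain ⟨m, rfl⟩ : ∃ m', m = m' + 1 := ⟨m - 1, by omega⟩
    have e1 := (exact_Us c1 c2).2.2 m (by omega) rfl
    have e2 := h3 (by omega)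
    have e3 : 2 ^ k' (μ - 1) ≤ 2 ^ k' m := by
      rcases (show μ - 1 = m ∨ μ - 1 < m by omega) with e | e
      · rw [e]
      · exact (h.le' (by omega)).2.trans ((h.mono e (by omega)).trans (h.le' (by omega)).1)
    have e4 := tdist_le_of (L := L) hD
    have e5 := tdist_triangle (tcast L x) (tcast L y) v
    have e6 := tdist_triangle (tcast L y) u v
    rw [tdist_comm] at e4 c3
    unfold Rw at e1
    nlinarith

lemma av_low (h : Nu S G P k k' th) (hl : l + 1 < G.mt) (hr : 2 ^ k (l + 1) ≤ r)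
    (hy : ((6 * QQ S G * r : ℕ) : ℝ) ≤ dist y x) : Av S G P k' th J x l y r := by
  intro p _ h1 h2
  have a1 := dist_triangle_left y x p
  have a2 := h.R l hl
  have a3 := (h.rr l (by omega)).2.1.trans (h.mono (Nat.le_succ l) hl.le)
  have a4 := two_le_Q (S := S) (G := G)
  have a5 := h.big (l + 1) hl.le
  have a6 : r + th l + (Rw S G P k' l + th l) < 6 * QQ S G * r := by
    simp only [Nat.succ_eq_add_one] at a3; nlinarith
  have a7 : ((r + th l + (Rw S G P k' l + th l) : ℕ) : ℝ) < (6 * QQ S G * r : ℕ) := by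
    exact_mod_cast a6
  push_cast at *
  linarith

lemma av_high (h : Nu S G P k k' th) (hl : l < G.mt) {s : V} (hs : dist x s ≤ G.rr l)
    (H : Rt S G l (J l) s) (hr : r ≤ 2 ^ k l) (hy : dist y x ≤ (12 * QQ S G * 2 ^ k l : ℕ)) :
    Av S G P k' th J x l y r := by
  intro p hp h1 _
  obtain ⟨e, F, -, a2, a3⟩ := H
  obtain ⟨b1, b2, b3⟩ := h.rr l hl
  have b4 := two_le_Q (S := S) (G := G)
  have b5 : r + th l + 12 * QQ S G * 2 ^ k l + G.rr l ≤ G.A l := by nlinarith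
  have b6 : ((r + th l + 12 * QQ S G * 2 ^ k l + G.rr l : ℕ) : ℝ) ≤ G.A l := by exact_mod_cast b5
  have b7 := dist_triangle4 p y x s
  have b8 : dist p s ≤ G.A l := by push_cast at *; linarith
  rcases a3 p hp (b8.trans (by exact_mod_cast (h.σ l hl).2)) with c | ⟨B, c1, c2⟩
  · exact c.1.not_ge b8
  · obtain ⟨d1, -, d3⟩ := a2 B c1
    have d4 := dist_triangle_left s B.1 p
    have d5 : (G.A l : ℝ) ≤ G.σ l := by exact_mod_cast (h.σ l hl).1
    have d6 : (5 : ℝ) ≤ G.c := by exact_mod_cast (show 5 ≤ G.c by have := h.c; omega)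
    have d7 : (1 : ℝ) ≤ G.A l := by
      exact_mod_cast (show 1 ≤ G.A l by have := h.big l hl.le; nlinarith)
    nlinarith

lemma av_ray (h : Nu S G P k k' th) (hl : l < G.mt) {s : V} (hs : dist x s ≤ G.rr l)
    (H : Rt S G l (J l) s) : ∃ γ : ℕ → V, (∀ n, dist (γ n) (γ (n + 1)) ≤ QQ S G) ∧
      (∀ n, dist (γ n) s = (n * QQ S G : ℕ)) ∧
      ∀ n r, 2 ^ k l ≤ r → 8 * r ≤ n → Av S G P k' th J x l (γ n) r := by
  obtain ⟨e, F, a1, a2, a3⟩ := H
  obtain ⟨j, b1, b2⟩ := exists_ray (s := s) (e := e) h.c (show 2 * qf S G ≤ QQ S G by unfold QQ; omega)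
    a1 fun B hB => (a2 B hB).2.2
  refine ⟨ray s e (QQ S G) j, ray_step (by omega), fun n => ray_dist (by omega),
    fun n r h1 h2 p hp c1 c2 => ?_⟩
  have d1 := (h.rr l hl).2.1
  have d2 := two_le_Q (S := S) (G := G)
  have d3 := h.big l hl.le
  have d4 : ((Rw S G P k' l + G.rr l + th l : ℕ) : ℝ) ≤ G.Rs l := by exact_mod_cast h.Rs l hl
  have d5 := dist_triangle p x s
  rcases a3 p hp (by push_cast at *; linarith) with c | ⟨B, c3, c4⟩
  · exact c.2.1.not_ge (ray_cone b1 (by omega) (by omega) c1)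
  · exact (b2 n _ p (by omega) (by omega) c1 B c3).not_ge c4

/-- one level of the route. -/
lemma phase (h : Nu S G P k k' th) (hU : U P.mt = ∅)
    (hJ : ∀ l < G.mt, ∀ u ∈ U (l + 1), ∃ u', tdist u u' ≤ th l ∧ J l u') (H : TB S G lo J x)
    (h1 : lo ≤ l) (hl : l < G.mt)
    (hy : (l = lo ∧ y = x) ∨ (lo < l ∧ Sh x (6 * QQ S G * 2 ^ k l) y)) :
    ∃ y', Sh x (6 * QQ S G * 2 ^ k (l + 1)) y' ∧
      Fre P (Us S G P k' U (tcast L x) lo) (y', 2 ^ k (l + 1), l + 2) ∧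
      Rch (Fre P (Us S G P k' U (tcast L x) lo)) (cw P) (y, 2 ^ k l, l + 1)
        (y', 2 ^ k (l + 1), l + 2)
        (421 * QQ S G * cw P (2 ^ k l) (l + 1) + 132 * QQ S G * cw P (2 ^ k' l) (l + 2)) := by
  obtain ⟨s, hs, Hs⟩ := H l h1 hl
  obtain ⟨γ, g1, g2, g3⟩ := av_ray h hl hs Hs
  have hQ := two_le_Q (S := S) (G := G)
  have a1 := h.big l hl.le
  have a2 := (h.rr l hl).1
  obtain ⟨a3, a4⟩ := h.le' hl
  have a5 := h.mono (show l + 1 ≤ G.mt from hl) le_rfl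
  set Q := QQ S G with hQe
  have a2' : (G.rr l : ℝ) ≤ 2 * Q * 2 ^ k l := by exact_mod_cast a2
  -- distances along the ray
  have dγ : ∀ n r, 2 ^ k l ≤ r → 8 * r ≤ n → ((6 * Q * r : ℕ) : ℝ) ≤ dist (γ n) x ∧
      dist (γ n) x ≤ (n * Q + 2 * Q * 2 ^ k l : ℕ) := fun n r b1 b2 => by
    have b3 := dist_triangle_right (γ n) x s
    have b4 := dist_triangle (γ n) x s
    have b5 : 6 * Q * r + 2 * Q * 2 ^ k l ≤ n * Q := by nlinarith
    have b6 : ((6 * Q * r + 2 * Q * 2 ^ k l : ℕ) : ℝ) ≤ (n * Q : ℕ) := by exact_mod_cast b5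
    rw [g2] at b3 b4
    push_cast at *
    constructor <;> linarith
  have high : ∀ (p : V) r l', l ≤ l' → l' < G.mt → r ≤ 2 ^ k l' →
      dist p x ≤ (12 * Q * 2 ^ k l' : ℕ) → Av S G P k' th J x l' p r := fun p r l' b1 b2 b3 b4 => by
    obtain ⟨s', c1, c2⟩ := H l' (h1.trans b1) b2
    exact av_high h b2 c1 c2 b3 b4
  -- the ray is free
  have fγ : ∀ n r μ, 2 ^ k l ≤ r → r ≤ 2 ^ k (l + 1) → 8 * r ≤ n → n ≤ 16 * r →
      n ≤ 8 * 2 ^ k (l + 1) → (μ = l + 1 ∧ r ≤ 2 ^ k' l ∨ μ = l + 2) →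
      Fre P (Us S G P k' U (tcast L x) lo) (γ n, r, μ) := fun n r μ b1 b2 b3 b4 b5 b6 => by
    obtain ⟨c1, c2⟩ := dγ n r b1 b3
    have c3 : n * Q + 2 * Q * 2 ^ k l ≤ 12 * Q * 2 ^ k (l + 1) := by nlinarith
    refine fre_of h hU hJ c2 (c3.trans (by nlinarith)) ⟨by omega, by omega⟩ (by omega)
      (fun c4 => ?_) fun l' c4 c5 => ?_
    · rcases b6 with ⟨rfl, b6⟩ | rfl
      · rw [Nat.add_sub_cancel]; nlinarith
      · have := (h.le' (l := l + 1) (by omega)).1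
        rw [show l + 2 - 1 = l + 1 from rfl]; nlinarith
    · rcases lt_trichotomy l' l with c6 | rfl | c6
      · exact av_low h (by omega) ((h.mono c6 hl.le).trans b1) c1
      · exact g3 n r b1 b3
      · have := h.mono (show l + 1 ≤ l' from c6) c5.le
        exact high _ _ _ c6.le c5 (by omega) (c2.trans (by exact_mod_cast c3.trans (by nlinarith)))
  -- the shell is free
  have fs : ∀ p, dist p x ≤ (12 * Q * 2 ^ k l : ℕ) →
      (l = lo ∨ ((6 * Q * 2 ^ k l : ℕ) : ℝ) ≤ dist p x) →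
      Fre P (Us S G P k' U (tcast L x) lo) (p, 2 ^ k l, l + 1) := fun p b1 b2 => by
    refine fre_of h hU hJ b1 (by nlinarith) ⟨by omega, by omega⟩ (by omega)
      (fun _ => by rw [Nat.add_sub_cancel]; nlinarith) fun l' c4 c5 => ?_
    rcases lt_or_ge l' l with c6 | c6
    · exact av_low h (by omega) (h.mono c6 hl.le) (b2.resolve_left (by omega))
    · have := h.mono c6 c5.le
      exact high _ _ _ c6 c5 this (b1.trans (by exact_mod_cast (by nlinarith)))
  have sγ : ∀ r, 2 ^ k l ≤ r → Sh x (6 * Q * r) (γ (8 * r)) := fun r b1 =>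
    ⟨(dγ _ r b1 le_rfl).1, (dγ _ r b1 le_rfl).2.trans (by exact_mod_cast (by nlinarith))⟩
  have w0 := cw_nn (P := P) (2 ^ k l) (l + 1)
  have hQ' : (2 : ℝ) ≤ Q := by exact_mod_cast hQ
  have r1 : Rch (Fre P (Us S G P k' U (tcast L x) lo)) (cw P) (y, 2 ^ k l, l + 1)
      (γ (8 * 2 ^ k l), 2 ^ k l, l + 1) (288 * Q * cw P (2 ^ k l) (l + 1)) := by
    rcases hy with ⟨e, rfl⟩ | ⟨-, hy⟩
    · have b1 := (sγ _ le_rfl).2
      rw [show 2 * (6 * Q * 2 ^ k l) = 12 * Q * 2 ^ k l by ring] at b1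
      refine (move (M := 12 * Q) w0 (by omega) (by rwa [dist_comm]) fun p hp =>
        fs p (dist_le_iff.2 fun i => ?_) (.inl e)).mono (by push_cast; nlinarith)
      have := hp i
      have := dist_le_iff.1 b1 i
      omega
    · refine (shell (M := 24 * Q) w0 (by omega) (by nlinarith) (le_of_eq (by ring)) hy
        (sγ _ le_rfl) fun p hp => fs p (by have := hp.2; rwa [show 2 * (6 * Q * 2 ^ k l) =
          12 * Q * 2 ^ k l by ring] at this) (.inr hp.1)).mono (by push_cast; nlinarith)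
  have pw : ∀ {a b : ℕ}, a ≤ b → 2 ^ a ≤ 2 ^ b := Nat.pow_le_pow_right two_pos
  have pw' : ∀ {a b : ℕ}, a < b → 2 * 2 ^ a ≤ 2 ^ b := fun h => by rw [← pow_succ']; exact pw h
  have r2 := dbl (Fr := Fre P (Us S G P k' U (tcast L x) lo)) (w := cw P) (μ := l + 1)
    (fun r => cw_nn r _) (cw_two _) (by omega) a1 g1 (k' l) (h.kk l hl).1 fun t n b1 b2 b3 b4 => by
      have := pw b1; have := pw' b2
      exact fγ n _ _ (by omega) (by omega) b3 b4 (by omega) (.inl ⟨rfl, by omega⟩)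
  have r3 : Rch (Fre P (Us S G P k' U (tcast L x) lo)) (cw P) (γ (8 * 2 ^ k' l), 2 ^ k' l, l + 1)
      (γ (8 * 2 ^ k' l), 2 ^ k' l, l + 2) _ :=
    .one (fγ _ _ _ a3 a4 le_rfl (by omega) (by omega) (.inl ⟨rfl, le_rfl⟩))
      ⟨by simp, by simp only; omega, le_rfl⟩
  have r4 := dbl (Fr := Fre P (Us S G P k' U (tcast L x) lo)) (w := cw P) (μ := l + 2)
    (fun r => cw_nn r _) (cw_two _) (by omega) (a1.trans a3) g1 (k (l + 1)) (h.kk l hl).2
    fun t n b1 b2 b3 b4 => by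
      have := pw b1; have := pw' b2
      exact fγ n _ _ (by omega) (by omega) b3 b4 (by omega) (.inr rfl)
  refine ⟨_, sγ _ (by omega), fγ _ _ _ (by omega) le_rfl le_rfl (by omega) le_rfl (.inr rfl),
    (((r1.trans r2).trans r3).trans r4).mono ?_⟩
  have w1 := cw_nn (P := P) (2 ^ k' l) (l + 1)
  have w2 := cw_nn (P := P) (2 ^ k (l + 1)) (l + 2)
  have w3 := cw_anti (P := P) a3 (l + 1)
  simp only
  nlinarith

/-- **the tube.** -/
theorem tube (h : Nu S G P k k' th) (hU : U P.mt = ∅)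
    (hJ : ∀ l < G.mt, ∀ u ∈ U (l + 1), ∃ u', tdist u u' ≤ th l ∧ J l u') (H : TB S G lo J x)
    (hlo : lo ≤ G.mt) {d : ℕ} (hd : 2 * d ≤ 2 ^ k lo) :
    Near P (Us S G P k' U (tcast L x) lo) (tcast L x) (lo + 1) (2 ^ k lo) ∧
    ∃ N z c s r μ, μ 0 = lo + 1 ∧ s N = 2 ^ k G.mt / 4 ∧
      Tube P (Us S G P k' U (tcast L x) lo) (tcast L x) d N z c s r μ (tau S G P k k' lo G.mt) := by
  have hQ := two_le_Q (S := S) (G := G)
  have hQ' : (2 : ℝ) ≤ QQ S G := by exact_mod_cast hQ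
  have key : ∀ l, lo ≤ l → l ≤ G.mt → ∃ y τ,
      ((l = lo ∧ y = x) ∨ (lo < l ∧ Sh x (6 * QQ S G * 2 ^ k l) y)) ∧
      (l = G.mt → Fre P (Us S G P k' U (tcast L x) lo) (y, 2 ^ k l, l + 1)) ∧
      Rch (Fre P (Us S G P k' U (tcast L x) lo)) (cw P) (x, 2 ^ k lo, lo + 1) (y, 2 ^ k l, l + 1) τ ∧
      τ + 421 * QQ S G * cw P (2 ^ k l) (l + 1) ≤ tau S G P k k' lo l := by
    intro l h1
    induction l, h1 using Nat.le_induction with
    | base =>
      refine fun _ => ⟨x, 0, .inl ⟨rfl, rfl⟩, fun e => ?_, .refl _ le_rfl, ?_⟩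
      · have := h.big lo hlo
        exact fre_of (D := 0) h hU hJ (by simp) (Nat.zero_le _) ⟨by omega, by rw [e]⟩ le_rfl
          (by omega) (by omega)
      · have := cw_nn (P := P) (2 ^ k lo) (lo + 1)
        simp only [tau, Ico_self, sum_empty]
        nlinarith
    | succ l h1 ih =>
      intro h2
      obtain ⟨y, τ, a1, -, a2, a3⟩ := ih (by omega)
      obtain ⟨y', b1, b2, b3⟩ := phase h hU hJ H h1 h2 a1
      refine ⟨y', _, .inr ⟨by omega, b1⟩, fun _ => b2, a2.trans b3, ?_⟩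
      have w1 := cw_nn (P := P) (2 ^ k' l) (l + 2)
      have w3 := cw_anti (P := P) (h.le' h2).2 (l + 2)
      simp only [tau, sum_Ico_succ_top h1] at a3 ⊢
      nlinarith
  obtain ⟨y, τ, -, a1, a2, a3⟩ := key G.mt hlo le_rfl
  obtain ⟨N, f, e0, e1, e2, b1, b2⟩ := a2.seq
  have b3 : ∀ i < N + 1, Fre P (Us S G P k' U (tcast L x) lo) (f i) ∧ Lk (f i) (f (i + 1)) :=
    fun i hi => by
      rcases (show i < N ∨ i = N by omega) with c | rfl
      · exact b1 i c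
      · rw [e1, e2]; exact ⟨a1 rfl, by simp, by simp only; omega, le_rfl⟩
  have c0 := h.big lo hlo
  obtain ⟨j, hj⟩ : ∃ j, k lo = j + 1 := ⟨k lo - 1, by
    rcases Nat.eq_zero_or_pos (k lo) with c | c
    · rw [c] at c0; omega
    · omega⟩
  have c1 : (f 0).2.1 = 2 * 2 ^ j := by rw [e0, hj, pow_succ']
  refine ⟨by have := (b3 0 (by omega)).1.1; rwa [e0] at this, N + 1, fun i => tcast L (f i).1,
    fun i => tcast L (f i).1, fun i => if i = 0 then 2 ^ j - 1 else (f i).2.1 / 4,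
    fun i => (f i).2.1, fun i => (f i).2.2, by simp [e0], by simp [e2], by omega, by simp [e0],
    ⟨j, rfl⟩, ?_, fun i hi => (b3 i hi).1.2.2.1, fun i hi => ?_, fun i hi => ?_,
    fun i hi => ⟨(b3 i hi).1.2.2.2, (b3 i hi).1.1⟩, fun m hm => ?_, ?_⟩
  · rw [hj, pow_succ'] at hd; simp only [if_true, c1]; omega
  · obtain ⟨-, d1, d2, d3⟩ := b3 i hi
    have d4 : 2 * tdist (tcast L (f i).1) (tcast L (f (i + 1)).1) ≤ (f i).2.1 := by
      have := tdist_le_dist (L := L) (f i).1 (f (i + 1)).1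
      exact_mod_cast (show (2 * tdist (tcast L (f i).1) (tcast L (f (i + 1)).1) : ℝ) ≤ (f i).2.1 by
        linarith)
    simp only [tdist_self, Nat.succ_ne_zero, if_false]
    split_ifs with d5
    · subst d5; omega
    · omega
  · obtain ⟨⟨-, d0, -⟩, d1, d2, d3⟩ := b3 i hi
    simp only [Nat.succ_ne_zero, if_false]
    split_ifs with d5
    · subst d5; omega
    · omega
  · simp only [Nat.add_sub_cancel, e1, e2, Nat.succ_ne_zero, if_false] at hm ⊢
    have := h.top m (by omega)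
    omega
  · have := cw_nn (P := P) (2 ^ k G.mt) (G.mt + 1)
    rw [sum_range_succ, e1]
    change ∑ i ∈ range N, cw P (f i).2.1 (f i).2.2 + cw P (2 ^ k G.mt) (G.mt + 1) ≤ _
    nlinarith

end Crest.Agent.N337.Tb
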